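import Mathlib
import Vale.Agent.P205.Full.Mean
import Vale.Agent.P205.Full.Osc

/-!
# P205: families of profiles with bounds uniform in a frequency

A family of profiles indexed by `i` is bounded at scale `m i` when the derivatives of
`(x, s) ↦ P i (x, s / m i)` are bounded uniformly in `i`.  The class is closed under the
operations of the expansion, none of which differentiates in the phase.
-/

namespace Vale.Agent.P205.WKB

open scoped ContDiff
open Profile

noncomputable section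

/-- A point of the plane with a phase. -/
abbrev R3 := R2 × ℝ

/-- Division of the phase by `m`. -/
def scl (m : ℝ) : R3 →L[ℝ] R3 :=
  (ContinuousLinearMap.fst ℝ R2 ℝ).prod (m⁻¹ • ContinuousLinearMap.snd ℝ R2 ℝ)

@[simp] lemma scl_apply (m : ℝ) (q : R3) : scl m q = (q.1, m⁻¹ * q.2) := rfl

lemma scl_inv {m : ℝ} (hm : m ≠ 0) (q : R3) : scl m (q.1, m * q.2) = q := by
  simp [← mul_assoc, inv_mul_cancel₀ hm]

lemma norm_scl_le {m : ℝ} (hm : 1 ≤ m) : ‖scl m‖ ≤ 1 := by
  refine ContinuousLinearMap.opNorm_le_bound _ zero_le_one fun q => ?_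
  rw [one_mul, scl_apply, Prod.norm_def, Prod.norm_def]
  refine max_le_max le_rfl ?_
  rw [Real.norm_eq_abs, Real.norm_eq_abs, abs_mul, abs_of_nonneg (inv_nonneg.2 (by linarith))]
  exact mul_le_of_le_one_left (abs_nonneg _) (inv_le_one_of_one_le₀ hm)

variable {ι : Type} {E F G : Type} [NormedAddCommGroup E] [NormedSpace ℝ E]
  [NormedAddCommGroup F] [NormedSpace ℝ F] [NormedAddCommGroup G] [NormedSpace ℝ G]

/-- Derivatives of the rescaled family bounded uniformly in the index. -/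
def Bdd (m : ι → ℝ) (P : ι → R3 → E) : Prop :=
  ∀ n : ℕ, ∃ C, ∀ i q, ‖iteratedFDeriv ℝ n (fun q => P i (scl (m i) q)) q‖ ≤ C

/-- A family of profiles bounded at scale `m`. -/
structure Fam (m : ι → ℝ) (P : ι → R3 → E) : Prop where
  prof : ∀ i, IsProfile (P i)
  bdd : Bdd m P

variable {m : ι → ℝ}

lemma Fam.smooth {P : ι → R3 → E} (hP : Fam m P) (i : ι) : ContDiff ℝ ∞ (P i) := (hP.prof i).1

lemma Fam.smooth_scl {P : ι → R3 → E} (hP : Fam m P) (i : ι) :
    ContDiff ℝ ∞ fun q => P i (scl (m i) q) := (hP.smooth i).comp (scl (m i)).contDiff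

lemma Bdd.nonneg {P : ι → R3 → E} (hP : Bdd m P) (n : ℕ) :
    ∃ C, 0 ≤ C ∧ ∀ i q, ‖iteratedFDeriv ℝ n (fun q => P i (scl (m i) q)) q‖ ≤ C := by
  obtain ⟨C, hC⟩ := hP n
  exact ⟨max C 0, le_max_right _ _, fun i q => (hC i q).trans (le_max_left _ _)⟩

/-- Pointwise bound. -/
lemma Bdd.sup (hm : ∀ i, 1 ≤ m i) {P : ι → R3 → E} (hP : Bdd m P) :
    ∃ C, 0 ≤ C ∧ ∀ i q, ‖P i q‖ ≤ C := by
  obtain ⟨C, hC0, hC⟩ := hP.nonneg 0
  refine ⟨C, hC0, fun i q => ?_⟩
  have h := hC i (q.1, m i * q.2)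
  rwa [norm_iteratedFDeriv_zero, scl_inv (by linarith [hm i])] at h

lemma isProfile_comp {P : R3 → E} (hP : IsProfile P) {φ : E → F} (hφ : ContDiff ℝ ∞ φ) :
    IsProfile fun q => φ (P q) :=
  ⟨hφ.comp hP.1, fun z => ⟨congrArg φ (hP.2 z).1, congrArg φ (hP.2 z).2.1,
    congrArg φ (hP.2 z).2.2⟩⟩

lemma isProfile_fderiv {P : R3 → E} (hP : IsProfile P) : IsProfile (fderiv ℝ P) :=
  ⟨hP.1.fderiv_right (m := ∞) le_rfl, fun z =>
    ⟨by rw [← fderiv_comp_add_right, funext fun w => (hP.2 w).1],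
      by rw [← fderiv_comp_add_right, funext fun w => (hP.2 w).2.1],
      by rw [← fderiv_comp_add_right, funext fun w => (hP.2 w).2.2]⟩⟩

/-- A single profile, repeated. -/
lemma Fam.fixed (hm : ∀ i, 1 ≤ m i) {P : R3 → E} (hP : IsProfile P) :
    Fam m fun _ : ι => P := by
  refine ⟨fun _ => hP, fun n => ?_⟩
  obtain ⟨C, hC⟩ := hP.bound n
  refine ⟨max C 0, fun i q => ?_⟩
  show ‖iteratedFDeriv ℝ n (P ∘ scl (m i)) q‖ ≤ _
  rw [(scl (m i)).iteratedFDeriv_comp_right hP.1 q (by exact_mod_cast le_top)]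
  refine ((iteratedFDeriv ℝ n P (scl (m i) q)).norm_compContinuousLinearMap_le _).trans ?_
  rw [Finset.prod_const, Finset.card_univ, Fintype.card_fin]
  exact (mul_le_mul ((hC _).trans (le_max_left _ _)) (pow_le_one₀ (norm_nonneg _)
    (norm_scl_le (hm i))) (by positivity) (le_max_right _ _)).trans_eq (mul_one _)

/-- A fixed periodic map of the plane as a family. -/
lemma Fam.coef (hm : ∀ i, 1 ≤ m i) {g : R2 → E} (hg : Correction.Smooth2 g) :
    Fam m fun (_ : ι) (q : R3) => g q.1 :=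
  Fam.fixed hm ⟨hg.1.comp contDiff_fst, fun z => ⟨hg.2.1 z.1, hg.2.2 z.1,
    by show g (z.1 + 0) = g z.1; rw [add_zero]⟩⟩

lemma Fam.add {P Q : ι → R3 → E} (hP : Fam m P) (hQ : Fam m Q) :
    Fam m fun i q => P i q + Q i q := by
  refine ⟨fun i => ⟨(hP.smooth i).add (hQ.smooth i), fun z => ?_⟩, fun n => ?_⟩
  · exact ⟨congrArg₂ (· + ·) ((hP.prof i).2 z).1 ((hQ.prof i).2 z).1,
      congrArg₂ (· + ·) ((hP.prof i).2 z).2.1 ((hQ.prof i).2 z).2.1,
      congrArg₂ (· + ·) ((hP.prof i).2 z).2.2 ((hQ.prof i).2 z).2.2⟩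
  · obtain ⟨C, hC⟩ := hP.bdd n
    obtain ⟨D, hD⟩ := hQ.bdd n
    refine ⟨C + D, fun i q => ?_⟩
    rw [show (fun q => P i (scl (m i) q) + Q i (scl (m i) q)) =
        (fun q => P i (scl (m i) q)) + fun q => Q i (scl (m i) q) from rfl,
      iteratedFDeriv_add_apply ((hP.smooth_scl i).of_le (by exact_mod_cast le_top)).contDiffAt
        ((hQ.smooth_scl i).of_le (by exact_mod_cast le_top)).contDiffAt]
    exact (norm_add_le _ _).trans (add_le_add (hC i q) (hD i q))

lemma Fam.clm {P : ι → R3 → E} (hP : Fam m P) (L : E →L[ℝ] F) :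
    Fam m fun i q => L (P i q) := by
  refine ⟨fun i => isProfile_comp (hP.prof i) L.contDiff, fun n => ?_⟩
  obtain ⟨C, hC0, hC⟩ := hP.bdd.nonneg n
  exact ⟨‖L‖ * C, fun i q => (L.norm_iteratedFDeriv_comp_left (hP.smooth_scl i).contDiffAt
    (by exact_mod_cast le_top)).trans (mul_le_mul_of_nonneg_left (hC i q) (norm_nonneg L))⟩

lemma Fam.neg {P : ι → R3 → E} (hP : Fam m P) : Fam m fun i q => -P i q := by
  simpa using hP.clm (-(ContinuousLinearMap.id ℝ E))

lemma Fam.sub {P Q : ι → R3 → E} (hP : Fam m P) (hQ : Fam m Q) :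
    Fam m fun i q => P i q - Q i q := by
  simpa only [sub_eq_add_neg] using hP.add hQ.neg

lemma Fam.zero : Fam m fun (_ : ι) (_ : R3) => (0 : E) :=
  ⟨fun _ => ⟨contDiff_const, fun _ => ⟨rfl, rfl, rfl⟩⟩, fun n => ⟨0, fun i q => by simp⟩⟩

lemma Fam.sum {κ : Type*} (s : Finset κ) {P : κ → ι → R3 → E} (h : ∀ k ∈ s, Fam m (P k)) :
    Fam m fun i q => ∑ k ∈ s, P k i q := by
  classical
  induction s using Finset.induction with
  | empty => simpa using Fam.zero
  | insert k s hk ih =>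
    simp only [Finset.sum_insert hk]
    exact (h k (by simp)).add (ih fun j hj => h j (by simp [hj]))

lemma Fam.bilin {P : ι → R3 → E} {Q : ι → R3 → F} (hP : Fam m P) (hQ : Fam m Q)
    (B : E →L[ℝ] F →L[ℝ] G) : Fam m fun i q => B (P i q) (Q i q) := by
  refine ⟨fun i => ⟨(B.contDiff.comp (hP.smooth i)).clm_apply (hQ.smooth i), fun z => ?_⟩,
    fun n => ?_⟩
  · exact ⟨congrArg₂ (fun a b => B a b) ((hP.prof i).2 z).1 ((hQ.prof i).2 z).1,
      congrArg₂ (fun a b => B a b) ((hP.prof i).2 z).2.1 ((hQ.prof i).2 z).2.1,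
      congrArg₂ (fun a b => B a b) ((hP.prof i).2 z).2.2 ((hQ.prof i).2 z).2.2⟩
  · choose C hC0 hC using hP.bdd.nonneg
    choose D hD0 hD using hQ.bdd.nonneg
    refine ⟨‖B‖ * ∑ l ∈ Finset.range (n + 1), (n.choose l : ℝ) * C l * D (n - l), fun i q => ?_⟩
    refine (B.norm_iteratedFDeriv_le_of_bilinear (hP.smooth_scl i) (hQ.smooth_scl i) q
      (by exact_mod_cast le_top)).trans
        (mul_le_mul_of_nonneg_left (Finset.sum_le_sum fun l _ => ?_) (norm_nonneg B))
    exact mul_le_mul (mul_le_mul_of_nonneg_left (hC l i q) (Nat.cast_nonneg _)) (hD _ i q)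
      (norm_nonneg _) (mul_nonneg (Nat.cast_nonneg _) (hC0 l))

lemma Fam.smul {P : ι → R3 → ℝ} {Q : ι → R3 → E} (hP : Fam m P) (hQ : Fam m Q) :
    Fam m fun i q => P i q • Q i q :=
  hP.bilin hQ (ContinuousLinearMap.lsmul ℝ ℝ)

lemma Fam.mul {P Q : ι → R3 → ℝ} (hP : Fam m P) (hQ : Fam m Q) :
    Fam m fun i q => P i q * Q i q :=
  hP.bilin hQ (ContinuousLinearMap.mul ℝ ℝ)

lemma Fam.smul_bdd {P : ι → R3 → E} (hP : Fam m P) {c : ι → ℝ} {B : ℝ} (hc : ∀ i, |c i| ≤ B) :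
    Fam m fun i q => c i • P i q := by
  refine ⟨fun i => isProfile_comp (hP.prof i) (contDiff_id.const_smul (c i)), fun n => ?_⟩
  obtain ⟨C, hC0, hC⟩ := hP.bdd.nonneg n
  refine ⟨B * C, fun i q => ?_⟩
  rw [iteratedFDeriv_const_smul_apply'
    ((hP.smooth_scl i).of_le (by exact_mod_cast le_top)).contDiffAt, norm_smul, Real.norm_eq_abs]
  exact mul_le_mul (hc i) (hC i q) (norm_nonneg _) ((abs_nonneg _).trans (hc i))

lemma fderiv_comp_scl {P : R3 → E} (hP : ContDiff ℝ ∞ P) (k : ℝ) (q : R3) :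
    fderiv ℝ (fun q => P (scl k q)) q = (fderiv ℝ P (scl k q)).comp (scl k) := by
  show fderiv ℝ (P ∘ scl k) q = _
  rw [fderiv_comp q (hP.differentiable (by simp)).differentiableAt (scl k).differentiableAt,
    ContinuousLinearMap.fderiv]

/-- The derivative in the point, in the direction `v`. -/
def pd (v : R2) (P : R3 → E) (q : R3) : E := dPoint P q v

lemma Fam.pd {P : ι → R3 → E} (hP : Fam m P) (v : R2) : Fam m fun i => pd v (P i) := by
  have e : ∀ i q, WKB.pd v (P i) q = fderiv ℝ (P i) q (v, 0) := fun i q => rfl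
  refine ⟨fun i => ?_, fun n => ?_⟩
  · rw [show WKB.pd v (P i) = fun q => ContinuousLinearMap.apply ℝ E ((v, 0) : R3)
      (fderiv ℝ (P i) q) from funext (e i)]
    exact isProfile_comp (isProfile_fderiv (hP.prof i)) (ContinuousLinearMap.contDiff _)
  · obtain ⟨C, hC0, hC⟩ := hP.bdd.nonneg (n + 1)
    refine ⟨‖ContinuousLinearMap.apply ℝ E ((v, 0) : R3)‖ * C, fun i q => ?_⟩
    have h : (fun q => WKB.pd v (P i) (scl (m i) q)) = fun q =>
        ContinuousLinearMap.apply ℝ E ((v, 0) : R3) (fderiv ℝ (fun q => P i (scl (m i) q)) q) :=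
      funext fun q => by rw [fderiv_comp_scl (hP.smooth i), e]; simp
    rw [h]
    refine ((ContinuousLinearMap.apply ℝ E ((v, 0) : R3)).norm_iteratedFDeriv_comp_left
      (((hP.smooth_scl i).fderiv_right (m := ∞) le_rfl).contDiffAt)
      (by exact_mod_cast le_top)).trans (mul_le_mul_of_nonneg_left ?_ (norm_nonneg _))
    exact norm_iteratedFDeriv_fderiv.trans_le (hC i q)

/-- Bound along the phase `lam * x.1`. -/
theorem Fam.osc_bound (hm : ∀ i, 1 ≤ m i) {P : ι → R3 → E} (hP : Fam m P) (n : ℕ) :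
    ∃ C, 0 ≤ C ∧ ∀ i (lam : ℝ), 1 ≤ lam → ∀ x,
      ‖iteratedFDeriv ℝ n (fun x : R2 => P i (x, lam * x.1)) x‖ ≤ C * (m i * lam) ^ n := by
  obtain ⟨C, hC0, hC⟩ := hP.bdd.nonneg n
  refine ⟨C, hC0, fun i lam hlam x => ?_⟩
  have hmi := hm i
  obtain ⟨L, hL⟩ : ∃ L : R2 →L[ℝ] R3, L = (ContinuousLinearMap.id ℝ R2).prod
      ((m i * lam) • ContinuousLinearMap.fst ℝ ℝ ℝ) := ⟨_, rfl⟩
  have h1 : 1 ≤ m i * lam := one_le_mul_of_one_le_of_one_le hmi hlam
  have hN : ‖L‖ ≤ m i * lam := by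
    refine L.opNorm_le_bound (by linarith) fun y => ?_
    rw [hL, ContinuousLinearMap.prod_apply, Prod.norm_def]
    refine max_le (le_mul_of_one_le_left (norm_nonneg _) h1) ?_
    simp only [_root_.smul_apply, ContinuousLinearMap.coe_fst', smul_eq_mul,
      Real.norm_eq_abs, abs_mul]
    rw [← abs_mul, abs_of_nonneg (by linarith : (0 : ℝ) ≤ m i * lam)]
    exact mul_le_mul_of_nonneg_left (norm_fst_le y) (by linarith)
  have e : (fun x : R2 => P i (x, lam * x.1)) = (fun q => P i (scl (m i) q)) ∘ L :=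
    funext fun y => by
      simp only [hL, Function.comp_apply, ContinuousLinearMap.prod_apply,
        ContinuousLinearMap.coe_id', id_eq, _root_.smul_apply,
        ContinuousLinearMap.coe_fst', smul_eq_mul, scl_apply]
      rw [← mul_assoc, ← mul_assoc, inv_mul_cancel₀ (by linarith : m i ≠ 0), one_mul]
  rw [e, L.iteratedFDeriv_comp_right (hP.smooth_scl i) x (by exact_mod_cast le_top)]
  refine ((iteratedFDeriv ℝ n (fun q => P i (scl (m i) q))
    (L x)).norm_compContinuousLinearMap_le _).trans ?_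
  rw [Finset.prod_const, Finset.card_univ, Fintype.card_fin]
  exact mul_le_mul (hC i _) (pow_le_pow_left₀ (norm_nonneg _) hN n) (by positivity) hC0

end

end Vale.Agent.P205.WKB
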