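import Mathlib
import Vale.Agent.P205.Full.WKB.Family

/-!
# P205: means and primitives of bounded families of profiles
-/

namespace Vale.Agent.P205.WKB

open scoped ContDiff
open Profile intervalIntegral MeasureTheory

noncomputable section

/-- Forgetting the phase. -/
def pr0 : R3 →L[ℝ] R3 :=
  (ContinuousLinearMap.inl ℝ R2 ℝ).comp (ContinuousLinearMap.fst ℝ R2 ℝ)

@[simp] lemma pr0_apply (q : R3) : pr0 q = (q.1, 0) := rfl

variable {ι : Type} {m : ι → ℝ} {E : Type} [NormedAddCommGroup E] [NormedSpace ℝ E]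

/-- The derivative in the point as a linear map. -/
def der (P : R3 → E) (q : R3) : R3 →L[ℝ] E :=
  (fderiv ℝ P q).comp pr0

lemma Fam.der {P : ι → R3 → E} (hP : Fam m P) : Fam m fun i => der (P i) := by
  refine ⟨fun i => ?_, fun n => ?_⟩
  · rw [show WKB.der (P i) = fun q => (ContinuousLinearMap.compL ℝ R3 R3 E).flip pr0
      (fderiv ℝ (P i) q) from rfl]
    exact isProfile_comp (isProfile_fderiv (hP.prof i)) (ContinuousLinearMap.contDiff _)
  · obtain ⟨C, hC0, hC⟩ := hP.bdd.nonneg (n + 1)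
    refine ⟨‖(ContinuousLinearMap.compL ℝ R3 R3 E).flip pr0‖ * C, fun i q => ?_⟩
    have h : (fun q => WKB.der (P i) (scl (m i) q)) = fun q =>
        (ContinuousLinearMap.compL ℝ R3 R3 E).flip pr0
          (fderiv ℝ (fun q => P i (scl (m i) q)) q) :=
      funext fun q => by
        rw [fderiv_comp_scl (hP.smooth i)]
        ext <;> simp [WKB.der]
    rw [h]
    refine (((ContinuousLinearMap.compL ℝ R3 R3 E).flip pr0).norm_iteratedFDeriv_comp_left
      (((hP.smooth_scl i).fderiv_right (m := ∞) le_rfl).contDiffAt)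
      (by exact_mod_cast le_top)).trans (mul_le_mul_of_nonneg_left ?_ (norm_nonneg _))
    exact norm_iteratedFDeriv_fderiv.trans_le (hC i q)

variable [CompleteSpace E]

/-- The mean as a profile. -/
def meanP (P : R3 → E) (q : R3) : E := mean P q.1

lemma isProfile_meanP {P : R3 → E} (hP : IsProfile P) : IsProfile (meanP P) :=
  ⟨(contDiff_mean hP.1).comp contDiff_fst, fun z => ⟨(mean_periodic hP).1 z.1,
    (mean_periodic hP).2 z.1, by show mean P (z.1 + 0) = mean P z.1; rw [add_zero]⟩⟩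

lemma hasFDerivAt_mean {P : R3 → E} (hP : ContDiff ℝ ∞ P) (x : R2) :
    HasFDerivAt (mean P)
      (∫ t in (0 : ℝ)..1, (fderiv ℝ P (x, t)).comp (ContinuousLinearMap.inl ℝ R2 ℝ)) x :=
  ParamInt.hasFDerivAt_integral01 (hP.of_le (by exact_mod_cast le_top)) x

lemma fderiv_meanP {P : R3 → E} (hP : ContDiff ℝ ∞ P) (q : R3) :
    fderiv ℝ (meanP P) q = meanP (der P) q := by
  have hq : HasFDerivAt (fun q : R3 => q.1) (ContinuousLinearMap.fst ℝ R2 ℝ) q :=
    hasFDerivAt_fst
  rw [show meanP P = mean P ∘ (fun q : R3 => q.1) from rfl,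
    ((hasFDerivAt_mean hP q.1).comp q hq).fderiv]
  show (ContinuousLinearMap.compL ℝ R3 R2 E).flip (ContinuousLinearMap.fst ℝ R2 ℝ) _ = _
  rw [← ContinuousLinearMap.intervalIntegral_comp_comm]
  · rfl
  · exact (((hP.fderiv_right (m := ∞) le_rfl).continuous.comp
      (Continuous.prodMk_right q.1)).clm_comp continuous_const).intervalIntegrable 0 1

lemma mean_der {P : R3 → E} (hP : ContDiff ℝ ∞ P) (h0 : ∀ x, mean P x = 0) (x : R2) :
    mean (der P) x = 0 := by
  have h := fderiv_meanP hP (x, 0)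
  rw [show meanP P = fun _ => (0 : E) from funext fun q => h0 q.1, fderiv_fun_const] at h
  simpa [meanP] using h.symm

lemma Fam.meanP (hm : ∀ i, 1 ≤ m i) {P : ι → R3 → E} (hP : Fam m P) :
    Fam m fun i => meanP (P i) := by
  refine ⟨fun i => isProfile_meanP (hP.prof i), fun n => ?_⟩
  induction n generalizing E with
  | zero =>
    obtain ⟨C, hC0, hC⟩ := hP.bdd.sup hm
    refine ⟨C, fun i q => ?_⟩
    rw [norm_iteratedFDeriv_zero]
    show ‖∫ t in (0 : ℝ)..1, P i ((scl (m i) q).1, t)‖ ≤ C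
    simpa using intervalIntegral.norm_integral_le_of_norm_le_const (a := (0 : ℝ)) (b := 1)
      (C := C) (fun t _ => hC i ((scl (m i) q).1, t))
  | succ n ih =>
    obtain ⟨C, hC⟩ := ih hP.der
    refine ⟨C, fun i q => ?_⟩
    rw [← norm_iteratedFDeriv_fderiv]
    have h : fderiv ℝ (fun q => WKB.meanP (P i) (scl (m i) q)) =
        fun q => WKB.meanP (WKB.der (P i)) (scl (m i) q) := by
      funext q
      rw [show (fun q => WKB.meanP (P i) (scl (m i) q)) = WKB.meanP (P i) from rfl,
        fderiv_meanP (hP.smooth i)]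
      rfl
    rw [h]
    exact hC i q

lemma hasFDerivAt_prim0_fix {P : R3 → E} (hP : ContDiff ℝ ∞ P) (x : R2) (θ : ℝ) :
    HasFDerivAt (fun x => prim0 P (x, θ))
      (∫ t in (0 : ℝ)..θ, (fderiv ℝ P (x, t)).comp (ContinuousLinearMap.inl ℝ R2 ℝ)) x := by
  have hF : ContDiff ℝ ∞ fun w : R3 => P (w.1, θ * w.2) :=
    hP.comp (contDiff_fst.prodMk (contDiff_const.mul contDiff_snd))
  have h1 := (ParamInt.hasFDerivAt_integral01 (hF.of_le (by exact_mod_cast le_top)) x).const_smul θ
  have e1 : (fun x => prim0 P (x, θ)) = fun x => θ • ∫ t in (0 : ℝ)..1, P (x, θ * t) :=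
    funext fun y => by
      rw [intervalIntegral.smul_integral_comp_mul_left (fun s => P (y, s)) θ, mul_zero, mul_one]
      rfl
  rw [e1]
  refine h1.congr_fderiv ?_
  have e2 : ∀ t, (fderiv ℝ (fun w : R3 => P (w.1, θ * w.2)) (x, t)).comp
      (ContinuousLinearMap.inl ℝ R2 ℝ) =
      (fderiv ℝ P (x, θ * t)).comp (ContinuousLinearMap.inl ℝ R2 ℝ) := fun t => by
    have h : HasFDerivAt (fun w : R3 => P (w.1, θ * w.2)) ((fderiv ℝ P (x, θ * t)).comp
        ((ContinuousLinearMap.fst ℝ R2 ℝ).prod (θ • ContinuousLinearMap.snd ℝ R2 ℝ))) (x, t) :=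
      ((hP.differentiable (by simp)).differentiableAt.hasFDerivAt).comp (x, t)
        (hasFDerivAt_fst.prodMk (hasFDerivAt_snd.const_mul θ))
    rw [h.fderiv]
    ext <;> simp
  simp only [e2]
  rw [intervalIntegral.smul_integral_comp_mul_left
    (fun s => (fderiv ℝ P (x, s)).comp (ContinuousLinearMap.inl ℝ R2 ℝ)) θ, mul_zero, mul_one]

lemma fderiv_prim0 {P : R3 → E} (hP : ContDiff ℝ ∞ P) (z : R3) :
    fderiv ℝ (prim0 P) z =
      prim0 (der P) z + (ContinuousLinearMap.snd ℝ R2 ℝ).smulRight (P z) := by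
  obtain ⟨x, θ⟩ := z
  have hd : HasFDerivAt (prim0 P) (fderiv ℝ (prim0 P) (x, θ)) (x, θ) :=
    ((contDiff_prim0 hP).differentiable (by simp)).differentiableAt.hasFDerivAt
  have hl : HasFDerivAt (fun y : R2 => ((y, θ) : R3)) (ContinuousLinearMap.inl ℝ R2 ℝ) x :=
    hasFDerivAt_prodMk_left x θ
  have hx' : HasFDerivAt (fun y : R2 => prim0 P (y, θ))
      ((fderiv ℝ (prim0 P) (x, θ)).comp (ContinuousLinearMap.inl ℝ R2 ℝ)) x :=
    HasFDerivAt.comp (g := prim0 P) (f := fun y : R2 => ((y, θ) : R3)) x hd hl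
  have hx := hx'.unique (hasFDerivAt_prim0_fix hP x θ)
  have hθ : fderiv ℝ (prim0 P) (x, θ) (0, 1) = P (x, θ) :=
    (hd.comp_hasDerivAt θ ((hasDerivAt_const θ x).prodMk (hasDerivAt_id θ))).unique
      (hasDerivAt_prim0 hP.continuous x θ)
  have hc : Continuous fun t => (fderiv ℝ P (x, t)).comp (ContinuousLinearMap.inl ℝ R2 ℝ) :=
    ((hP.fderiv_right (m := ∞) le_rfl).continuous.comp
      (Continuous.prodMk_right x)).clm_comp continuous_const
  have hD : prim0 (der P) (x, θ) = (∫ t in (0 : ℝ)..θ,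
      (fderiv ℝ P (x, t)).comp (ContinuousLinearMap.inl ℝ R2 ℝ)).comp
        (ContinuousLinearMap.fst ℝ R2 ℝ) := by
    show _ = (ContinuousLinearMap.compL ℝ R3 R2 E).flip (ContinuousLinearMap.fst ℝ R2 ℝ) _
    rw [← ContinuousLinearMap.intervalIntegral_comp_comm _ (hc.intervalIntegrable 0 θ)]
    rfl
  refine ContinuousLinearMap.ext fun w => ?_
  have hw : w = ((w.1, 0) : R3) + w.2 • ((0 : R2), (1 : ℝ)) :=
    Prod.ext (by simp) (by simp)
  conv_lhs => rw [hw]
  rw [map_add, map_smul, hθ, hD, ← hx]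
  simp

/-- The primitive from phase zero of a mean-zero family is bounded. -/
lemma Fam.prim0 (hm : ∀ i, 1 ≤ m i) {P : ι → R3 → E} (hP : Fam m P)
    (h0 : ∀ i x, mean (P i) x = 0) : Fam m fun i => prim0 (P i) := by
  refine ⟨fun i => isProfile_prim0 (hP.prof i) (h0 i), fun n => ?_⟩
  induction n generalizing E with
  | zero =>
    obtain ⟨C, hC0, hC⟩ := hP.bdd.sup hm
    refine ⟨C, fun i q => ?_⟩
    rw [norm_iteratedFDeriv_zero]
    have hp : Function.Periodic (fun s => Profile.prim0 (P i) ((scl (m i) q).1, s)) 1 :=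
      phase_periodic (isProfile_prim0 (hP.prof i) (h0 i)) _
    have e := hp.sub_zsmul_eq (x := (scl (m i) q).2) ⌊(scl (m i) q).2⌋
    simp only [zsmul_one, Int.self_sub_floor] at e
    show ‖Profile.prim0 (P i) ((scl (m i) q).1, (scl (m i) q).2)‖ ≤ C
    rw [← e]
    refine (intervalIntegral.norm_integral_le_of_norm_le_const
      (fun t _ => hC i ((scl (m i) q).1, t))).trans ?_
    rw [sub_zero, abs_of_nonneg (Int.fract_nonneg _)]
    exact mul_le_of_le_one_right hC0 (Int.fract_lt_one _).le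
  | succ n ih =>
    obtain ⟨C, hC⟩ := ih hP.der (fun i => mean_der (hP.smooth i) (h0 i))
    obtain ⟨D, hD⟩ := ((hP.clm (ContinuousLinearMap.smulRightL ℝ R3 E
      (ContinuousLinearMap.snd ℝ R2 ℝ))).smul_bdd (c := fun i => (m i)⁻¹) (B := 1)
        (fun i => by
          rw [abs_of_nonneg (inv_nonneg.2 (by linarith [hm i]))]
          exact inv_le_one_of_one_le₀ (hm i))).bdd n
    refine ⟨C + D, fun i q => ?_⟩
    rw [← norm_iteratedFDeriv_fderiv]
    have h : fderiv ℝ (fun q => Profile.prim0 (P i) (scl (m i) q)) =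
        fun q => Profile.prim0 (WKB.der (P i)) (scl (m i) q) +
          (m i)⁻¹ • ContinuousLinearMap.smulRightL ℝ R3 E (ContinuousLinearMap.snd ℝ R2 ℝ)
            (P i (scl (m i) q)) := by
      funext q
      rw [fderiv_comp_scl (contDiff_prim0 (hP.smooth i)), fderiv_prim0 (hP.smooth i)]
      have e : (Profile.prim0 (WKB.der (P i)) (scl (m i) q)).comp (scl (m i)) =
          Profile.prim0 (WKB.der (P i)) (scl (m i) q) := by
        show (ContinuousLinearMap.compL ℝ R3 R3 E).flip (scl (m i))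
          (∫ s in (0 : ℝ)..(scl (m i) q).2, WKB.der (P i) ((scl (m i) q).1, s)) = _
        rw [← ContinuousLinearMap.intervalIntegral_comp_comm]
        · refine intervalIntegral.integral_congr fun s _ => ?_
          ext <;> simp [WKB.der]
        · exact ((hP.der.smooth i).continuous.comp (Continuous.prodMk_right _)).intervalIntegrable 0 _
      rw [ContinuousLinearMap.add_comp, e]
      congr 1
      ext <;> simp
    rw [h]
    have s1 : ContDiff ℝ ∞ fun q => Profile.prim0 (WKB.der (P i)) (scl (m i) q) :=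
      (contDiff_prim0 (hP.der.smooth i)).comp (scl (m i)).contDiff
    have s2 : ContDiff ℝ ∞ fun q => (m i)⁻¹ • ContinuousLinearMap.smulRightL ℝ R3 E
        (ContinuousLinearMap.snd ℝ R2 ℝ) (P i (scl (m i) q)) :=
      ((ContinuousLinearMap.contDiff _).comp (hP.smooth_scl i)).const_smul _
    rw [← Pi.add_def, iteratedFDeriv_add_apply (s1.of_le (by exact_mod_cast le_top)).contDiffAt
      (s2.of_le (by exact_mod_cast le_top)).contDiffAt]
    exact (norm_add_le _ _).trans (add_le_add (hC i q) (hD i q))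

/-- The zero-mean primitive of a mean-zero family is bounded. -/
lemma Fam.prim (hm : ∀ i, 1 ≤ m i) {P : ι → R3 → E} (hP : Fam m P)
    (h0 : ∀ i x, mean (P i) x = 0) : Fam m fun i => prim (P i) :=
  (hP.prim0 hm h0).sub ((hP.prim0 hm h0).meanP hm)

end

end Vale.Agent.P205.WKB
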