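import Mathlib
import Vale.Agent.P205.Full.WKB.Prim

/-!
# P205: pairs of families and their differences

`Pair m δ P P'`: two families with bounded phase derivatives whose difference is
`δ • (∂θ A + B)` with bounded families `A`, `B`.  The class is closed under the operations of the
expansion, and a mean or a primitive gains the form `δ • B`.
-/

namespace Vale.Agent.P205.WKB

open scoped ContDiff
open Profile intervalIntegral MeasureTheory

noncomputable section

variable {ι : Type} {m δ : ι → ℝ} {E F G : Type} [NormedAddCommGroup E] [NormedSpace ℝ E]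
  [NormedAddCommGroup F] [NormedSpace ℝ F] [NormedAddCommGroup G] [NormedSpace ℝ G]

/-- The phase derivative is bounded as well. -/
structure Fam1 (m : ι → ℝ) (P : ι → R3 → E) : Prop where
  fam : Fam m P
  dph : Fam m fun i => dPhase (P i)

/-- A family of the form `δ • B`. -/
def Tiny (m δ : ι → ℝ) (P : ι → R3 → E) : Prop :=
  ∃ B : ι → R3 → E, Fam m B ∧ ∀ i q, P i q = δ i • B i q

/-- A family of the form `δ • (∂θ A + B)`. -/
def Small (m δ : ι → ℝ) (P : ι → R3 → E) : Prop :=
  ∃ A B : ι → R3 → E, Fam m A ∧ Fam m B ∧ ∀ i q, P i q = δ i • (dPhase (A i) q + B i q)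

/-- Two families with bounded phase derivatives and small difference. -/
structure Pair (m δ : ι → ℝ) (P P' : ι → R3 → E) : Prop where
  left : Fam1 m P
  right : Fam1 m P'
  dif : Small m δ fun i q => P' i q - P i q

lemma hasFDerivAt_smooth {P : R3 → E} (hP : ContDiff ℝ ∞ P) (q : R3) :
    HasFDerivAt P (fderiv ℝ P q) q :=
  (hP.differentiable (by simp)).differentiableAt.hasFDerivAt

lemma dPhase_add {P Q : R3 → E} (hP : ContDiff ℝ ∞ P) (hQ : ContDiff ℝ ∞ Q) :
    dPhase (fun q => P q + Q q) = fun q => dPhase P q + dPhase Q q := funext fun q => by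
  rw [dPhase, fderiv_fun_add (hasFDerivAt_smooth hP q).differentiableAt
    (hasFDerivAt_smooth hQ q).differentiableAt]
  rfl

lemma dPhase_sub {P Q : R3 → E} (hP : ContDiff ℝ ∞ P) (hQ : ContDiff ℝ ∞ Q) :
    dPhase (fun q => P q - Q q) = fun q => dPhase P q - dPhase Q q := funext fun q => by
  rw [dPhase, fderiv_fun_sub (hasFDerivAt_smooth hP q).differentiableAt
    (hasFDerivAt_smooth hQ q).differentiableAt]
  rfl

lemma dPhase_clm {P : R3 → E} (hP : ContDiff ℝ ∞ P) (L : E →L[ℝ] F) :
    dPhase (fun q => L (P q)) = fun q => L (dPhase P q) := funext fun q => by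
  rw [dPhase, show fderiv ℝ (fun q => L (P q)) q = L.comp (fderiv ℝ P q) from
    (L.hasFDerivAt.comp q (hasFDerivAt_smooth hP q)).fderiv]
  rfl

lemma dPhase_bilin {P : R3 → E} {Q : R3 → F} (hP : ContDiff ℝ ∞ P) (hQ : ContDiff ℝ ∞ Q)
    (B : E →L[ℝ] F →L[ℝ] G) : dPhase (fun q => B (P q) (Q q)) =
      fun q => B (P q) (dPhase Q q) + B (dPhase P q) (Q q) := funext fun q => by
  rw [dPhase, (B.hasFDerivAt_of_bilinear (hasFDerivAt_smooth hP q)
    (hasFDerivAt_smooth hQ q)).fderiv]
  rfl

lemma dPhase_fst {g : R2 → E} (hg : Differentiable ℝ g) :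
    dPhase (fun q : R3 => g q.1) = fun _ => 0 := funext fun q => by
  rw [dPhase, show fderiv ℝ (fun q : R3 => g q.1) q =
    (fderiv ℝ g q.1).comp (ContinuousLinearMap.fst ℝ R2 ℝ) from
      ((hg q.1).hasFDerivAt.comp q hasFDerivAt_fst).fderiv]
  simp

lemma dPhase_pd {P : R3 → E} (hP : ContDiff ℝ ∞ P) (v : R2) :
    dPhase (pd v P) = pd v (dPhase P) := funext fun q => by
  have hs : IsSymmSndFDerivAt ℝ P q :=
    (hP.contDiffAt.of_le (m := 2) (WithTop.coe_le_coe.2 le_top)).isSymmSndFDerivAt (by simp)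
  have hd : DifferentiableAt ℝ (fderiv ℝ P) q :=
    ((hP.fderiv_right (m := ∞) le_rfl).differentiable (by simp)).differentiableAt
  show fderiv ℝ (fun q => fderiv ℝ P q (v, 0)) q (0, 1) =
    fderiv ℝ (fun q => fderiv ℝ P q (0, 1)) q (v, 0)
  rw [fderiv_clm_apply hd (differentiableAt_const _), fderiv_clm_apply hd (differentiableAt_const _)]
  simpa using hs _ _

lemma Fam.dPhase_meanP [CompleteSpace E] {P : ι → R3 → E} (hP : Fam m P) (i : ι) :
    dPhase (WKB.meanP (P i)) = fun _ => 0 :=
  dPhase_fst ((contDiff_mean (hP.smooth i)).differentiable (by simp))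

lemma Fam1.of_fixed (hm : ∀ i, 1 ≤ m i) {P : R3 → E} (hP : IsProfile P) :
    Fam1 m fun _ : ι => P :=
  ⟨Fam.fixed hm hP, Fam.fixed hm (isProfile_comp (isProfile_fderiv hP)
    (ContinuousLinearMap.apply ℝ E ((0, 1) : R3)).contDiff)⟩

lemma Fam1.of_coef (hm : ∀ i, 1 ≤ m i) {g : R2 → E} (hg : Correction.Smooth2 g) :
    Fam1 m fun (_ : ι) (q : R3) => g q.1 :=
  ⟨Fam.coef hm hg, by rw [dPhase_fst (hg.1.differentiable (by simp))]; exact Fam.zero⟩

lemma Fam1.zero : Fam1 m fun (_ : ι) (_ : R3) => (0 : E) :=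
  ⟨Fam.zero, by rw [dPhase_fst (g := fun _ : R2 => (0 : E)) (by fun_prop)]; exact Fam.zero⟩

lemma Fam1.add {P Q : ι → R3 → E} (hP : Fam1 m P) (hQ : Fam1 m Q) :
    Fam1 m fun i q => P i q + Q i q :=
  ⟨hP.fam.add hQ.fam, by
    rw [funext fun i => dPhase_add (hP.fam.smooth i) (hQ.fam.smooth i)]
    exact hP.dph.add hQ.dph⟩

lemma Fam1.clm {P : ι → R3 → E} (hP : Fam1 m P) (L : E →L[ℝ] F) :
    Fam1 m fun i q => L (P i q) :=
  ⟨hP.fam.clm L, by
    rw [funext fun i => dPhase_clm (hP.fam.smooth i) L]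
    exact hP.dph.clm L⟩

lemma Fam1.bilin {P : ι → R3 → E} {Q : ι → R3 → F} (hP : Fam1 m P) (hQ : Fam1 m Q)
    (B : E →L[ℝ] F →L[ℝ] G) : Fam1 m fun i q => B (P i q) (Q i q) :=
  ⟨hP.fam.bilin hQ.fam B, by
    rw [funext fun i => dPhase_bilin (hP.fam.smooth i) (hQ.fam.smooth i) B]
    exact (hP.fam.bilin hQ.dph B).add (hP.dph.bilin hQ.fam B)⟩

lemma Fam1.pd {P : ι → R3 → E} (hP : Fam1 m P) (v : R2) : Fam1 m fun i => pd v (P i) :=
  ⟨hP.fam.pd v, by
    rw [funext fun i => dPhase_pd (hP.fam.smooth i) v]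
    exact hP.dph.pd v⟩

section Complete

variable [CompleteSpace E]

lemma Fam1.meanP (hm : ∀ i, 1 ≤ m i) {P : ι → R3 → E} (hP : Fam m P) :
    Fam1 m fun i => WKB.meanP (P i) :=
  ⟨hP.meanP hm, by rw [funext hP.dPhase_meanP]; exact Fam.zero⟩

lemma Fam1.prim (hm : ∀ i, 1 ≤ m i) {P : ι → R3 → E} (hP : Fam m P)
    (h0 : ∀ i x, mean (P i) x = 0) : Fam1 m fun i => prim (P i) :=
  ⟨hP.prim hm h0, by
    rw [show (fun i => dPhase (Profile.prim (P i))) = P from
      funext fun i => funext fun z => dPhase_prim (hP.smooth i) z]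
    exact hP⟩

lemma intervalIntegrable_phase {P : R3 → E} (hP : Continuous P) (x : R2) (a b : ℝ) :
    IntervalIntegrable (fun t => P (x, t)) volume a b :=
  (hP.comp (Continuous.prodMk_right x)).intervalIntegrable a b

lemma mean_add {P Q : R3 → E} (hP : Continuous P) (hQ : Continuous Q) (x : R2) :
    mean (fun q => P q + Q q) x = mean P x + mean Q x :=
  intervalIntegral.integral_add (intervalIntegrable_phase hP x 0 1)
    (intervalIntegrable_phase hQ x 0 1)

lemma mean_sub {P Q : R3 → E} (hP : Continuous P) (hQ : Continuous Q) (x : R2) :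
    mean (fun q => P q - Q q) x = mean P x - mean Q x :=
  intervalIntegral.integral_sub (intervalIntegrable_phase hP x 0 1)
    (intervalIntegrable_phase hQ x 0 1)

lemma mean_smul (c : ℝ) (P : R3 → E) (x : R2) : mean (fun q => c • P q) x = c • mean P x :=
  intervalIntegral.integral_smul c _

lemma mean_const (g : R2 → E) (x : R2) : mean (fun q => g q.1) x = g x := by simp [mean]

lemma prim_smul (c : ℝ) (P : R3 → E) (z : R3) : prim (fun q => c • P q) z = c • prim P z := by
  have h : prim0 (fun q => c • P q) = fun z => c • prim0 P z :=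
    funext fun z => intervalIntegral.integral_smul c _
  simp only [prim, h, mean_smul, smul_sub]

lemma prim_add {P Q : R3 → E} (hP : ContDiff ℝ ∞ P) (hQ : ContDiff ℝ ∞ Q) (z : R3) :
    prim (fun q => P q + Q q) z = prim P z + prim Q z := by
  have h : prim0 (fun q => P q + Q q) = fun z => prim0 P z + prim0 Q z :=
    funext fun z => intervalIntegral.integral_add
      (intervalIntegrable_phase hP.continuous _ _ _) (intervalIntegrable_phase hQ.continuous _ _ _)
  simp only [prim, h, mean_add (contDiff_prim0 hP).continuous (contDiff_prim0 hQ).continuous]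
  abel

lemma prim_dPhase {A : R3 → E} (hA : IsProfile A) (z : R3) :
    prim (dPhase A) z = A z - mean A z.1 := by
  have hd : ∀ x t, HasDerivAt (fun s => A (x, s)) (dPhase A (x, t)) t := fun x t =>
    (hasFDerivAt_smooth hA.1 (x, t)).comp_hasDerivAt t
      ((hasDerivAt_const t x).prodMk (hasDerivAt_id t))
  have hc : Continuous (dPhase A) := (hA.1.continuous_fderiv (by simp)).clm_apply continuous_const
  have h : prim0 (dPhase A) = fun w => A w - A (w.1, 0) := funext fun w =>
    integral_eq_sub_of_hasDerivAt (fun t _ => hd w.1 t) (intervalIntegrable_phase hc w.1 0 w.2)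
  have h1 : mean (fun w : R3 => A w - A (w.1, 0)) z.1 = mean A z.1 - A (z.1, 0) :=
    (mean_sub hA.1.continuous (hA.1.continuous.comp
      (continuous_fst.prodMk continuous_const)) z.1).trans
      (congrArg (mean A z.1 - ·) (mean_const (fun x => A (x, 0)) z.1))
  simp only [prim, h, h1]
  abel

end Complete

lemma Tiny.small {P : ι → R3 → E} (hP : Tiny m δ P) : Small m δ P := by
  obtain ⟨B, hB, e⟩ := hP
  refine ⟨fun _ _ => 0, B, Fam.zero, hB, fun i q => ?_⟩
  rw [e, dPhase_fst (g := fun _ : R2 => (0 : E)) (by fun_prop)]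
  simp

lemma Small.add {P Q : ι → R3 → E} (hP : Small m δ P) (hQ : Small m δ Q) :
    Small m δ fun i q => P i q + Q i q := by
  obtain ⟨A, B, hA, hB, e⟩ := hP
  obtain ⟨A', B', hA', hB', e'⟩ := hQ
  refine ⟨_, _, hA.add hA', hB.add hB', fun i q => ?_⟩
  dsimp only
  rw [e, e', dPhase_add (hA.smooth i) (hA'.smooth i), ← smul_add]
  exact congrArg (δ i • ·) (add_add_add_comm _ _ _ _)

lemma Small.clm {P : ι → R3 → E} (hP : Small m δ P) (L : E →L[ℝ] F) :
    Small m δ fun i q => L (P i q) := by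
  obtain ⟨A, B, hA, hB, e⟩ := hP
  refine ⟨_, _, hA.clm L, hB.clm L, fun i q => ?_⟩
  dsimp only
  rw [e, dPhase_clm (hA.smooth i) L, map_smul, map_add]

/-- Multiplication by a family with bounded phase derivative. -/
lemma Small.bilin {g : ι → R3 → E} {P : ι → R3 → F} (hg : Fam1 m g) (hP : Small m δ P)
    (L : E →L[ℝ] F →L[ℝ] G) : Small m δ fun i q => L (g i q) (P i q) := by
  obtain ⟨A, B, hA, hB, e⟩ := hP
  refine ⟨_, _, hg.fam.bilin hA L, (hg.fam.bilin hB L).sub (hg.dph.bilin hA L), fun i q => ?_⟩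
  dsimp only
  rw [e, dPhase_bilin (hg.fam.smooth i) (hA.smooth i) L, map_smul, map_add]
  have h : ∀ a b c : G, a + b = (a + c) + (b - c) := fun a b c => by abel
  exact congrArg (δ i • ·) (h _ _ _)

lemma Small.pd {P : ι → R3 → E} (hP : Small m δ P) (v : R2) :
    Small m δ fun i => pd v (P i) := by
  obtain ⟨A, B, hA, hB, e⟩ := hP
  refine ⟨_, _, hA.pd v, hB.pd v, fun i q => ?_⟩
  have hdA : ContDiff ℝ ∞ (dPhase (A i)) :=
    ((hA.smooth i).fderiv_right (m := ∞) le_rfl).clm_apply contDiff_const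
  show fderiv ℝ (P i) q (v, 0) = _
  rw [dPhase_pd (hA.smooth i), show P i = fun q => δ i • (dPhase (A i) q + B i q) from funext (e i),
    fderiv_fun_const_smul (DifferentiableAt.fun_add (hasFDerivAt_smooth hdA q).differentiableAt
      (hasFDerivAt_smooth (hB.smooth i) q).differentiableAt),
    fderiv_fun_add (hasFDerivAt_smooth hdA q).differentiableAt
      (hasFDerivAt_smooth (hB.smooth i) q).differentiableAt]
  rfl

lemma Small.meanP [CompleteSpace E] (hm : ∀ i, 1 ≤ m i) {P : ι → R3 → E} (hP : Small m δ P) :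
    Tiny m δ fun i => WKB.meanP (P i) := by
  obtain ⟨A, B, hA, hB, e⟩ := hP
  refine ⟨_, hB.meanP hm, fun i q => ?_⟩
  show mean (P i) q.1 = δ i • mean (B i) q.1
  have hc : Continuous (dPhase (A i)) :=
    ((hA.smooth i).continuous_fderiv (by simp)).clm_apply continuous_const
  rw [show P i = fun q => δ i • (dPhase (A i) q + B i q) from funext (e i), mean_smul,
    mean_add hc (hB.smooth i).continuous, mean_dPhase (hA.prof i), zero_add]

lemma Small.prim [CompleteSpace E] (hm : ∀ i, 1 ≤ m i) {P : ι → R3 → E} (hP : Small m δ P)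
    (h0 : ∀ i x, mean (P i) x = 0) : Tiny m δ fun i => Profile.prim (P i) := by
  obtain ⟨A, B, hA, hB, e⟩ := hP
  have hdA : ∀ i, ContDiff ℝ ∞ (dPhase (A i)) := fun i =>
    ((hA.smooth i).fderiv_right (m := ∞) le_rfl).clm_apply contDiff_const
  have h0' : ∀ i x, mean (fun q => B i q - WKB.meanP (B i) q) x = 0 := fun i x => by
    rw [mean_sub (hB.smooth i).continuous (isProfile_meanP (hB.prof i)).1.continuous]
    show mean (B i) x - mean (fun q => mean (B i) q.1) x = 0
    rw [mean_const, sub_self]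
  have hB' := hB.sub (hB.meanP hm)
  refine ⟨_, (hA.sub (hA.meanP hm)).add (hB'.prim hm h0'), fun i z => ?_⟩
  have hz : ∀ q, δ i • WKB.meanP (B i) q = 0 := fun q => by
    show δ i • mean (B i) q.1 = 0
    have h := h0 i q.1
    rwa [show P i = fun q => δ i • (dPhase (A i) q + B i q) from funext (e i), mean_smul,
      mean_add (hdA i).continuous (hB.smooth i).continuous, mean_dPhase (hA.prof i),
      zero_add] at h
  dsimp only
  rw [show P i = fun q => δ i • (dPhase (A i) q + (B i q - WKB.meanP (B i) q)) from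
    funext fun q => by rw [e, smul_add, smul_add, smul_sub, hz, sub_zero],
    prim_smul, prim_add (hdA i) (hB'.smooth i), prim_dPhase (hA.prof i)]
  rfl

end

end Vale.Agent.P205.WKB
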