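import Mathlib
import Vale.Agent.P205.Full.Algebra.Jets
import Vale.Agent.P205.Full.WKB.Pair

/-!
# P205: data and frame of one corrugation step

The step direction is the first coordinate.  The loop `a • u` comes with a cutoff `η` that is `1`
on the support set `K`; all denominators are regularised by `η`, so the frame is smooth and
periodic everywhere and has its meaning on `K`.
-/

namespace Vale.Agent.P205.WKB

open scoped ContDiff RealInnerProductSpace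
open Correction Profile
open Vale.Agent.P205.Algebra

noncomputable section

/-- A map `(xx, xy, yy)` of symmetric tensors. -/
abbrev Sym3 := ℝ × ℝ × ℝ

/-- The induced metric. -/
def met (F : R2 → V4) (p : R2) : Sym3 :=
  (⟪dx F p, dx F p⟫, ⟪dx F p, dy F p⟫, ⟪dy F p, dy F p⟫)

/-- The linearised metric. -/
def lin (f X : R2 → V4) (p : R2) : Sym3 :=
  (2 * ⟪dx f p, dx X p⟫, ⟪dx f p, dy X p⟫ + ⟪dx X p, dy f p⟫, 2 * ⟪dy f p, dy X p⟫)

/-- Smooth periodic maps vanishing outside `K`. -/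
def Ok {E : Type} [NormedAddCommGroup E] [NormedSpace ℝ E] (K : Set R2) (h : R2 → E) : Prop :=
  Smooth2 h ∧ ∀ p ∉ K, h p = 0

/-- The data of one step. -/
structure Step where
  /-- the map -/
  f : R2 → V4
  /-- the amplitude -/
  a : R2 → ℝ
  /-- the support set -/
  K : Set R2
  /-- the mean corrector: any bounded linear map; what it fails to solve is exported -/
  R : (R2 → Sym3) → R2 → V4
  f_smooth : Smooth2 f
  a_smooth : Smooth2 a
  K_closed : IsClosed K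
  a_zero : ∀ p ∉ K, a p = 0
  R_ok : ∀ h, Ok K h → Ok K (R h)
  R_linear : ∀ h h' (r : ℝ), Ok K h → Ok K h' →
    R (fun p => h p + r • h' p) = fun p => R h p + r • R h' p
  R_bound : ∀ n, ∃ (j : ℕ) (C : ℝ), ∀ h, Ok K h → ∀ B,
    (∀ l ≤ j, ∀ p, ‖iteratedFDeriv ℝ l h p‖ ≤ B) → ∀ p, ‖iteratedFDeriv ℝ n (R h) p‖ ≤ C * B

/-- A loop `a • u` of a step with a cutoff `η`: where `η = 1` the vectors `f_y`, `f_yy` are
independent, `u` is orthogonal to them, the circle equation holds, either `a ≠ 0` or `f_x` is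
independent of them, and the loop leaves no direction uncovered. -/
structure Spin extends Step where
  /-- the cutoff -/
  η : R2 → ℝ
  /-- the loop divided by the amplitude -/
  u : R2 × ℝ → V4
  η_smooth : Smooth2 η
  η_le : ∀ p, η p ≤ 1
  η_one : ∀ p ∈ K, η p = 1
  u_prof : IsProfile u
  u_mean : ∀ p, mean u p = 0
  indep : ∀ p, η p = 1 → LinearIndependent ℝ ![dy f p, F22 f p]
  T_u : ∀ p, η p = 1 → ∀ θ, ⟪dy f p, u (p, θ)⟫ = 0
  A_u : ∀ p, η p = 1 → ∀ θ, ⟪F22 f p, u (p, θ)⟫ = 0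
  circle : ∀ p, η p = 1 → ∀ θ,
    ⟪dx f p + a p • u (p, θ), dx f p + a p • u (p, θ)⟫ = ⟪dx f p, dx f p⟫ + a p ^ 2
  pos : ∀ p, η p = 1 → a p ≠ 0 ∨ LinearIndependent ℝ ![dx f p, dy f p, F22 f p]
  cover : ∀ p, η p = 1 → ∀ y, ⟪dy f p, y⟫ = 0 → ⟪F22 f p, y⟫ = 0 → ⟪dx f p, y⟫ = 0 →
    (∀ θ, ⟪u (p, θ), y⟫ = 0) → y = 0

/-- The mean corrector is a right inverse of the linearised metric. -/
def Step.Exact (D : Step) : Prop := ∀ h, Ok D.K h → ∀ p, lin D.f (D.R h) p = h p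

lemma smooth2_dx {E : Type} [NormedAddCommGroup E] [NormedSpace ℝ E] {u : R2 → E}
    (hu : Smooth2 u) : Smooth2 (dx u) :=
  hu.fderiv.clm (ContinuousLinearMap.apply ℝ E ((1 : ℝ), (0 : ℝ)))

lemma smooth2_dy {E : Type} [NormedAddCommGroup E] [NormedSpace ℝ E] {u : R2 → E}
    (hu : Smooth2 u) : Smooth2 (dy u) :=
  hu.fderiv.clm (ContinuousLinearMap.apply ℝ E ((0 : ℝ), (1 : ℝ)))

lemma smooth2_inner {u v : R2 → V4} (hu : Smooth2 u) (hv : Smooth2 v) :
    Smooth2 fun p => ⟪u p, v p⟫ :=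
  hu.bilin hv (innerSL ℝ)

lemma smooth2_smul {c : R2 → ℝ} {v : R2 → V4} (hc : Smooth2 c) (hv : Smooth2 v) :
    Smooth2 fun p => c p • v p :=
  hc.bilin hv (ContinuousLinearMap.lsmul ℝ ℝ)

namespace Spin

variable (D : Spin)

/-- The regularised denominator. -/
def den (x : R2 → ℝ) (p : R2) : ℝ := x p + (1 - D.η p)

lemma den_pos {x : R2 → ℝ} (hx : ∀ p, 0 ≤ x p) (h1 : ∀ p, D.η p = 1 → 0 < x p) (p : R2) :
    0 < D.den x p := by
  unfold den
  rcases (D.η_le p).lt_or_eq with h | h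
  · linarith [hx p]
  · linarith [h1 p h]

lemma smooth2_rinv {x : R2 → ℝ} (hx : Smooth2 x) (hpos : ∀ p, 0 < D.den x p) :
    Smooth2 (rinv D.η x) :=
  ⟨(hx.1.add (contDiff_const.sub D.η_smooth.1)).inv fun p => (hpos p).ne',
    fun p => by simp only [rinv, hx.2.1, D.η_smooth.2.1],
    fun p => by simp only [rinv, hx.2.2, D.η_smooth.2.2]⟩

/-- `f_x`. -/
def X : R2 → V4 := dx D.f
/-- `f_y`. -/
def T : R2 → V4 := dy D.f
/-- `f_yy`. -/
def A : R2 → V4 := F22 D.f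
/-- `|f_y|²`. -/
def gT (p : R2) : ℝ := ⟪D.T p, D.T p⟫
/-- The part of `f_yy` orthogonal to `f_y`. -/
def e2 (p : R2) : V4 := D.A p - (rinv D.η D.gT p * ⟪D.A p, D.T p⟫) • D.T p
/-- `|e2|²`. -/
def q22 (p : R2) : ℝ := ⟪D.e2 p, D.e2 p⟫
/-- The vector of `span (T, A)` dual to `A`. -/
def A2 (p : R2) : V4 := rinv D.η D.q22 p • D.e2 p
/-- The vector of `span (T, A)` dual to `T`. -/
def A1 (p : R2) : V4 :=
  rinv D.η D.gT p • D.T p - (rinv D.η D.gT p * ⟪D.A p, D.T p⟫) • D.A2 p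
/-- The part of `f_x` orthogonal to `f_y` and `f_yy`. -/
def q (p : R2) : V4 := D.X p - ⟪D.X p, D.T p⟫ • D.A1 p - ⟪D.X p, D.A p⟫ • D.A2 p
/-- The squared radius of the loop. -/
def rho (p : R2) : ℝ := ⟪D.q p, D.q p⟫ + D.a p * D.a p

lemma smooth2_X : Smooth2 D.X := smooth2_dx D.f_smooth
lemma smooth2_T : Smooth2 D.T := smooth2_dy D.f_smooth
lemma smooth2_A : Smooth2 D.A := smooth2_dy (smooth2_dy D.f_smooth)
lemma smooth2_gT : Smooth2 D.gT := smooth2_inner D.smooth2_T D.smooth2_T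

lemma ne_zero {p : R2} (hp : D.η p = 1) (c1 c2 : ℝ) (h : c1 ≠ 0 ∨ c2 ≠ 0) :
    c1 • D.T p + c2 • D.A p ≠ 0 := by
  intro h0
  have := Fintype.linearIndependent_iff.1 (D.indep p hp) ![c1, c2]
    (by simpa [Fin.sum_univ_two, T, A] using h0)
  have a1 := this 0
  have a2 := this 1
  simp at a1 a2
  tauto

lemma gT_pos {p : R2} (hp : D.η p = 1) : 0 < D.gT p := by
  have h := D.ne_zero hp 1 0 (Or.inl one_ne_zero)
  simp only [zero_smul, one_smul, add_zero] at h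
  exact real_inner_self_pos.2 h

lemma den_gT (p : R2) : 0 < D.den D.gT p :=
  D.den_pos (fun _ => real_inner_self_nonneg) (fun _ => D.gT_pos) p

lemma smooth2_e2 : Smooth2 D.e2 :=
  D.smooth2_A.sub (smooth2_smul ((D.smooth2_rinv D.smooth2_gT D.den_gT).bilin
    (smooth2_inner D.smooth2_A D.smooth2_T) (ContinuousLinearMap.mul ℝ ℝ)) D.smooth2_T)

lemma rinv_one {x : R2 → ℝ} {p : R2} (hp : D.η p = 1) : rinv D.η x p = (x p)⁻¹ := by
  simp [rinv, hp]

lemma inner_T_e2 {p : R2} (hp : D.η p = 1) : ⟪D.T p, D.e2 p⟫ = 0 := by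
  rw [e2, inner_sub_right, real_inner_smul_right, D.rinv_one hp, real_inner_comm (D.A p) (D.T p)]
  have := (D.gT_pos hp).ne'
  unfold gT at this ⊢
  field_simp
  ring

lemma q22_pos {p : R2} (hp : D.η p = 1) : 0 < D.q22 p := by
  have h := D.ne_zero hp (-(rinv D.η D.gT p * ⟪D.A p, D.T p⟫)) 1 (Or.inr one_ne_zero)
  refine real_inner_self_pos.2 fun h0 => h ?_
  rw [← h0, e2]
  simp only [one_smul, neg_smul]
  abel

lemma den_q22 (p : R2) : 0 < D.den D.q22 p :=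
  D.den_pos (fun _ => real_inner_self_nonneg) (fun _ => D.q22_pos) p

lemma smooth2_q22 : Smooth2 D.q22 := smooth2_inner D.smooth2_e2 D.smooth2_e2

lemma smooth2_A2 : Smooth2 D.A2 :=
  smooth2_smul (D.smooth2_rinv D.smooth2_q22 D.den_q22) D.smooth2_e2

lemma smooth2_A1 : Smooth2 D.A1 :=
  (smooth2_smul (D.smooth2_rinv D.smooth2_gT D.den_gT) D.smooth2_T).sub
    (smooth2_smul ((D.smooth2_rinv D.smooth2_gT D.den_gT).bilin
      (smooth2_inner D.smooth2_A D.smooth2_T) (ContinuousLinearMap.mul ℝ ℝ)) D.smooth2_A2)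

lemma smooth2_q : Smooth2 D.q :=
  (D.smooth2_X.sub (smooth2_smul (smooth2_inner D.smooth2_X D.smooth2_T) D.smooth2_A1)).sub
    (smooth2_smul (smooth2_inner D.smooth2_X D.smooth2_A) D.smooth2_A2)

lemma inner_T_A2 {p : R2} (hp : D.η p = 1) : ⟪D.T p, D.A2 p⟫ = 0 := by
  rw [A2, real_inner_smul_right, D.inner_T_e2 hp, mul_zero]

lemma inner_A_A2 {p : R2} (hp : D.η p = 1) : ⟪D.A p, D.A2 p⟫ = 1 := by
  have h : ⟪D.A p, D.e2 p⟫ = D.q22 p := by
    have e : D.A p = D.e2 p + (rinv D.η D.gT p * ⟪D.A p, D.T p⟫) • D.T p := by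
      rw [e2, sub_add_cancel]
    conv_lhs => rw [e, inner_add_left, real_inner_smul_left, D.inner_T_e2 hp, mul_zero, add_zero]
    rfl
  rw [A2, real_inner_smul_right, h, D.rinv_one hp, inv_mul_cancel₀ (D.q22_pos hp).ne']

lemma inner_T_A1 {p : R2} (hp : D.η p = 1) : ⟪D.T p, D.A1 p⟫ = 1 := by
  rw [A1, inner_sub_right, real_inner_smul_right, real_inner_smul_right, D.inner_T_A2 hp,
    mul_zero, sub_zero, D.rinv_one hp]
  exact inv_mul_cancel₀ (D.gT_pos hp).ne'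

lemma inner_A_A1 {p : R2} (hp : D.η p = 1) : ⟪D.A p, D.A1 p⟫ = 0 := by
  rw [A1, inner_sub_right, real_inner_smul_right, real_inner_smul_right, D.inner_A_A2 hp]
  ring

lemma inner_T_q {p : R2} (hp : D.η p = 1) : ⟪D.T p, D.q p⟫ = 0 := by
  rw [q, inner_sub_right, inner_sub_right, real_inner_smul_right, real_inner_smul_right,
    D.inner_T_A1 hp, D.inner_T_A2 hp, real_inner_comm (D.X p) (D.T p)]
  ring

lemma inner_A_q {p : R2} (hp : D.η p = 1) : ⟪D.A p, D.q p⟫ = 0 := by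
  rw [q, inner_sub_right, inner_sub_right, real_inner_smul_right, real_inner_smul_right,
    D.inner_A_A1 hp, D.inner_A_A2 hp, real_inner_comm (D.X p) (D.A p)]
  ring

lemma rho_pos {p : R2} (hp : D.η p = 1) : 0 < D.rho p := by
  rcases D.pos p hp with h | h
  · exact add_pos_of_nonneg_of_pos real_inner_self_nonneg (mul_self_pos.2 h)
  refine add_pos_of_pos_of_nonneg (real_inner_self_pos.2 fun h0 => ?_) (mul_self_nonneg _)
  obtain ⟨r, hr⟩ : ∃ r, r = rinv D.η D.gT p * ⟪D.A p, D.T p⟫ := ⟨_, rfl⟩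
  obtain ⟨s, hs⟩ : ∃ s, s = rinv D.η D.q22 p := ⟨_, rfl⟩
  have := Fintype.linearIndependent_iff.1 h ![1,
    -(⟪D.X p, D.T p⟫ * (rinv D.η D.gT p + r * s * r)) + ⟪D.X p, D.A p⟫ * s * r,
    ⟪D.X p, D.T p⟫ * r * s - ⟪D.X p, D.A p⟫ * s] ?_ 0
  · simp at this
  rw [← h0, q, A1, A2, e2, ← hr, ← hs, X, T, A]
  simp only [Fin.sum_univ_three, Matrix.cons_val_zero, Matrix.cons_val_one, Matrix.cons_val]
  module

lemma smooth2_rho : Smooth2 D.rho :=
  (smooth2_inner D.smooth2_q D.smooth2_q).add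
    (D.a_smooth.bilin D.a_smooth (ContinuousLinearMap.mul ℝ ℝ))

lemma den_rho (p : R2) : 0 < D.den D.rho p :=
  D.den_pos (fun _ => add_nonneg real_inner_self_nonneg (mul_self_nonneg _))
    (fun _ => D.rho_pos) p

end Spin

lemma contDiff_cross4 {X : Type*} [NormedAddCommGroup X] [NormedSpace ℝ X] {u v w : X → V4}
    (hu : ContDiff ℝ ∞ u) (hv : ContDiff ℝ ∞ v) (hw : ContDiff ℝ ∞ w) :
    ContDiff ℝ ∞ fun x => cross4 (u x) (v x) (w x) := by
  rw [contDiff_euclidean]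
  intro i
  have hu' := contDiff_euclidean.1 hu
  have hv' := contDiff_euclidean.1 hv
  have hw' := contDiff_euclidean.1 hw
  fin_cases i <;> simp [cross4] <;> fun_prop

lemma inner4 (u v : V4) : ⟪u, v⟫ = u 0 * v 0 + u 1 * v 1 + u 2 * v 2 + u 3 * v 3 := by
  simp [PiLp.inner_apply, Fin.sum_univ_four, mul_comm]

lemma cross4_orth (x y z : V4) :
    ⟪x, cross4 x y z⟫ = 0 ∧ ⟪y, cross4 x y z⟫ = 0 ∧ ⟪z, cross4 x y z⟫ = 0 := by
  rw [inner4, inner4, inner4]
  simp [cross4]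
  refine ⟨?_, ?_, ?_⟩ <;> ring

lemma cross4_add_smul (x y z z' : V4) (r : ℝ) :
    cross4 x y (z + r • z') = cross4 x y z + r • cross4 x y z' := by
  ext i
  fin_cases i <;> simp [cross4] <;> ring

end

end Vale.Agent.P205.WKB
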