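import Mathlib
import Vale.Agent.P205.Full.WKB.Pair

/-!
# P205: operations on pairs of families
-/

namespace Vale.Agent.P205.WKB

open scoped ContDiff
open Profile intervalIntegral MeasureTheory

noncomputable section

variable {ι : Type} {m δ : ι → ℝ} {E F G : Type} [NormedAddCommGroup E] [NormedSpace ℝ E]
  [NormedAddCommGroup F] [NormedSpace ℝ F] [NormedAddCommGroup G] [NormedSpace ℝ G]

lemma Tiny.zero : Tiny m δ fun (_ : ι) (_ : R3) => (0 : E) :=
  ⟨_, Fam.zero, fun _ _ => (smul_zero _).symm⟩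

lemma Tiny.congr {P Q : ι → R3 → E} (hP : Tiny m δ P) (h : ∀ i q, P i q = Q i q) : Tiny m δ Q := by
  rwa [show P = Q from funext fun i => funext (h i)] at hP

lemma Small.congr {P Q : ι → R3 → E} (hP : Small m δ P) (h : ∀ i q, P i q = Q i q) :
    Small m δ Q := by
  rwa [show P = Q from funext fun i => funext (h i)] at hP

lemma Tiny.add {P Q : ι → R3 → E} (hP : Tiny m δ P) (hQ : Tiny m δ Q) :
    Tiny m δ fun i q => P i q + Q i q := by
  obtain ⟨A, hA, e⟩ := hP
  obtain ⟨B, hB, e'⟩ := hQ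
  exact ⟨_, hA.add hB, fun i q => by dsimp only; rw [e, e', smul_add]⟩

lemma Fam1.sub {P Q : ι → R3 → E} (hP : Fam1 m P) (hQ : Fam1 m Q) :
    Fam1 m fun i q => P i q - Q i q := by
  simpa [sub_eq_add_neg] using hP.add (hQ.clm (-(ContinuousLinearMap.id ℝ E)))

lemma Pair.same {P : ι → R3 → E} (hP : Fam1 m P) : Pair m δ P P :=
  ⟨hP, hP, Tiny.zero.small.congr fun _ _ => (sub_self _).symm⟩

lemma Pair.zero : Pair m δ (fun (_ : ι) (_ : R3) => (0 : E)) fun _ _ => 0 := Pair.same Fam1.zero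

lemma Pair.add {P P' Q Q' : ι → R3 → E} (hP : Pair m δ P P') (hQ : Pair m δ Q Q') :
    Pair m δ (fun i q => P i q + Q i q) fun i q => P' i q + Q' i q :=
  ⟨hP.left.add hQ.left, hP.right.add hQ.right,
    (hP.dif.add hQ.dif).congr fun _ _ => (add_sub_add_comm _ _ _ _).symm⟩

lemma Pair.clm {P P' : ι → R3 → E} (hP : Pair m δ P P') (L : E →L[ℝ] F) :
    Pair m δ (fun i q => L (P i q)) fun i q => L (P' i q) :=
  ⟨hP.left.clm L, hP.right.clm L, (hP.dif.clm L).congr fun _ _ => map_sub L _ _⟩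

lemma Pair.neg {P P' : ι → R3 → E} (hP : Pair m δ P P') :
    Pair m δ (fun i q => -P i q) fun i q => -P' i q := by
  simpa using hP.clm (-(ContinuousLinearMap.id ℝ E))

lemma Pair.sub {P P' Q Q' : ι → R3 → E} (hP : Pair m δ P P') (hQ : Pair m δ Q Q') :
    Pair m δ (fun i q => P i q - Q i q) fun i q => P' i q - Q' i q := by
  simpa only [sub_eq_add_neg] using hP.add hQ.neg

lemma Pair.bilin {P P' : ι → R3 → E} {Q Q' : ι → R3 → F} (hP : Pair m δ P P')
    (hQ : Pair m δ Q Q') (L : E →L[ℝ] F →L[ℝ] G) :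
    Pair m δ (fun i q => L (P i q) (Q i q)) fun i q => L (P' i q) (Q' i q) := by
  refine ⟨hP.left.bilin hQ.left L, hP.right.bilin hQ.right L,
    ((Small.bilin hQ.right hP.dif L.flip).add (Small.bilin hP.left hQ.dif L)).congr fun i q => ?_⟩
  simp only [ContinuousLinearMap.flip_apply, map_sub, _root_.sub_apply]
  abel

lemma Pair.smul {P P' : ι → R3 → ℝ} {Q Q' : ι → R3 → E} (hP : Pair m δ P P')
    (hQ : Pair m δ Q Q') :
    Pair m δ (fun i q => P i q • Q i q) fun i q => P' i q • Q' i q :=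
  hP.bilin hQ (ContinuousLinearMap.lsmul ℝ ℝ)

lemma Pair.mul {P P' Q Q' : ι → R3 → ℝ} (hP : Pair m δ P P') (hQ : Pair m δ Q Q') :
    Pair m δ (fun i q => P i q * Q i q) fun i q => P' i q * Q' i q :=
  hP.bilin hQ (ContinuousLinearMap.mul ℝ ℝ)

lemma Pair.sum {κ : Type*} (s : Finset κ) {P P' : κ → ι → R3 → E}
    (h : ∀ k ∈ s, Pair m δ (P k) (P' k)) :
    Pair m δ (fun i q => ∑ k ∈ s, P k i q) fun i q => ∑ k ∈ s, P' k i q := by
  classical
  induction s using Finset.induction with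
  | empty => simpa using Pair.zero
  | insert k s hk ih =>
    simp only [Finset.sum_insert hk]
    exact (h k (by simp)).add (ih fun j hj => h j (by simp [hj]))

lemma pd_sub {P Q : R3 → E} (hP : ContDiff ℝ ∞ P) (hQ : ContDiff ℝ ∞ Q) (v : R2) (q : R3) :
    pd v (fun q => P q - Q q) q = pd v P q - pd v Q q := by
  simp only [pd, dPoint]
  rw [fderiv_fun_sub (hasFDerivAt_smooth hP q).differentiableAt
    (hasFDerivAt_smooth hQ q).differentiableAt]
  rfl

lemma pd_add {P Q : R3 → E} (hP : ContDiff ℝ ∞ P) (hQ : ContDiff ℝ ∞ Q) (v : R2) (q : R3) :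
    pd v (fun q => P q + Q q) q = pd v P q + pd v Q q := by
  simp only [pd, dPoint]
  rw [fderiv_fun_add (hasFDerivAt_smooth hP q).differentiableAt
    (hasFDerivAt_smooth hQ q).differentiableAt]
  rfl

lemma Pair.pd {P P' : ι → R3 → E} (hP : Pair m δ P P') (v : R2) :
    Pair m δ (fun i => pd v (P i)) fun i => pd v (P' i) :=
  ⟨hP.left.pd v, hP.right.pd v,
    (hP.dif.pd v).congr fun i q => pd_sub (hP.right.fam.smooth i) (hP.left.fam.smooth i) v q⟩

variable [CompleteSpace E]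

lemma Pair.meanP (hm : ∀ i, 1 ≤ m i) {P P' : ι → R3 → E} (hP : Pair m δ P P') :
    Pair m δ (fun i => meanP (P i)) fun i => meanP (P' i) :=
  ⟨Fam1.meanP hm hP.left.fam, Fam1.meanP hm hP.right.fam,
    ((hP.dif.meanP hm).congr fun i q =>
      mean_sub (hP.right.fam.smooth i).continuous (hP.left.fam.smooth i).continuous q.1).small⟩

lemma prim_sub {P Q : R3 → E} (hP : ContDiff ℝ ∞ P) (hQ : ContDiff ℝ ∞ Q) (z : R3) :
    prim (fun q => P q - Q q) z = prim P z - prim Q z := by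
  have h := prim_add (hP.sub hQ) hQ z
  simp only [sub_add_cancel] at h
  rw [eq_sub_iff_add_eq, ← h]

lemma Pair.prim_dif (hm : ∀ i, 1 ≤ m i) {P P' : ι → R3 → E} (hP : Pair m δ P P')
    (h0 : ∀ i x, mean (P i) x = 0) (h0' : ∀ i x, mean (P' i) x = 0) :
    Tiny m δ fun i q => prim (P' i) q - prim (P i) q :=
  (hP.dif.prim hm fun i x => by
    rw [mean_sub (hP.right.fam.smooth i).continuous (hP.left.fam.smooth i).continuous, h0, h0',
      sub_zero]).congr fun i q => prim_sub (hP.right.fam.smooth i) (hP.left.fam.smooth i) q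

lemma Pair.prim (hm : ∀ i, 1 ≤ m i) {P P' : ι → R3 → E} (hP : Pair m δ P P')
    (h0 : ∀ i x, mean (P i) x = 0) (h0' : ∀ i x, mean (P' i) x = 0) :
    Pair m δ (fun i => Profile.prim (P i)) fun i => Profile.prim (P' i) :=
  ⟨Fam1.prim hm hP.left.fam h0, Fam1.prim hm hP.right.fam h0', (hP.prim_dif hm h0 h0').small⟩

end

end Vale.Agent.P205.WKB
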