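import Mathlib
import Vale.Agent.P205.Full.WKB.Frame
import Vale.Agent.P205.Full.WKB.PairOps

/-!
# P205: the formal solution of one corrugation step

The loop and the mean fix are abstract (`LoopData`).  With `U 0 = f` the series is
`F = ∑ λ^{-k} U k (p, λ p.1)`; at order `k` the primitive of `W k = ∂θ (U k)` fixes the oscillating
part of `U k`, the right inverse absorbs the means, and three pointwise conditions together with
the free component `c (k + 1)` determine `W (k + 1)`.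
-/

namespace Vale.Agent.P205.WKB

open scoped ContDiff RealInnerProductSpace
open Correction Profile
open Vale.Agent.P205.Algebra

noncomputable section

/-- Inner product of profiles. -/
def ip (P Q : R3 → V4) (q : R3) : ℝ := ⟪P q, Q q⟫

/-- A map of the plane as a profile. -/
def lift {E : Type} (g : R2 → E) (q : R3) : E := g q.1

/-- Derivative in the first coordinate. -/
def px {E : Type} [NormedAddCommGroup E] [NormedSpace ℝ E] (P : R3 → E) : R3 → E := pd (1, 0) P

/-- Derivative in the second coordinate. -/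
def py {E : Type} [NormedAddCommGroup E] [NormedSpace ℝ E] (P : R3 → E) : R3 → E := pd (0, 1) P

/-- The loop of a step and its mean fix. -/
structure LoopData (D : Step) where
  /-- dual of `f_y` in `span (f_y, f_yy)` -/
  A1 : R2 → V4
  /-- dual of `f_yy` in `span (f_y, f_yy)` -/
  A2 : R2 → V4
  /-- the loop -/
  w : R3 → V4
  /-- dual of `f_x + w` -/
  Z : R3 → V4
  /-- the free normal -/
  e : R3 → V4
  /-- correctors -/
  φ : Fin 5 → R3 → ℝ
  /-- weights of the forced component -/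
  g : Fin 5 → R3 → ℝ
  /-- weights of the free component -/
  h : Fin 5 → R3 → ℝ
  A1_smooth : Smooth2 A1
  A2_smooth : Smooth2 A2
  w_prof : IsProfile w
  Z_prof : IsProfile Z
  e_prof : IsProfile e
  φ_prof : ∀ k, IsProfile (φ k)
  g_prof : ∀ k, IsProfile (g k)
  h_prof : ∀ k, IsProfile (h k)
  w_zero : ∀ p ∉ D.K, ∀ θ, w (p, θ) = 0
  mean_w : ∀ p, mean w p = 0
  T_A1 : ∀ p ∈ D.K, ⟪dy D.f p, A1 p⟫ = 1
  T_A2 : ∀ p ∈ D.K, ⟪dy D.f p, A2 p⟫ = 0
  w_A1 : ∀ p ∈ D.K, ∀ θ, ⟪w (p, θ), A1 p⟫ = 0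
  w_A2 : ∀ p ∈ D.K, ∀ θ, ⟪w (p, θ), A2 p⟫ = 0
  T_w : ∀ p ∈ D.K, ∀ θ, ⟪dy D.f p, w (p, θ)⟫ = 0
  circle : ∀ p ∈ D.K, ∀ θ, ⟪dx D.f p + w (p, θ), dx D.f p + w (p, θ)⟫
    = ⟪dx D.f p, dx D.f p⟫ + D.a p ^ 2
  T_Z : ∀ p ∈ D.K, ∀ θ, ⟪dy D.f p, Z (p, θ)⟫ = 0
  X_Z : ∀ p ∈ D.K, ∀ θ, ⟪dx D.f p + w (p, θ), Z (p, θ)⟫ = 1
  T_e : ∀ p ∈ D.K, ∀ θ, ⟪dy D.f p, e (p, θ)⟫ = 0
  X_e : ∀ p ∈ D.K, ∀ θ, ⟪dx D.f p + w (p, θ), e (p, θ)⟫ = 0
  fix : ∀ σ c : R3 → ℝ, Continuous σ → Continuous c → ∀ p ∈ D.K, mean σ p = 0 →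
    mean (fun q => σ q • Z q +
      (c q + ∑ k, φ k q * meanP (fun q => σ q * g k q + c q * h k q) q) • e q) p = 0

/-- The conditions against `f_yy` that remove the oscillating part of the `yy` equation at every
order.  Without them (`A2 = 0`) the construction leaves a `yy` remainder. -/
structure LoopData.Twist {D : Step} (L : LoopData D) : Prop where
  A_A1 : ∀ p ∈ D.K, ⟪F22 D.f p, L.A1 p⟫ = 0
  A_A2 : ∀ p ∈ D.K, ⟪F22 D.f p, L.A2 p⟫ = 1
  A_w : ∀ p ∈ D.K, ∀ θ, ⟪F22 D.f p, L.w (p, θ)⟫ = 0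
  A_Z : ∀ p ∈ D.K, ∀ θ, ⟪F22 D.f p, L.Z (p, θ)⟫ = 0
  A_e : ∀ p ∈ D.K, ∀ θ, ⟪F22 D.f p, L.e (p, θ)⟫ = 0

variable {D : Step} (L : LoopData D)

namespace LoopData

/-- The free component with its mean fix. -/
def free (σ c : R3 → ℝ) (q : R3) : ℝ :=
  c q + ∑ k, L.φ k q * meanP (fun q => σ q * L.g k q + c q * L.h k q) q

/-- The forced component. -/
def forced (α β γ : R3 → ℝ) (q : R3) : ℝ :=
  β q - ⟪dx D.f q.1, L.A1 q.1⟫ * α q - ⟪dx D.f q.1, L.A2 q.1⟫ * γ q

/-- The solution of the three pointwise conditions with mean zero. -/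
def sol (c α β γ : R3 → ℝ) (q : R3) : V4 :=
  α q • L.A1 q.1 + γ q • L.A2 q.1
    + (L.forced α β γ q • L.Z q + L.free (L.forced α β γ) c q • L.e q)

/-- `f_x + w`. -/
def X0 (q : R3) : V4 := dx D.f q.1 + L.w q

end LoopData

/-- The data at one order: the coefficient and its phase derivative. -/
structure Term where
  /-- the coefficient -/
  u : R3 → V4
  /-- its phase derivative -/
  w : R3 → V4

/-- The `x`-coefficient of order `k` made from a list of terms. -/
def Xco (s : ℕ → Term) (k : ℕ) (q : R3) : V4 := (s (k + 1)).w q + px (s k).u q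

/-- The `y`-coefficient of order `k`. -/
def Tco (s : ℕ → Term) (k : ℕ) : R3 → V4 := py (s k).u

/-- Products of the middle terms of order `k`. -/
def Qsum (P Q : ℕ → R3 → V4) (k : ℕ) (q : R3) : ℝ :=
  ∑ i ∈ Finset.Ico 1 k, ip (P i) (Q (k - i)) q

/-- Right hand side of the mean equation at order `k`. -/
def hmean (s : ℕ → Term) (k : ℕ) (p : R2) : Sym3 :=
  (mean (fun q => 2 * ip L.X0 (px (prim (s k).w)) q + Qsum (Xco s) (Xco s) k q) p,
    mean (fun q => ip (lift (dy D.f)) (px (prim (s k).w)) q + ip L.X0 (py (prim (s k).w)) q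
      + Qsum (Xco s) (Tco s) k q) p,
    mean (fun q => 2 * ip (lift (dy D.f)) (py (prim (s k).w)) q + Qsum (Tco s) (Tco s) k q) p)

/-- The coefficient of order `k`. -/
def nextU (s : ℕ → Term) (k : ℕ) (q : R3) : V4 :=
  prim (s k).w q + D.R (fun p => -hmean L s k p) q.1

/-- The condition against `f_y`, with its mean. -/
def alpha0 (s : ℕ → Term) (k : ℕ) (q : R3) : ℝ :=
  -(ip (lift (dy D.f)) (px (s k).u) q + ip L.X0 (py (s k).u) q + Qsum (Xco s) (Tco s) k q)

/-- The condition against `f_y`. -/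
def alpha (s : ℕ → Term) (k : ℕ) (q : R3) : ℝ := alpha0 L s k q - meanP (alpha0 L s k) q

/-- The condition against `f_x + w`, with its mean. -/
def beta0 (s : ℕ → Term) (k : ℕ) (q : R3) : ℝ :=
  -(ip L.X0 (px (s k).u) q + (1 / 2) * Qsum (Xco s) (Xco s) k q)

/-- The condition against `f_x + w`. -/
def beta (s : ℕ → Term) (k : ℕ) (q : R3) : ℝ := beta0 L s k q - meanP (beta0 L s k) q

/-- What the mean corrector leaves at order `k`; zero for a right inverse. -/
def defect (s : ℕ → Term) (k : ℕ) (p : R2) : Sym3 :=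
  lin D.f (D.R fun p => -hmean L s k p) p + hmean L s k p

/-- The condition against `f_yy`. -/
def gamma (s : ℕ → Term) (k : ℕ) (q : R3) : ℝ :=
  py (alpha L s k) q
    + ∑ i ∈ Finset.Ico 1 (k + 1), ip (py (s i).w) (Tco s (k + 1 - i)) q

/-- Fills in the coefficient at order `k`, keeping the lower ones. -/
def setU (s : ℕ → Term) (k : ℕ) : ℕ → Term :=
  fun i => if i = k then ⟨nextU L s k, (s k).w⟩ else s i

/-- Appends the phase derivative of order `k + 1`. -/
def setW (c : ℕ → R3 → ℝ) (s : ℕ → Term) (k : ℕ) : ℕ → Term :=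
  fun i => if i = k + 1 then
    ⟨fun _ => 0, L.sol (c (k + 1)) (alpha L s k) (beta L s k) (gamma L s k)⟩ else s i

/-- The terms known after `k` steps: `u` up to `k`, `w` up to `k + 1`. -/
def seq (c : ℕ → R3 → ℝ) : ℕ → ℕ → Term
  | 0 => fun i => if i = 0 then ⟨lift D.f, fun _ => 0⟩ else ⟨fun _ => 0, if i = 1 then L.w else 0⟩
  | k + 1 => setW L c (setU L (seq c k) (k + 1)) (k + 1)

/-- The coefficient of order `k`. -/
def U (c : ℕ → R3 → ℝ) (k : ℕ) : R3 → V4 := (seq L c k k).u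

/-- The phase derivative of the coefficient of order `k`. -/
def W (c : ℕ → R3 → ℝ) (k : ℕ) : R3 → V4 := (seq L c k k).w

/-- All terms. -/
def term (c : ℕ → R3 → ℝ) (k : ℕ) : Term := ⟨U L c k, W L c k⟩

lemma seq_stable (c : ℕ → R3 → ℝ) {i k : ℕ} (h : i ≤ k) : seq L c k i = seq L c i i := by
  induction k, h using Nat.le_induction with
  | base => rfl
  | succ k h ih =>
    rw [seq]
    simp only [setW, setU, show i ≠ k + 1 + 1 by omega, show i ≠ k + 1 by omega, if_false, ih]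

lemma seq_succ_w (c : ℕ → R3 → ℝ) (k : ℕ) : (seq L c k (k + 1)).w = W L c (k + 1) := by
  rw [W, seq]
  simp [setW, setU]

lemma seq_w (c : ℕ → R3 → ℝ) {i k : ℕ} (h : i ≤ k + 1) : (seq L c k i).w = W L c i := by
  rcases h.lt_or_eq with h | h
  · rw [seq_stable L c (Nat.lt_succ_iff.1 h), W]
  · rw [h, seq_succ_w]

lemma seq_u (c : ℕ → R3 → ℝ) {i k : ℕ} (h : i ≤ k) : (seq L c k i).u = U L c i := by
  rw [seq_stable L c h, U]

lemma U_zero (c : ℕ → R3 → ℝ) : U L c 0 = lift D.f := rfl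

lemma W_zero (c : ℕ → R3 → ℝ) : W L c 0 = fun _ => 0 := rfl

lemma W_one (c : ℕ → R3 → ℝ) : W L c 1 = L.w := by
  rw [← seq_succ_w]; rfl

section Congr

variable {s t : ℕ → Term}

lemma hmean_congr {k : ℕ} (hw : ∀ i ≤ k, (s i).w = (t i).w) (hu : ∀ i < k, (s i).u = (t i).u) :
    hmean L s k = hmean L t k := by
  have hX : ∀ i, i < k → Xco s i = Xco t i := fun i hi => funext fun q => by
    simp only [Xco, hw (i + 1) (by omega), hu i hi]
  have hT : ∀ i, i < k → Tco s i = Tco t i := fun i hi => by simp only [Tco, hu i hi]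
  have hQ : ∀ P Q P' Q' : ℕ → R3 → V4, (∀ i, i < k → P i = P' i) → (∀ i, i < k → Q i = Q' i) →
      Qsum P Q k = Qsum P' Q' k := fun P Q P' Q' hP hQ => funext fun q =>
    Finset.sum_congr rfl fun i hi => by
      obtain ⟨h1, h2⟩ := Finset.mem_Ico.1 hi
      rw [hP i h2, hQ (k - i) (by omega)]
  funext p
  simp only [hmean, hw k le_rfl, hQ _ _ _ _ hX hX, hQ _ _ _ _ hX hT, hQ _ _ _ _ hT hT]

lemma cond_congr {k : ℕ} (hw : ∀ i ≤ k, (s i).w = (t i).w) (hu : ∀ i ≤ k, (s i).u = (t i).u) :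
    alpha L s k = alpha L t k ∧ beta L s k = beta L t k ∧ gamma L s k = gamma L t k := by
  have hX : ∀ i, i < k → Xco s i = Xco t i := fun i hi => funext fun q => by
    simp only [Xco, hw (i + 1) (by omega), hu i hi.le]
  have hT : ∀ i, i ≤ k → Tco s i = Tco t i := fun i hi => by simp only [Tco, hu i hi]
  have hQ : ∀ P Q P' Q' : ℕ → R3 → V4, (∀ i, i < k → P i = P' i) → (∀ i, i < k → Q i = Q' i) →
      Qsum P Q k = Qsum P' Q' k := fun P Q P' Q' hP hQ => funext fun q =>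
    Finset.sum_congr rfl fun i hi => by
      obtain ⟨h1, h2⟩ := Finset.mem_Ico.1 hi
      rw [hP i h2, hQ (k - i) (by omega)]
  have ha0 : alpha0 L s k = alpha0 L t k := funext fun q => by
    simp only [alpha0, hu k le_rfl, hQ _ _ _ _ hX (fun i hi => hT i hi.le)]
  have hb0 : beta0 L s k = beta0 L t k := funext fun q => by
    simp only [beta0, hu k le_rfl, hQ _ _ _ _ hX hX]
  have ha : alpha L s k = alpha L t k := funext fun q => by simp only [alpha, ha0]
  refine ⟨ha, funext fun q => by simp only [beta, hb0], funext fun q => ?_⟩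
  simp only [gamma, ha]
  refine congrArg _ (Finset.sum_congr rfl fun i hi => ?_)
  obtain ⟨h1, h2⟩ := Finset.mem_Ico.1 hi
  rw [hw i (by omega), hT (k + 1 - i) (by omega)]

end Congr

lemma U_succ (c : ℕ → R3 → ℝ) (k : ℕ) : U L c (k + 1) = nextU L (term L c) (k + 1) := by
  rw [U, seq]
  simp only [setW, show k + 1 ≠ k + 1 + 1 by omega, if_false, setU, if_true]
  funext q
  have hw : ∀ i ≤ k + 1, (seq L c k i).w = (term L c i).w := fun i hi => seq_w L c hi
  simp only [nextU, hw (k + 1) le_rfl,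
    hmean_congr L hw fun i hi => seq_u L c (Nat.lt_succ_iff.1 hi)]

lemma W_succ (c : ℕ → R3 → ℝ) {k : ℕ} (hk : 1 ≤ k) :
    W L c (k + 1) = L.sol (c (k + 1)) (alpha L (term L c) k) (beta L (term L c) k)
      (gamma L (term L c) k) := by
  obtain ⟨j, rfl⟩ : ∃ j, k = j + 1 := ⟨k - 1, by omega⟩
  rw [← seq_succ_w, seq]
  simp only [setW, if_true]
  have hw : ∀ i ≤ j + 1, (setU L (seq L c j) (j + 1) i).w = (term L c i).w := fun i hi => by
    simp only [setU]
    split_ifs with h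
    · subst h; exact seq_w L c le_rfl
    · exact seq_w L c hi
  have hu : ∀ i ≤ j + 1, (setU L (seq L c j) (j + 1) i).u = (term L c i).u := fun i hi => by
    rcases hi.lt_or_eq with h | h
    · simp only [setU, show i ≠ j + 1 by omega, if_false]
      exact seq_u L c (Nat.lt_succ_iff.1 h)
    · subst h
      show _ = U L c (j + 1)
      rw [U, seq]
      simp [setW, setU]
  obtain ⟨h1, h2, h3⟩ := cond_congr L hw hu
  rw [h1, h2, h3]

end

end Vale.Agent.P205.WKB
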