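import Mathlib
import Vale.Agent.P205.Full.WKB.Recursion

/-!
# P205: one order of the expansion

For terms that are known up to order `k`: smoothness, supports, and the vanishing of the means of
the three right hand sides, which is exactly the mean equation solved by the right inverse.
-/

namespace Vale.Agent.P205.WKB

open scoped ContDiff RealInnerProductSpace
open Correction Profile intervalIntegral
open Vale.Agent.P205.Algebra

noncomputable section

lemma mean_congr {E : Type} [NormedAddCommGroup E] [NormedSpace ℝ E] {P Q : R3 → E} {p : R2}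
    (h : ∀ θ, P (p, θ) = Q (p, θ)) : mean P p = mean Q p :=
  intervalIntegral.integral_congr fun t _ => h t

lemma mean_mul_fst (g : R2 → ℝ) (P : R3 → ℝ) (p : R2) :
    mean (fun q => g q.1 * P q) p = g p * mean P p :=
  intervalIntegral.integral_const_mul (g p) _

lemma mean_const_mul (r : ℝ) (P : R3 → ℝ) (p : R2) :
    mean (fun q => r * P q) p = r * mean P p :=
  intervalIntegral.integral_const_mul r _

lemma mean_neg {E : Type} [NormedAddCommGroup E] [NormedSpace ℝ E] (P : R3 → E) (p : R2) :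
    mean (fun q => -P q) p = -mean P p :=
  intervalIntegral.integral_neg

lemma mean_clm {E F : Type} [NormedAddCommGroup E] [NormedSpace ℝ E] [CompleteSpace E]
    [NormedAddCommGroup F] [NormedSpace ℝ F] [CompleteSpace F] {P : R3 → E} (hP : Continuous P)
    (L : E →L[ℝ] F) (p : R2) : mean (fun q => L (P q)) p = L (mean P p) :=
  L.intervalIntegral_comp_comm (intervalIntegrable_phase hP p 0 1)

lemma mean_smul_fst {P : R3 → ℝ} (v : R2 → V4) (p : R2) :
    mean (fun q => P q • v q.1) p = mean P p • v p :=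
  intervalIntegral.integral_smul_const (fun t => P (p, t)) (v p)

lemma pd_lift {E : Type} [NormedAddCommGroup E] [NormedSpace ℝ E] {g : R2 → E}
    (hg : Differentiable ℝ g) (v : R2) (q : R3) : pd v (lift g) q = fderiv ℝ g q.1 v := by
  show fderiv ℝ (fun q : R3 => g q.1) q (v, 0) = _
  rw [show fderiv ℝ (fun q : R3 => g q.1) q =
    (fderiv ℝ g q.1).comp (ContinuousLinearMap.fst ℝ R2 ℝ) from
      ((hg q.1).hasFDerivAt.comp q hasFDerivAt_fst).fderiv]
  rfl

lemma isProfile_pd {E : Type} [NormedAddCommGroup E] [NormedSpace ℝ E] {P : R3 → E}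
    (hP : IsProfile P) (v : R2) : IsProfile (pd v P) :=
  isProfile_comp (isProfile_fderiv hP) (ContinuousLinearMap.apply ℝ E ((v, 0) : R3)).contDiff

lemma isProfile_lift {E : Type} [NormedAddCommGroup E] [NormedSpace ℝ E] {g : R2 → E}
    (hg : Smooth2 g) : IsProfile (lift g) :=
  ⟨hg.1.comp contDiff_fst, fun z => ⟨hg.2.1 z.1, hg.2.2 z.1,
    by show g (z.1 + 0) = g z.1; rw [add_zero]⟩⟩

lemma isProfile_add {E : Type} [NormedAddCommGroup E] [NormedSpace ℝ E] {P Q : R3 → E}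
    (hP : IsProfile P) (hQ : IsProfile Q) : IsProfile fun q => P q + Q q :=
  ⟨hP.1.add hQ.1, fun z => ⟨congrArg₂ (· + ·) (hP.2 z).1 (hQ.2 z).1,
    congrArg₂ (· + ·) (hP.2 z).2.1 (hQ.2 z).2.1, congrArg₂ (· + ·) (hP.2 z).2.2 (hQ.2 z).2.2⟩⟩

lemma isProfile_bilin {E F G : Type} [NormedAddCommGroup E] [NormedSpace ℝ E]
    [NormedAddCommGroup F] [NormedSpace ℝ F] [NormedAddCommGroup G] [NormedSpace ℝ G]
    {P : R3 → E} {Q : R3 → F} (hP : IsProfile P) (hQ : IsProfile Q) (B : E →L[ℝ] F →L[ℝ] G) :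
    IsProfile fun q => B (P q) (Q q) :=
  ⟨(B.contDiff.comp hP.1).clm_apply hQ.1, fun z =>
    ⟨congrArg₂ (fun a b => B a b) (hP.2 z).1 (hQ.2 z).1,
      congrArg₂ (fun a b => B a b) (hP.2 z).2.1 (hQ.2 z).2.1,
      congrArg₂ (fun a b => B a b) (hP.2 z).2.2 (hQ.2 z).2.2⟩⟩

lemma isProfile_ip {P Q : R3 → V4} (hP : IsProfile P) (hQ : IsProfile Q) : IsProfile (ip P Q) :=
  isProfile_bilin hP hQ (innerSL ℝ)

lemma isProfile_sum {κ : Type*} {E : Type} [NormedAddCommGroup E] [NormedSpace ℝ E]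
    (s : Finset κ) {P : κ → R3 → E} (h : ∀ k ∈ s, IsProfile (P k)) :
    IsProfile fun q => ∑ k ∈ s, P k q :=
  ⟨ContDiff.sum fun k hk => (h k hk).1, fun z =>
    ⟨Finset.sum_congr rfl fun k hk => ((h k hk).2 z).1,
      Finset.sum_congr rfl fun k hk => ((h k hk).2 z).2.1,
      Finset.sum_congr rfl fun k hk => ((h k hk).2 z).2.2⟩⟩

variable {D : Step} (L : LoopData D)

lemma pd_zero_off {E : Type} [NormedAddCommGroup E] [NormedSpace ℝ E] {P : R3 → E}
    (h : ∀ p ∉ D.K, ∀ θ, P (p, θ) = 0) (v : R2) {p : R2} (hp : p ∉ D.K) (θ : ℝ) :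
    pd v P (p, θ) = 0 := by
  have he : P =ᶠ[nhds (p, θ)] fun _ => (0 : E) :=
    Filter.eventuallyEq_of_mem (((D.K_closed.isOpen_compl).preimage continuous_fst).mem_nhds hp)
      fun q hq => h q.1 hq q.2
  show fderiv ℝ P (p, θ) (v, 0) = 0
  rw [he.fderiv_eq]
  simp

lemma LoopData.isProfile_X0 : IsProfile L.X0 :=
  isProfile_add (isProfile_lift (smooth2_dx D.f_smooth)) L.w_prof

/-- Facts known about the terms up to order `k`. -/
structure Known (s : ℕ → Term) (k : ℕ) : Prop where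
  u_prof : ∀ i < k, IsProfile (s i).u
  w_prof : ∀ i ≤ k, IsProfile (s i).w
  mean_w : ∀ i ≤ k, ∀ p, mean (s i).w p = 0
  u_zero : ∀ i, 1 ≤ i → i < k → ∀ p ∉ D.K, ∀ θ, (s i).u (p, θ) = 0
  w_zero : ∀ i ≤ k, ∀ p ∉ D.K, ∀ θ, (s i).w (p, θ) = 0
  dphase : ∀ i < k, dPhase (s i).u = (s i).w

variable {L} {s : ℕ → Term} {k : ℕ} (hs : Known (D := D) s k)
include hs

lemma Known.Xco_prof {i : ℕ} (hi : i < k) : IsProfile (Xco s i) :=
  isProfile_add (hs.w_prof (i + 1) hi) (isProfile_pd (hs.u_prof i hi) _)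

lemma Known.Tco_prof {i : ℕ} (hi : i < k) : IsProfile (Tco s i) := isProfile_pd (hs.u_prof i hi) _

lemma Known.Xco_zero {i : ℕ} (h1 : 1 ≤ i) (hi : i < k) {p : R2} (hp : p ∉ D.K) (θ : ℝ) :
    Xco s i (p, θ) = 0 := by
  rw [Xco, hs.w_zero (i + 1) hi p hp θ, px, pd_zero_off (hs.u_zero i h1 hi) _ hp, add_zero]

lemma Known.Tco_zero {i : ℕ} (h1 : 1 ≤ i) (hi : i < k) {p : R2} (hp : p ∉ D.K) (θ : ℝ) :
    Tco s i (p, θ) = 0 :=
  pd_zero_off (hs.u_zero i h1 hi) _ hp θ

omit hs in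
lemma Qsum_prof {P Q : ℕ → R3 → V4} (hP : ∀ i < k, IsProfile (P i))
    (hQ : ∀ i < k, IsProfile (Q i)) : IsProfile (Qsum P Q k) :=
  isProfile_sum _ fun i hi => by
    obtain ⟨h1, h2⟩ := Finset.mem_Ico.1 hi
    exact isProfile_ip (hP i h2) (hQ (k - i) (by omega))

omit hs in
lemma Qsum_zero {P Q : ℕ → R3 → V4} {q : R3} (hP : ∀ i, 1 ≤ i → i < k → P i q = 0) :
    Qsum P Q k q = 0 :=
  Finset.sum_eq_zero fun i hi => by
    obtain ⟨h1, h2⟩ := Finset.mem_Ico.1 hi
    rw [ip, hP i h1 h2, inner_zero_left]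

lemma Known.prim_prof : IsProfile (prim (s k).w) :=
  isProfile_prim (hs.w_prof k le_rfl) (hs.mean_w k le_rfl)

lemma Known.prim_zero {p : R2} (hp : p ∉ D.K) (θ : ℝ) : prim (s k).w (p, θ) = 0 := by
  have h : ∀ t, prim0 (s k).w (p, t) = 0 := fun t => by
    show (∫ u in (0 : ℝ)..t, (s k).w (p, u)) = 0
    simp [hs.w_zero k le_rfl p hp]
  simp [prim, mean, h]

lemma Known.hmean_ok (L : LoopData D) : Ok D.K fun p => -hmean L s k p := by
  have hp := hs.prim_prof
  have hT : IsProfile (lift (dy D.f)) := isProfile_lift (smooth2_dy D.f_smooth)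
  have h2 : IsProfile fun _ : R3 => (2 : ℝ) := ⟨contDiff_const, fun _ => ⟨rfl, rfl, rfl⟩⟩
  have m1 := smooth2_mean (isProfile_add (isProfile_bilin h2
    (isProfile_ip L.isProfile_X0 (isProfile_pd hp (1, 0))) (ContinuousLinearMap.mul ℝ ℝ))
    (Qsum_prof (fun _ hi => hs.Xco_prof hi) (fun _ hi => hs.Xco_prof hi)))
  have m2 := smooth2_mean (isProfile_add (isProfile_add (isProfile_ip hT (isProfile_pd hp (1, 0)))
    (isProfile_ip L.isProfile_X0 (isProfile_pd hp (0, 1))))
    (Qsum_prof (fun _ hi => hs.Xco_prof hi) (fun _ hi => hs.Tco_prof hi)))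
  have m3 := smooth2_mean (isProfile_add (isProfile_bilin h2
    (isProfile_ip hT (isProfile_pd hp (0, 1))) (ContinuousLinearMap.mul ℝ ℝ))
    (Qsum_prof (fun _ hi => hs.Tco_prof hi) (fun _ hi => hs.Tco_prof hi)))
  refine ⟨⟨(m1.1.prodMk (m2.1.prodMk m3.1)).neg,
    fun p => congrArg Neg.neg (Prod.ext (m1.2.1 p) (Prod.ext (m2.2.1 p) (m3.2.1 p))),
    fun p => congrArg Neg.neg (Prod.ext (m1.2.2 p) (Prod.ext (m2.2.2 p) (m3.2.2 p)))⟩,
    fun p hp' => ?_⟩
  have e : ∀ v θ, pd v (prim (s k).w) (p, θ) = 0 := fun v θ =>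
    pd_zero_off (fun p hp θ => hs.prim_zero hp θ) v hp' θ
  have z : ∀ P : R3 → ℝ, (∀ θ, P (p, θ) = 0) → mean P p = 0 := fun P h => by simp [mean, h]
  suffices h : hmean L s k p = 0 by simp [h]
  simp only [hmean, Prod.mk_eq_zero]
  refine ⟨z _ fun θ => ?_, z _ fun θ => ?_, z _ fun θ => ?_⟩
  · rw [ip, px, e, inner_zero_right, mul_zero,
      Qsum_zero fun i h1 hi => hs.Xco_zero h1 hi hp' θ, add_zero]
  · rw [ip, ip, px, py, e, e, inner_zero_right, inner_zero_right, add_zero,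
      Qsum_zero fun i h1 hi => hs.Xco_zero h1 hi hp' θ, add_zero]
  · rw [ip, py, e, inner_zero_right, mul_zero,
      Qsum_zero fun i h1 hi => hs.Tco_zero h1 hi hp' θ, add_zero]

variable (hu : (s k).u = nextU L s k)
include hu

/-- The mean part. -/
lemma Known.pd_u (v : R2) (q : R3) : pd v (s k).u q =
    pd v (prim (s k).w) q + fderiv ℝ (D.R fun p => -hmean L s k p) q.1 v := by
  have hR := (D.R_ok _ (hs.hmean_ok L)).1
  rw [hu, ← pd_lift (hR.1.differentiable (by simp))]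
  exact pd_add hs.prim_prof.1 (isProfile_lift hR).1 v q

lemma Known.u_prof_top : IsProfile (s k).u := by
  rw [hu]
  exact isProfile_add hs.prim_prof (isProfile_lift (D.R_ok _ (hs.hmean_ok L)).1)

lemma Known.u_zero_top {p : R2} (hp : p ∉ D.K) (θ : ℝ) : (s k).u (p, θ) = 0 := by
  rw [hu, nextU, hs.prim_zero hp, (D.R_ok _ (hs.hmean_ok L)).2 p hp, add_zero]

lemma Known.dphase_top : dPhase (s k).u = (s k).w := by
  have hR := (D.R_ok _ (hs.hmean_ok L)).1
  rw [hu, show nextU L s k = fun q => prim (s k).w q + lift (D.R fun p => -hmean L s k p) q from rfl,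
    dPhase_add hs.prim_prof.1 (isProfile_lift hR).1,
    show dPhase (lift (D.R fun p => -hmean L s k p)) = fun _ => 0 from
      dPhase_fst (hR.1.differentiable (by simp))]
  funext q
  rw [add_zero, dPhase_prim (hs.w_prof k le_rfl).1]

omit hs hu in
lemma mean_ip_X0 (L : LoopData D) (v : R2 → V4) (p : R2) :
    mean (fun q => ⟪L.X0 q, v q.1⟫) p = ⟪dx D.f p, v p⟫ := by
  rw [mean_congr (Q := fun q => (innerSL ℝ).flip (v p) (L.X0 q)) fun θ => rfl,
    mean_clm L.isProfile_X0.1.continuous]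
  show ⟪mean (fun q => dx D.f q.1 + L.w q) p, v p⟫ = _
  rw [mean_add (P := fun q : R3 => dx D.f q.1)
    ((smooth2_dx D.f_smooth).1.continuous.comp continuous_fst) L.w_prof.1.continuous,
    mean_const, L.mean_w, add_zero]

lemma Known.mean_alpha0 (p : R2) : mean (alpha0 L s k) p = -(defect L s k p).2.1 := by
  have hR := (D.R_ok _ (hs.hmean_ok L)).1
  obtain ⟨V, hV⟩ : ∃ V, V = D.R fun p => -hmean L s k p := ⟨_, rfl⟩
  rw [← hV] at hR
  rw [defect, ← hV]
  simp only [lin, hmean, Prod.snd_add, Prod.fst_add]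
  have c1 : IsProfile fun q => ip (lift (dy D.f)) (px (prim (s k).w)) q +
      ip L.X0 (py (prim (s k).w)) q + Qsum (Xco s) (Tco s) k q :=
    isProfile_add (isProfile_add
      (isProfile_ip (isProfile_lift (smooth2_dy D.f_smooth)) (isProfile_pd hs.prim_prof _))
      (isProfile_ip L.isProfile_X0 (isProfile_pd hs.prim_prof _)))
      (Qsum_prof (fun _ hi => hs.Xco_prof hi) (fun _ hi => hs.Tco_prof hi))
  have c2 : Continuous fun q : R3 => ⟪dy D.f q.1, dx V q.1⟫ :=
    ((smooth2_inner (smooth2_dy D.f_smooth) (smooth2_dx hR)).1.continuous).comp continuous_fst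
  have c3 : Continuous fun q : R3 => ⟪L.X0 q, dy V q.1⟫ :=
    L.isProfile_X0.1.continuous.inner ((smooth2_dy hR).1.continuous.comp continuous_fst)
  rw [mean_congr (Q := fun q => -((ip (lift (dy D.f)) (px (prim (s k).w)) q +
      ip L.X0 (py (prim (s k).w)) q + Qsum (Xco s) (Tco s) k q) +
      (⟪dy D.f q.1, dx V q.1⟫ + ⟪L.X0 q, dy V q.1⟫))) fun θ => ?_,
    mean_neg, mean_add c1.1.continuous (show Continuous fun q : R3 =>
      ⟪dy D.f q.1, dx V q.1⟫ + ⟪L.X0 q, dy V q.1⟫ from c2.add c3), mean_add c2 c3, mean_ip_X0,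
    mean_const (fun p => ⟪dy D.f p, dx V p⟫), real_inner_comm (dx V p) (dy D.f p)]
  · ring
  · simp only [alpha0, ip, px, py, hs.pd_u hu, inner_add_right, ← hV, lift, dx, dy]
    ring

lemma Known.mean_beta0 (p : R2) : mean (beta0 L s k) p = -(1 / 2) * (defect L s k p).1 := by
  have hR := (D.R_ok _ (hs.hmean_ok L)).1
  obtain ⟨V, hV⟩ : ∃ V, V = D.R fun p => -hmean L s k p := ⟨_, rfl⟩
  rw [← hV] at hR
  rw [defect, ← hV]
  simp only [lin, hmean, Prod.fst_add]
  have c1 : Continuous fun q => 2 * ip L.X0 (px (prim (s k).w)) q + Qsum (Xco s) (Xco s) k q :=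
    (continuous_const.mul (isProfile_ip L.isProfile_X0 (isProfile_pd hs.prim_prof _)).1.continuous).add
      (Qsum_prof (fun _ hi => hs.Xco_prof hi) (fun _ hi => hs.Xco_prof hi)).1.continuous
  have c3 : Continuous fun q : R3 => ⟪L.X0 q, dx V q.1⟫ :=
    L.isProfile_X0.1.continuous.inner ((smooth2_dx hR).1.continuous.comp continuous_fst)
  rw [mean_congr (Q := fun q => (-(1 / 2)) * ((2 * ip L.X0 (px (prim (s k).w)) q +
      Qsum (Xco s) (Xco s) k q) + 2 * ⟪L.X0 q, dx V q.1⟫)) fun θ => ?_,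
    mean_const_mul, mean_add c1 (show Continuous fun q : R3 => 2 * ⟪L.X0 q, dx V q.1⟫ from
      continuous_const.mul c3), mean_const_mul, mean_ip_X0]
  · ring
  · simp only [beta0, ip, px, hs.pd_u hu, inner_add_right, ← hV, dx]
    ring

lemma Known.alpha0_prof : IsProfile (alpha0 L s k) :=
  isProfile_comp (isProfile_add (isProfile_add
    (isProfile_ip (isProfile_lift (smooth2_dy D.f_smooth)) (isProfile_pd (hs.u_prof_top hu) _))
    (isProfile_ip L.isProfile_X0 (isProfile_pd (hs.u_prof_top hu) _)))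
    (Qsum_prof (fun _ hi => hs.Xco_prof hi) (fun _ hi => hs.Tco_prof hi))) contDiff_neg

lemma Known.beta0_prof : IsProfile (beta0 L s k) :=
  isProfile_comp (isProfile_add (isProfile_ip L.isProfile_X0 (isProfile_pd (hs.u_prof_top hu) _))
    (isProfile_comp (Qsum_prof (fun _ hi => hs.Xco_prof hi) (fun _ hi => hs.Xco_prof hi))
      (contDiff_const.mul contDiff_id : ContDiff ℝ ∞ fun y : ℝ => (1 / 2) * y))) contDiff_neg

lemma Known.alpha_prof : IsProfile (alpha L s k) := by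
  have h := hs.alpha0_prof (L := L) hu
  rw [show alpha L s k = fun q => alpha0 L s k q + -WKB.meanP (alpha0 L s k) q from
    funext fun q => sub_eq_add_neg _ _]
  exact isProfile_add h (isProfile_comp (isProfile_meanP h) contDiff_neg)

lemma Known.beta_prof : IsProfile (beta L s k) := by
  have h := hs.beta0_prof (L := L) hu
  rw [show beta L s k = fun q => beta0 L s k q + -WKB.meanP (beta0 L s k) q from
    funext fun q => sub_eq_add_neg _ _]
  exact isProfile_add h (isProfile_comp (isProfile_meanP h) contDiff_neg)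

omit hs hu in
lemma mean_sub_meanP {P : R3 → ℝ} (hP : IsProfile P) (p : R2) :
    mean (fun q => P q - WKB.meanP P q) p = 0 := by
  rw [mean_sub hP.1.continuous (isProfile_meanP hP).1.continuous]
  show mean P p - mean (fun q => mean P q.1) p = 0
  rw [mean_const, sub_self]

lemma Known.mean_alpha (p : R2) : mean (alpha L s k) p = 0 := mean_sub_meanP (hs.alpha0_prof hu) p

lemma Known.mean_beta (p : R2) : mean (beta L s k) p = 0 := mean_sub_meanP (hs.beta0_prof hu) p

lemma Known.u_prof_le {i : ℕ} (hi : i ≤ k) : IsProfile (s i).u := by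
  rcases hi.lt_or_eq with h | rfl
  · exact hs.u_prof i h
  · exact hs.u_prof_top hu

lemma Known.dphase_le {i : ℕ} (hi : i ≤ k) : dPhase (s i).u = (s i).w := by
  rcases hi.lt_or_eq with h | rfl
  · exact hs.dphase i h
  · exact hs.dphase_top hu

lemma Known.sum_prof : IsProfile fun q =>
    ∑ i ∈ Finset.Ico 1 (k + 1), ip (py (s i).w) (Tco s (k + 1 - i)) q :=
  isProfile_sum _ fun i hi => by
    obtain ⟨h1, h2⟩ := Finset.mem_Ico.1 hi
    exact isProfile_ip (isProfile_pd (hs.w_prof i (by omega)) _)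
      (isProfile_pd (hs.u_prof_le hu (by omega)) _)

lemma Known.gamma_prof : IsProfile (gamma L s k) :=
  isProfile_add (isProfile_pd (hs.alpha_prof hu) _) (hs.sum_prof hu)

/-- The sum in `gamma` is half of a phase derivative. -/
lemma Known.dPhase_Qsum (q : R3) : dPhase (Qsum (Tco s) (Tco s) (k + 1)) q =
    2 * ∑ i ∈ Finset.Ico 1 (k + 1), ip (py (s i).w) (Tco s (k + 1 - i)) q := by
  have hT : ∀ i ≤ k, IsProfile (Tco s i) := fun i hi => isProfile_pd (hs.u_prof_le hu hi) _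
  have hd : ∀ i ≤ k, dPhase (Tco s i) = py (s i).w := fun i hi => by
    rw [Tco, py, dPhase_pd (hs.u_prof_le hu hi).1, hs.dphase_le hu hi]
    rfl
  have e : HasFDerivAt (Qsum (Tco s) (Tco s) (k + 1))
      (∑ i ∈ Finset.Ico 1 (k + 1), fderiv ℝ (ip (Tco s i) (Tco s (k + 1 - i))) q) q :=
    HasFDerivAt.fun_sum fun i hi => by
      obtain ⟨h1, h2⟩ := Finset.mem_Ico.1 hi
      exact hasFDerivAt_smooth (isProfile_ip (hT i (by omega)) (hT _ (by omega))).1 q
  have step : ∀ i ∈ Finset.Ico 1 (k + 1), dPhase (ip (Tco s i) (Tco s (k + 1 - i))) q =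
      ip (py (s (k + 1 - i)).w) (Tco s i) q + ip (py (s i).w) (Tco s (k + 1 - i)) q := fun i hi => by
    obtain ⟨h1, h2⟩ := Finset.mem_Ico.1 hi
    rw [show ip (Tco s i) (Tco s (k + 1 - i)) =
      fun q => innerSL ℝ (Tco s i q) (Tco s (k + 1 - i) q) from rfl,
      dPhase_bilin (hT i (by omega)).1 (hT _ (by omega)).1, hd i (by omega), hd _ (by omega)]
    show ⟪Tco s i q, py (s (k + 1 - i)).w q⟫ + ⟪py (s i).w q, Tco s (k + 1 - i) q⟫ = _
    rw [real_inner_comm (py (s (k + 1 - i)).w q) (Tco s i q)]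
    rfl
  rw [dPhase, e.fderiv, _root_.sum_apply]
  show ∑ i ∈ Finset.Ico 1 (k + 1), dPhase (ip (Tco s i) (Tco s (k + 1 - i))) q = _
  rw [Finset.sum_congr rfl step, Finset.sum_add_distrib, two_mul]
  congr 1
  refine Finset.sum_bij' (fun i _ => k + 1 - i) (fun i _ => k + 1 - i) ?_ ?_ ?_ ?_ ?_
  all_goals intro i hi
  all_goals obtain ⟨h1, h2⟩ := Finset.mem_Ico.1 hi
  all_goals try (simp only [Finset.mem_Ico]; omega)
  all_goals try omega
  rw [show k + 1 - (k + 1 - i) = i by omega]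

lemma Known.mean_gamma (p : R2) : mean (gamma L s k) p = 0 := by
  have hQ : IsProfile (Qsum (Tco s) (Tco s) (k + 1)) :=
    Qsum_prof (k := k + 1) (fun _ hi => isProfile_pd (hs.u_prof_le hu (Nat.lt_succ_iff.1 hi)) _)
      (fun _ hi => isProfile_pd (hs.u_prof_le hu (Nat.lt_succ_iff.1 hi)) _)
  have h1 : mean (fun q => ∑ i ∈ Finset.Ico 1 (k + 1), ip (py (s i).w) (Tco s (k + 1 - i)) q) p
      = 0 := by
    rw [mean_congr (Q := fun q => (1 / 2) * dPhase (Qsum (Tco s) (Tco s) (k + 1)) q) fun θ => by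
      rw [hs.dPhase_Qsum hu]; ring, mean_const_mul, mean_dPhase hQ, mul_zero]
  have ha := hs.alpha_prof hu
  have h2 : mean (py (alpha L s k)) p = 0 := by
    have h := hasFDerivAt_mean ha.1 p
    rw [show mean (alpha L s k) = fun _ => (0 : ℝ) from funext (hs.mean_alpha hu)] at h
    have h' := congrArg (fun T : R2 →L[ℝ] ℝ => T (0, 1)) (h.unique (hasFDerivAt_const (0 : ℝ) p))
    rw [ContinuousLinearMap.intervalIntegral_apply] at h'
    · simpa [mean, py, pd, dPoint] using h'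
    · exact (((ha.1.fderiv_right (m := ∞) le_rfl).continuous.comp
        (Continuous.prodMk_right p)).clm_comp continuous_const).intervalIntegrable 0 1
  rw [show gamma L s k = fun q => py (alpha L s k) q +
      ∑ i ∈ Finset.Ico 1 (k + 1), ip (py (s i).w) (Tco s (k + 1 - i)) q from rfl,
    mean_add (P := py (alpha L s k)) (isProfile_pd ha _).1.continuous
      (hs.sum_prof hu).1.continuous]
  rw [h2, h1, add_zero]

lemma Known.cond_zero {p : R2} (hp : p ∉ D.K) (θ : ℝ) :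
    alpha L s k (p, θ) = 0 ∧ beta L s k (p, θ) = 0 ∧ gamma L s k (p, θ) = 0 := by
  have hz : ∀ v p, p ∉ D.K → ∀ θ, pd v (s k).u (p, θ) = 0 := fun v p hp θ =>
    pd_zero_off (fun p hp θ => hs.u_zero_top hu hp θ) v hp θ
  have ha0 : ∀ p, p ∉ D.K → ∀ θ, alpha0 L s k (p, θ) = 0 := fun p hp θ => by
    rw [alpha0, ip, ip, px, py, hz _ p hp, hz _ p hp, inner_zero_right, inner_zero_right,
      Qsum_zero fun i h1 hi => hs.Xco_zero h1 hi hp θ]
    simp
  have hb0 : ∀ θ, beta0 L s k (p, θ) = 0 := fun θ => by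
    rw [beta0, ip, px, hz _ p hp, inner_zero_right,
      Qsum_zero fun i h1 hi => hs.Xco_zero h1 hi hp θ]
    simp
  have ha : ∀ p, p ∉ D.K → ∀ θ, alpha L s k (p, θ) = 0 := fun p hp θ => by
    simp [alpha, WKB.meanP, mean, ha0 p hp]
  refine ⟨ha p hp θ, ?_, ?_⟩
  · simp [beta, WKB.meanP, mean, hb0]
  · rw [gamma, py, pd_zero_off ha _ hp, Finset.sum_eq_zero, add_zero]
    intro i hi
    obtain ⟨h1, h2⟩ := Finset.mem_Ico.1 hi
    rw [ip, py, pd_zero_off (hs.w_zero i (by omega)) _ hp, inner_zero_left]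

end

end Vale.Agent.P205.WKB
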