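import Mathlib
import Vale.Agent.P205.Full.WKB.Orders

/-!
# P205: the formal solution is well defined

For a free component `c` (smooth periodic profiles vanishing off `K`) every coefficient is a
profile vanishing off `K`, its phase derivative has mean zero, and the three conditions hold.
-/

namespace Vale.Agent.P205.WKB

open scoped ContDiff RealInnerProductSpace
open Correction Profile intervalIntegral
open Vale.Agent.P205.Algebra

noncomputable section

variable {D : Step} (L : LoopData D)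

/-- An admissible free component. -/
def Input (D : Step) (c : ℕ → R3 → ℝ) : Prop :=
  ∀ k, IsProfile (c k) ∧ ∀ p ∉ D.K, ∀ θ, c k (p, θ) = 0

lemma input_zero : Input D fun _ _ => 0 :=
  fun _ => ⟨⟨contDiff_const, fun _ => ⟨rfl, rfl, rfl⟩⟩, fun _ _ _ => rfl⟩

/-- What the pointwise conditions give at one order. -/
structure Cond (c α β γ : R3 → ℝ) : Prop where
  c_prof : IsProfile c
  α_prof : IsProfile α
  β_prof : IsProfile β
  γ_prof : IsProfile γ
  mean_α : ∀ p, mean α p = 0
  mean_β : ∀ p, mean β p = 0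
  mean_γ : ∀ p, mean γ p = 0
  zero : ∀ p ∉ D.K, ∀ θ, c (p, θ) = 0 ∧ α (p, θ) = 0 ∧ β (p, θ) = 0 ∧ γ (p, θ) = 0

variable {L} {c α β γ : R3 → ℝ}

lemma Cond.forced_prof (h : Cond (D := D) c α β γ) : IsProfile (L.forced α β γ) := by
  have hX := smooth2_dx D.f_smooth
  have e : L.forced α β γ = fun q => β q +
      (ContinuousLinearMap.mul ℝ ℝ (-⟪dx D.f q.1, L.A1 q.1⟫) (α q) +
        ContinuousLinearMap.mul ℝ ℝ (-⟪dx D.f q.1, L.A2 q.1⟫) (γ q)) := funext fun q => by
    simp only [LoopData.forced, ContinuousLinearMap.mul_apply']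
    ring
  rw [e]
  exact isProfile_add h.β_prof (isProfile_add
    (isProfile_bilin (isProfile_comp (isProfile_lift (smooth2_inner hX L.A1_smooth)) contDiff_neg)
      h.α_prof _)
    (isProfile_bilin (isProfile_comp (isProfile_lift (smooth2_inner hX L.A2_smooth)) contDiff_neg)
      h.γ_prof _))

lemma Cond.mean_forced (h : Cond (D := D) c α β γ) (p : R2) : mean (L.forced α β γ) p = 0 := by
  have hX := smooth2_dx D.f_smooth
  have c1 : Continuous fun q : R3 => ⟪dx D.f q.1, L.A1 q.1⟫ * α q :=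
    ((smooth2_inner hX L.A1_smooth).1.continuous.comp continuous_fst).mul h.α_prof.1.continuous
  have c2 : Continuous fun q : R3 => ⟪dx D.f q.1, L.A2 q.1⟫ * γ q :=
    ((smooth2_inner hX L.A2_smooth).1.continuous.comp continuous_fst).mul h.γ_prof.1.continuous
  show mean (fun q => β q - ⟪dx D.f q.1, L.A1 q.1⟫ * α q - ⟪dx D.f q.1, L.A2 q.1⟫ * γ q) p = 0
  rw [mean_sub (show Continuous fun q : R3 => β q - ⟪dx D.f q.1, L.A1 q.1⟫ * α q from
      h.β_prof.1.continuous.sub c1) c2, mean_sub h.β_prof.1.continuous c1,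
    mean_mul_fst (fun p => ⟪dx D.f p, L.A1 p⟫), mean_mul_fst (fun p => ⟪dx D.f p, L.A2 p⟫),
    h.mean_α, h.mean_β, h.mean_γ]
  simp

lemma isProfile_free {σ : R3 → ℝ} (hσ : IsProfile σ) (hc : IsProfile c) :
    IsProfile (L.free σ c) :=
  isProfile_add hc (isProfile_sum _ fun k _ => isProfile_bilin (L.φ_prof k)
    (isProfile_meanP (isProfile_add (isProfile_bilin hσ (L.g_prof k) (ContinuousLinearMap.mul ℝ ℝ))
      (isProfile_bilin hc (L.h_prof k) (ContinuousLinearMap.mul ℝ ℝ))))
    (ContinuousLinearMap.mul ℝ ℝ))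

lemma Cond.sol_prof (h : Cond (D := D) c α β γ) : IsProfile (L.sol c α β γ) :=
  isProfile_add (isProfile_add
    (isProfile_bilin h.α_prof (isProfile_lift L.A1_smooth) (ContinuousLinearMap.lsmul ℝ ℝ))
    (isProfile_bilin h.γ_prof (isProfile_lift L.A2_smooth) (ContinuousLinearMap.lsmul ℝ ℝ)))
    (isProfile_add (isProfile_bilin h.forced_prof L.Z_prof (ContinuousLinearMap.lsmul ℝ ℝ))
      (isProfile_bilin (isProfile_free h.forced_prof h.c_prof) L.e_prof
        (ContinuousLinearMap.lsmul ℝ ℝ)))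

lemma Cond.sol_zero (h : Cond (D := D) c α β γ) {p : R2} (hp : p ∉ D.K) (θ : ℝ) :
    L.sol c α β γ (p, θ) = 0 := by
  have hf : ∀ t, L.forced α β γ (p, t) = 0 := fun t => by
    obtain ⟨-, h1, h2, h3⟩ := h.zero p hp t
    simp [LoopData.forced, h1, h2, h3]
  have hc : ∀ t, c (p, t) = 0 := fun t => (h.zero p hp t).1
  obtain ⟨h0, h1, h2, h3⟩ := h.zero p hp θ
  simp [LoopData.sol, LoopData.free, meanP, mean, hf, hc, h1, h3]

lemma Cond.mean_sol (h : Cond (D := D) c α β γ) (p : R2) : mean (L.sol c α β γ) p = 0 := by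
  by_cases hp : p ∈ D.K
  swap
  · simp [mean, h.sol_zero hp]
  have cA : Continuous fun q : R3 => α q • L.A1 q.1 :=
    h.α_prof.1.continuous.smul (L.A1_smooth.1.continuous.comp continuous_fst)
  have cG : Continuous fun q : R3 => γ q • L.A2 q.1 :=
    h.γ_prof.1.continuous.smul (L.A2_smooth.1.continuous.comp continuous_fst)
  have cS : Continuous fun q => L.forced α β γ q • L.Z q + L.free (L.forced α β γ) c q • L.e q :=
    (h.forced_prof.1.continuous.smul L.Z_prof.1.continuous).add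
      ((isProfile_free h.forced_prof h.c_prof).1.continuous.smul L.e_prof.1.continuous)
  show mean (fun q => α q • L.A1 q.1 + γ q • L.A2 q.1 +
    (L.forced α β γ q • L.Z q + L.free (L.forced α β γ) c q • L.e q)) p = 0
  rw [mean_add (show Continuous fun q : R3 => α q • L.A1 q.1 + γ q • L.A2 q.1 from cA.add cG) cS,
    mean_add cA cG, mean_smul_fst, mean_smul_fst, h.mean_α, h.mean_γ]
  simp only [zero_smul, zero_add]
  exact L.fix _ _ h.forced_prof.1.continuous h.c_prof.1.continuous p hp (h.mean_forced p)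

lemma Cond.sol_T (h : Cond (D := D) c α β γ) (p : R2) (θ : ℝ) :
    ⟪dy D.f p, L.sol c α β γ (p, θ)⟫ = α (p, θ) := by
  by_cases hp : p ∈ D.K
  swap
  · rw [h.sol_zero hp, inner_zero_right, (h.zero p hp θ).2.1]
  simp only [LoopData.sol, inner_add_right, real_inner_smul_right, L.T_A1 p hp, L.T_A2 p hp,
    L.T_Z p hp, L.T_e p hp]
  ring

lemma Cond.sol_A (h : Cond (D := D) c α β γ) (hL : L.Twist) (p : R2) (θ : ℝ) :
    ⟪F22 D.f p, L.sol c α β γ (p, θ)⟫ = γ (p, θ) := by
  by_cases hp : p ∈ D.K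
  swap
  · rw [h.sol_zero hp, inner_zero_right, (h.zero p hp θ).2.2.2]
  simp only [LoopData.sol, inner_add_right, real_inner_smul_right, hL.A_A1 p hp, hL.A_A2 p hp,
    hL.A_Z p hp, hL.A_e p hp]
  ring

lemma Cond.sol_X (h : Cond (D := D) c α β γ) (p : R2) (θ : ℝ) :
    ⟪L.X0 (p, θ), L.sol c α β γ (p, θ)⟫ = β (p, θ) := by
  by_cases hp : p ∈ D.K
  swap
  · rw [h.sol_zero hp, inner_zero_right, (h.zero p hp θ).2.2.1]
  simp only [LoopData.sol, LoopData.X0, inner_add_right, real_inner_smul_right, L.X_Z p hp,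
    L.X_e p hp, LoopData.forced]
  simp only [inner_add_left, L.w_A1 p hp, L.w_A2 p hp]
  ring

variable {c : ℕ → R3 → ℝ}

lemma Known.cond {k : ℕ} (hs : Known (D := D) (term L c) k)
    (hu : (term L c k).u = nextU L (term L c) k) (hc : Input D c) :
    Cond (D := D) (c (k + 1)) (alpha L (term L c) k) (beta L (term L c) k)
      (gamma L (term L c) k) :=
  ⟨(hc _).1, hs.alpha_prof hu, hs.beta_prof hu, hs.gamma_prof hu, hs.mean_alpha hu,
    hs.mean_beta hu, hs.mean_gamma hu, fun p hp θ =>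
      ⟨(hc _).2 p hp θ, hs.cond_zero hu hp θ⟩⟩

/-- Every order is known. -/
theorem known (hc : Input D c) (k : ℕ) : Known (D := D) (term L c) k := by
  have hz : IsProfile fun _ : R3 => (0 : V4) := ⟨contDiff_const, fun _ => ⟨rfl, rfl, rfl⟩⟩
  induction k with
  | zero =>
    refine ⟨fun i hi => absurd hi (by omega), fun i hi => ?_, fun i hi p => ?_,
      fun i _ hi => absurd hi (by omega), fun i hi => ?_, fun i hi => absurd hi (by omega)⟩
    all_goals obtain rfl : i = 0 := by omega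
    · exact hz
    · simp [term, W_zero, mean]
    · exact fun _ _ _ => rfl
  | succ k ih =>
    have hw : IsProfile (W L c (k + 1)) ∧ (∀ p, mean (W L c (k + 1)) p = 0) ∧
        ∀ p ∉ D.K, ∀ θ, W L c (k + 1) (p, θ) = 0 := by
      rcases Nat.eq_zero_or_pos k with rfl | hk
      · rw [W_one]; exact ⟨L.w_prof, L.mean_w, L.w_zero⟩
      · obtain ⟨j, rfl⟩ : ∃ j, k = j + 1 := ⟨k - 1, by omega⟩
        have hC := ih.cond (U_succ L c j) hc
        rw [W_succ L c (by omega : 1 ≤ j + 1)]
        exact ⟨hC.sol_prof, hC.mean_sol, fun p hp θ => hC.sol_zero hp θ⟩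
    have hu : IsProfile (U L c k) ∧ dPhase (U L c k) = W L c k ∧
        (1 ≤ k → ∀ p ∉ D.K, ∀ θ, U L c k (p, θ) = 0) := by
      rcases Nat.eq_zero_or_pos k with rfl | hk
      · exact ⟨isProfile_lift D.f_smooth, dPhase_fst (D.f_smooth.1.differentiable (by simp)),
          fun h => absurd h (by omega)⟩
      · obtain ⟨j, rfl⟩ : ∃ j, k = j + 1 := ⟨k - 1, by omega⟩
        exact ⟨ih.u_prof_top (U_succ L c j), ih.dphase_top (U_succ L c j),
          fun _ p hp θ => ih.u_zero_top (U_succ L c j) hp θ⟩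
    refine ⟨fun i hi => ?_, fun i hi => ?_, fun i hi => ?_, fun i h1 hi => ?_, fun i hi => ?_,
      fun i hi => ?_⟩
    · rcases (Nat.lt_succ_iff.1 hi).lt_or_eq with h | rfl
      · exact ih.u_prof i h
      · exact hu.1
    · rcases hi.lt_or_eq with h | rfl
      · exact ih.w_prof i (Nat.lt_succ_iff.1 h)
      · exact hw.1
    · rcases hi.lt_or_eq with h | rfl
      · exact ih.mean_w i (Nat.lt_succ_iff.1 h)
      · exact hw.2.1
    · rcases (Nat.lt_succ_iff.1 hi).lt_or_eq with h | rfl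
      · exact ih.u_zero i h1 h
      · exact hu.2.2 h1
    · rcases hi.lt_or_eq with h | rfl
      · exact ih.w_zero i (Nat.lt_succ_iff.1 h)
      · exact hw.2.2
    · rcases (Nat.lt_succ_iff.1 hi).lt_or_eq with h | rfl
      · exact ih.dphase i h
      · exact hu.2.1

lemma U_prof (hc : Input D c) (k : ℕ) : IsProfile (U L c k) :=
  (known hc (k + 1)).u_prof k (Nat.lt_succ_self k)

lemma W_prof (hc : Input D c) (k : ℕ) : IsProfile (W L c k) := (known hc k).w_prof k le_rfl

lemma U_support (hc : Input D c) {k : ℕ} (hk : 1 ≤ k) {p : R2} (hp : p ∉ D.K) (θ : ℝ) :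
    U L c k (p, θ) = 0 :=
  (known hc (k + 1)).u_zero k hk (Nat.lt_succ_self k) p hp θ

lemma dPhase_U (hc : Input D c) (k : ℕ) : dPhase (U L c k) = W L c k :=
  (known hc (k + 1)).dphase k (Nat.lt_succ_self k)

lemma cond (hc : Input D c) {k : ℕ} (hk : 1 ≤ k) :
    Cond (D := D) (c (k + 1)) (alpha L (term L c) k) (beta L (term L c) k)
      (gamma L (term L c) k) := by
  obtain ⟨j, rfl⟩ : ∃ j, k = j + 1 := ⟨k - 1, by omega⟩
  exact (known hc (j + 1)).cond (U_succ L c j) hc

end

end Vale.Agent.P205.WKB
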