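import Mathlib
import Vale.Agent.P205.Full.WKB.Solution

/-!
# P205: the equations of every order hold

With `X k`, `T k` the coefficients of the two first derivatives of the series, all three products
vanish at every positive order.
-/

namespace Vale.Agent.P205.WKB

open scoped ContDiff RealInnerProductSpace
open Correction Profile intervalIntegral
open Vale.Agent.P205.Algebra

noncomputable section

variable {D : Step} {L : LoopData D} {c : ℕ → R3 → ℝ}

lemma pd_ip {P Q : R3 → V4} (hP : ContDiff ℝ ∞ P) (hQ : ContDiff ℝ ∞ Q) (v : R2) (q : R3) :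
    pd v (ip P Q) q = ⟪pd v P q, Q q⟫ + ⟪P q, pd v Q q⟫ := by
  show fderiv ℝ (fun q => innerSL ℝ (P q) (Q q)) q (v, 0) = _
  rw [((innerSL ℝ).hasFDerivAt_of_bilinear (hasFDerivAt_smooth hP q)
    (hasFDerivAt_smooth hQ q)).fderiv]
  show ⟪P q, pd v Q q⟫ + ⟪pd v P q, Q q⟫ = _
  ring

/-- The coefficient of order `k` of `F_x`. -/
def Xc (L : LoopData D) (c : ℕ → R3 → ℝ) : ℕ → R3 → V4 := Xco (term L c)

/-- The coefficient of order `k` of `F_y`. -/
def Tc (L : LoopData D) (c : ℕ → R3 → ℝ) : ℕ → R3 → V4 := Tco (term L c)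

lemma Xc_zero : Xc L c 0 = L.X0 := funext fun q => by
  show W L c 1 q + px (U L c 0) q = _
  rw [W_one, U_zero, px, pd_lift (D.f_smooth.1.differentiable (by simp)), add_comm]
  rfl

lemma Tc_zero : Tc L c 0 = lift (dy D.f) := funext fun q =>
  pd_lift (D.f_smooth.1.differentiable (by simp)) _ q

lemma sum_split (P Q : ℕ → R3 → V4) {k : ℕ} (hk : 1 ≤ k) (q : R3) :
    ∑ i ∈ Finset.range (k + 1), ⟪P i q, Q (k - i) q⟫ =
      ⟪P 0 q, Q k q⟫ + ⟪P k q, Q 0 q⟫ + Qsum P Q k q := by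
  rw [Finset.range_eq_Ico, Finset.sum_eq_sum_Ico_succ_bot (by omega),
    Finset.sum_Ico_succ_top (by omega), Nat.sub_zero, Nat.sub_self]
  show _ = _ + _ + ∑ i ∈ Finset.Ico 1 k, ip (P i) (Q (k - i)) q
  simp only [ip]
  ring

lemma W_T (hc : Input D c) {k : ℕ} (hk : 1 ≤ k) (p : R2) (θ : ℝ) :
    ⟪dy D.f p, W L c (k + 1) (p, θ)⟫ = alpha L (term L c) k (p, θ) := by
  rw [W_succ L c hk]; exact (cond hc hk).sol_T p θ

lemma W_A (hL : L.Twist) (hc : Input D c) {k : ℕ} (hk : 1 ≤ k) (p : R2) (θ : ℝ) :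
    ⟪F22 D.f p, W L c (k + 1) (p, θ)⟫ = gamma L (term L c) k (p, θ) := by
  rw [W_succ L c hk]; exact (cond hc hk).sol_A hL p θ

lemma W_X (hc : Input D c) {k : ℕ} (hk : 1 ≤ k) (p : R2) (θ : ℝ) :
    ⟪L.X0 (p, θ), W L c (k + 1) (p, θ)⟫ = beta L (term L c) k (p, θ) := by
  rw [W_succ L c hk]; exact (cond hc hk).sol_X p θ

/-- The `xx` equation. -/
theorem order_xx (hc : Input D c) {k : ℕ} (hk : 1 ≤ k) (q : R3) :
    ∑ i ∈ Finset.range (k + 1), ⟪Xc L c i q, Xc L c (k - i) q⟫ =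
      (defect L (term L c) k q.1).1 := by
  rw [sum_split _ _ hk, Xc_zero, real_inner_comm (L.X0 q) (Xc L c k q)]
  simp only [Xc, Xco]
  show ⟪L.X0 q, W L c (k + 1) q + _⟫ + ⟪L.X0 q, W L c (k + 1) q + _⟫ + _ = _
  obtain ⟨p, θ⟩ := q
  obtain ⟨j, rfl⟩ : ∃ j, k = j + 1 := ⟨k - 1, by omega⟩
  rw [inner_add_right, W_X hc hk, beta,
    show WKB.meanP (beta0 L (term L c) (j + 1)) (p, θ) = _ from
      (known hc (j + 1)).mean_beta0 (U_succ L c j) p, beta0, ip]
  simp only [term]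
  ring!

/-- The `xy` equation. -/
theorem order_xy (hc : Input D c) {k : ℕ} (hk : 1 ≤ k) (q : R3) :
    ∑ i ∈ Finset.range (k + 1), ⟪Xc L c i q, Tc L c (k - i) q⟫ =
      (defect L (term L c) k q.1).2.1 := by
  rw [sum_split _ _ hk, Xc_zero, Tc_zero, real_inner_comm (lift (dy D.f) q) (Xc L c k q)]
  simp only [Xc, Xco, Tc, Tco]
  obtain ⟨p, θ⟩ := q
  show _ + ⟪dy D.f p, W L c (k + 1) (p, θ) + _⟫ + _ = _
  obtain ⟨j, rfl⟩ : ∃ j, k = j + 1 := ⟨k - 1, by omega⟩
  rw [inner_add_right, W_T hc hk, alpha,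
    show WKB.meanP (alpha0 L (term L c) (j + 1)) (p, θ) = _ from
      (known hc (j + 1)).mean_alpha0 (U_succ L c j) p, alpha0, ip, ip]
  simp only [lift, term]
  ring!

lemma py_T_W (hc : Input D c) (k : ℕ) (q : R3) :
    ⟪dy D.f q.1, py (W L c k) q⟫ =
      py (ip (lift (dy D.f)) (W L c k)) q - ⟪F22 D.f q.1, W L c k q⟫ := by
  rw [py, py, pd_ip (isProfile_lift (smooth2_dy D.f_smooth)).1 (W_prof hc k).1,
    pd_lift ((smooth2_dy D.f_smooth).1.differentiable (by simp))]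
  show _ = ⟪F22 D.f q.1, _⟫ + _ - _
  simp [lift]

/-- The phase derivative of the `yy` product vanishes. -/
lemma yy_phase (hL : L.Twist) (hc : Input D c) {k : ℕ} (hk : 1 ≤ k) (q : R3) :
    dPhase (fun q => 2 * ⟪dy D.f q.1, Tc L c k q⟫ + Qsum (Tc L c) (Tc L c) k q) q = 0 := by
  obtain ⟨j, rfl⟩ : ∃ j, k = j + 1 := ⟨k - 1, by omega⟩
  have hT : ∀ i, IsProfile (Tc L c i) := fun i => isProfile_pd (U_prof hc i) _
  have h1 : IsProfile fun q : R3 => 2 * ⟪dy D.f q.1, Tc L c (j + 1) q⟫ :=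
    isProfile_comp (isProfile_ip (isProfile_lift (smooth2_dy D.f_smooth)) (hT _))
      (contDiff_const.mul contDiff_id : ContDiff ℝ ∞ fun y : ℝ => (2 : ℝ) * y)
  have hQ : IsProfile (Qsum (Tc L c) (Tc L c) (j + 1)) :=
    Qsum_prof (fun i _ => hT i) (fun i _ => hT i)
  have hd : dPhase (Tc L c (j + 1)) = py (W L c (j + 1)) := by
    show dPhase (pd (0, 1) (U L c (j + 1))) = pd (0, 1) (W L c (j + 1))
    rw [dPhase_pd (U_prof hc _).1, dPhase_U hc]
  rw [dPhase_add h1.1 hQ.1]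
  show dPhase (fun q : R3 => ContinuousLinearMap.mul ℝ ℝ 2
    (ip (lift (dy D.f)) (Tc L c (j + 1)) q)) q + _ = 0
  rw [dPhase_clm (isProfile_ip (isProfile_lift (smooth2_dy D.f_smooth)) (hT _)).1,
    show ip (lift (dy D.f)) (Tc L c (j + 1)) =
      fun q => innerSL ℝ (lift (dy D.f) q) (Tc L c (j + 1) q) from rfl]
  dsimp only
  rw [dPhase_bilin (isProfile_lift (smooth2_dy D.f_smooth)).1 (hT _).1, hd]
  have hl : dPhase (lift (dy D.f)) = fun _ => 0 :=
    dPhase_fst ((smooth2_dy D.f_smooth).1.differentiable (by simp))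
  rcases Nat.eq_zero_or_pos j with rfl | hj
  · have hw : ip (lift (dy D.f)) (W L c 1) = fun _ => 0 := funext fun ⟨p, θ⟩ => by
      rw [W_one]
      by_cases hp : p ∈ D.K
      · exact L.T_w p hp θ
      · simp [ip, L.w_zero p hp]
    have hA : ⟪F22 D.f q.1, W L c 1 q⟫ = 0 := by
      obtain ⟨p, θ⟩ := q
      rw [W_one]
      by_cases hp : p ∈ D.K
      · exact hL.A_w p hp θ
      · simp [L.w_zero p hp]
    have hQ0 : Qsum (Tc L c) (Tc L c) (0 + 1) = fun _ => 0 := funext fun _ => by simp [Qsum]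
    rw [hQ0, show dPhase (fun _ : R3 => (0 : ℝ)) q = 0 by simp [dPhase]]
    have hp := py_T_W (L := L) hc 1 q
    rw [hw, hA] at hp
    simp [hl, lift, py, pd, dPoint] at hp ⊢
    exact hp
  · have hs := known (L := L) hc j
    obtain ⟨i, rfl⟩ : ∃ i, j = i + 1 := ⟨j - 1, by omega⟩
    have hQd := hs.dPhase_Qsum (U_succ L c i) q
    have hw : ip (lift (dy D.f)) (W L c (i + 1 + 1)) = alpha L (term L c) (i + 1) :=
      funext fun ⟨p, θ⟩ => W_T hc (by omega) p θ
    obtain ⟨p, θ⟩ := q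
    simp only [hl, lift, map_zero, _root_.zero_apply, add_zero,
      ContinuousLinearMap.mul_apply']
    have hp := py_T_W (L := L) hc (i + 1 + 1) (p, θ)
    rw [hw, W_A hL hc (by omega), gamma] at hp
    show 2 * ⟪dy D.f p, py (W L c (i + 1 + 1)) (p, θ)⟫ + _ = 0
    rw [hp]
    simp only [Tc]
    rw [hQd]
    ring

/-- A right inverse leaves no defect. -/
lemma defect_zero (hR : D.Exact) (hc : Input D c) (k : ℕ) (p : R2) :
    defect L (term L c) k p = 0 := by
  rw [defect, hR _ ((known hc k).hmean_ok L), neg_add_cancel]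

/-- The `yy` equation. -/
theorem order_yy (hL : L.Twist) (hc : Input D c) {k : ℕ} (hk : 1 ≤ k) (q : R3) :
    ∑ i ∈ Finset.range (k + 1), ⟪Tc L c i q, Tc L c (k - i) q⟫ =
      (defect L (term L c) k q.1).2.2 := by
  obtain ⟨p, θ⟩ := q
  rw [sum_split _ _ hk, Tc_zero, real_inner_comm (lift (dy D.f) (p, θ)) (Tc L c k (p, θ))]
  obtain ⟨G, hG⟩ : ∃ G : R3 → ℝ,
      G = fun q => 2 * ⟪dy D.f q.1, Tc L c k q⟫ + Qsum (Tc L c) (Tc L c) k q := ⟨_, rfl⟩
  suffices h : G (p, θ) = (defect L (term L c) k p).2.2 by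
    rw [hG] at h
    simp only [lift] at h ⊢
    linarith
  have hGs : ContDiff ℝ ∞ G := by
    rw [hG]
    exact ((contDiff_const.mul (isProfile_ip (isProfile_lift (smooth2_dy D.f_smooth))
      (isProfile_pd (U_prof hc k) _)).1).add (Qsum_prof (fun i _ => isProfile_pd (U_prof hc i) _)
      (fun i _ => isProfile_pd (U_prof hc i) _)).1)
  have hd : ∀ t, HasDerivAt (fun s => G (p, s)) 0 t := fun t => by
    have h := (hasFDerivAt_smooth hGs (p, t)).comp_hasDerivAt t
      ((hasDerivAt_const t p).prodMk (hasDerivAt_id t))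
    have hz : fderiv ℝ G (p, t) (0, 1) = 0 := by
      rw [hG]; exact yy_phase hL hc hk (p, t)
    rwa [hz] at h
  have hconst : ∀ t, G (p, t) = G (p, θ) := fun t =>
    is_const_of_deriv_eq_zero (fun x => (hd x).differentiableAt) (fun x => (hd x).deriv) t θ
  have hm : mean G p = (defect L (term L c) k p).2.2 := by
    obtain ⟨j, rfl⟩ : ∃ j, k = j + 1 := ⟨k - 1, by omega⟩
    have hs := known (L := L) hc (j + 1)
    have hu : (term L c (j + 1)).u = nextU L (term L c) (j + 1) := U_succ L c j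
    have hok := hs.hmean_ok L
    obtain ⟨V, hV⟩ : ∃ V, V = D.R fun p => -hmean L (term L c) (j + 1) p := ⟨_, rfl⟩
    have hR := (D.R_ok _ hok).1
    rw [← hV] at hR
    rw [defect, ← hV]
    simp only [lin, hmean, Prod.snd_add]
    have c1 : Continuous fun q => 2 * ip (lift (dy D.f)) (py (prim (term L c (j + 1)).w)) q +
        Qsum (Tco (term L c)) (Tco (term L c)) (j + 1) q :=
      (continuous_const.mul (isProfile_ip (isProfile_lift (smooth2_dy D.f_smooth))
        (isProfile_pd hs.prim_prof _)).1.continuous).add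
        (Qsum_prof (fun _ hi => hs.Tco_prof hi) (fun _ hi => hs.Tco_prof hi)).1.continuous
    have c2 : Continuous fun q : R3 => 2 * ⟪dy D.f q.1, dy V q.1⟫ :=
      continuous_const.mul (((smooth2_inner (smooth2_dy D.f_smooth)
        (smooth2_dy hR)).1.continuous).comp continuous_fst)
    rw [hG, mean_congr (Q := fun q =>
        (2 * ip (lift (dy D.f)) (py (prim (term L c (j + 1)).w)) q +
          Qsum (Tco (term L c)) (Tco (term L c)) (j + 1) q) + 2 * ⟪dy D.f q.1, dy V q.1⟫)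
      fun t => ?_, mean_add c1 c2, mean_const (fun p => 2 * ⟪dy D.f p, dy V p⟫)]
    · ring
    · simp only [Tc]
      show 2 * ⟪_, py (term L c (j + 1)).u (p, t)⟫ + _ = _
      rw [py, hs.pd_u hu, inner_add_right, ← hV]
      simp only [ip, py, lift, dy]
      ring
  rw [show mean G p = G (p, θ) by
    show (∫ t in (0 : ℝ)..1, G (p, t)) = _
    simp [hconst]] at hm
  exact hm

end

end Vale.Agent.P205.WKB
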