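import Mathlib
import Vale.Agent.P205.Full.WKB.Equations

/-!
# P205: uniform bounds and Lipschitz dependence of the formal solution

For two families of free components whose difference is `δ • (∂θ A + B)`, all coefficients are
bounded at the common scale and their differences are `δ • B`.
-/

namespace Vale.Agent.P205.WKB

open scoped ContDiff RealInnerProductSpace
open Correction Profile intervalIntegral
open Vale.Agent.P205.Algebra

noncomputable section

variable {D : Step} {L : LoopData D} {ι : Type} {m δ : ι → ℝ}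

lemma Fam.lift_bound {E : Type} [NormedAddCommGroup E] [NormedSpace ℝ E] {h : ι → R2 → E}
    (hh : Fam m fun i => lift (h i)) (l : ℕ) :
    ∃ C, ∀ i x, ‖iteratedFDeriv ℝ l (h i) x‖ ≤ C := by
  obtain ⟨C, hC0, hC⟩ := hh.bdd.nonneg l
  refine ⟨C * ‖ContinuousLinearMap.inl ℝ R2 ℝ‖ ^ l, fun i x => ?_⟩
  have e : h i = (fun q => lift (h i) (scl (m i) q)) ∘ ContinuousLinearMap.inl ℝ R2 ℝ :=
    funext fun y => rfl
  rw [e, (ContinuousLinearMap.inl ℝ R2 ℝ).iteratedFDeriv_comp_right (hh.smooth_scl i) x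
    (by exact_mod_cast le_top)]
  refine ((iteratedFDeriv ℝ l (fun q => lift (h i) (scl (m i) q))
    (ContinuousLinearMap.inl ℝ R2 ℝ x)).norm_compContinuousLinearMap_le _).trans ?_
  rw [Finset.prod_const, Finset.card_univ, Fintype.card_fin]
  exact mul_le_mul_of_nonneg_right (hC i _) (by positivity)

lemma Fam.rop {h : ι → R2 → Sym3} (hok : ∀ i, Ok D.K (h i))
    (hh : Fam m fun i => lift (h i)) : Fam m fun i => lift (D.R (h i)) := by
  have hR := fun i => (D.R_ok _ (hok i)).1
  refine ⟨fun i => isProfile_lift (hR i), fun n => ?_⟩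
  obtain ⟨j, C, hC⟩ := D.R_bound n
  choose B hB using hh.lift_bound
  obtain ⟨S, hS⟩ : ∃ S, S = ∑ l ∈ Finset.range (j + 1), |B l| := ⟨_, rfl⟩
  refine ⟨|C * S|, fun i q => ?_⟩
  show ‖iteratedFDeriv ℝ n (D.R (h i) ∘ ContinuousLinearMap.fst ℝ R2 ℝ) q‖ ≤ _
  rw [(ContinuousLinearMap.fst ℝ R2 ℝ).iteratedFDeriv_comp_right (hR i).1 q
    (by exact_mod_cast le_top)]
  refine ((iteratedFDeriv ℝ n (D.R (h i))
    (ContinuousLinearMap.fst ℝ R2 ℝ q)).norm_compContinuousLinearMap_le _).trans ?_
  rw [Finset.prod_const, Finset.card_univ, Fintype.card_fin]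
  refine (mul_le_mul ((hC (h i) (hok i) S (fun l hl p =>
    ((hB l i p).trans (le_abs_self _)).trans (hS ▸ Finset.single_le_sum
      (fun l _ => abs_nonneg (B l)) (Finset.mem_range.2 (by omega)))) _).trans (le_abs_self _))
    (pow_le_one₀ (norm_nonneg _) (ContinuousLinearMap.norm_fst_le ℝ R2 ℝ)) (by positivity)
    (abs_nonneg _)).trans_eq (mul_one _)

lemma Fam1.rop {h : ι → R2 → Sym3} (hok : ∀ i, Ok D.K (h i))
    (hh : Fam m fun i => lift (h i)) : Fam1 m fun i => lift (D.R (h i)) :=
  ⟨hh.rop hok, by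
    rw [show (fun i => dPhase (lift (D.R (h i)))) = fun _ _ => 0 from
      funext fun i => dPhase_fst ((D.R_ok _ (hok i)).1.1.differentiable (by simp))]
    exact Fam.zero⟩

/-- The right inverse keeps pairs. -/
lemma Pair.rop (hm : ∀ i, 1 ≤ m i) {h h' : ι → R2 → Sym3} (hok : ∀ i, Ok D.K (h i))
    (hok' : ∀ i, Ok D.K (h' i)) (hh : Pair m δ (fun i => lift (h i)) fun i => lift (h' i)) :
    Pair m δ (fun i => lift (D.R (h i))) (fun i => lift (D.R (h' i))) ∧
      Tiny m δ fun i q => lift (D.R (h' i)) q - lift (D.R (h i)) q := by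
  classical
  obtain ⟨B, hB, e⟩ := hh.dif.meanP hm
  obtain ⟨r, hr⟩ : ∃ r : ι → ℝ, r = fun i => if δ i = 0 then 0 else 1 := ⟨_, rfl⟩
  obtain ⟨b, hb⟩ : ∃ b : ι → R2 → Sym3, b = fun i x => r i • mean (B i) x := ⟨_, rfl⟩
  have eb : ∀ i x, h' i x - h i x = δ i • b i x := fun i x => by
    have e1 : ∀ t, h' i x - h i x = δ i • B i (x, t) := fun t => by
      rw [← e i (x, t)]
      show _ = mean (fun q => h' i q.1 - h i q.1) x
      exact (mean_const (fun x => h' i x - h i x) x).symm
    by_cases hd : δ i = 0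
    · simpa [hd] using e1 0
    · simp only [hb, hr, if_neg hd, one_smul]
      rw [← mean_smul, show (fun q => δ i • B i q) = fun q => WKB.meanP
        (fun q => h' i q.1 - h i q.1) q from funext fun q => (e i q).symm]
      show _ = mean (fun q => mean (fun q => h' i q.1 - h i q.1) q.1) x
      rw [mean_const, mean_const (fun x => h' i x - h i x)]
  have hfam : Fam m fun i => lift (b i) := by
    rw [hb]
    exact (hB.meanP hm).smul_bdd (c := r) (B := 1) fun i => by rw [hr]; dsimp only; split_ifs <;> simp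
  have hbok : ∀ i, Ok D.K (b i) := fun i => by
    refine ⟨?_, fun p hp => ?_⟩
    · rw [hb]; exact (smooth2_mean (hB.prof i)).const_smul (r i)
    · by_cases hd : δ i = 0
      · simp [hb, hr, hd]
      · have := eb i p
        rw [(hok i).2 p hp, (hok' i).2 p hp, sub_zero] at this
        exact (smul_eq_zero.1 this.symm).resolve_left hd
  have hT : Tiny m δ fun i q => lift (D.R (h' i)) q - lift (D.R (h i)) q := by
    refine ⟨_, hfam.rop hbok, fun i q => ?_⟩
    have h2 : h' i = fun p => h i p + δ i • b i p := funext fun p => by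
      rw [← eb, add_sub_cancel]
    simp only [lift, h2, D.R_linear _ _ _ (hok i) (hbok i)]
    abel
  exact ⟨⟨Fam1.rop hok hh.left.fam, Fam1.rop hok' hh.right.fam, hT.small⟩, hT⟩

lemma Pair.ip {P P' Q Q' : ι → R3 → V4} (hP : Pair m δ P P') (hQ : Pair m δ Q Q') :
    Pair m δ (fun i => WKB.ip (P i) (Q i)) fun i => WKB.ip (P' i) (Q' i) :=
  hP.bilin hQ (innerSL ℝ)

lemma Pair.qsum {k : ℕ} {P P' Q Q' : ι → ℕ → R3 → V4}
    (hP : ∀ j < k, Pair m δ (fun i => P i j) fun i => P' i j)
    (hQ : ∀ j < k, Pair m δ (fun i => Q i j) fun i => Q' i j) :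
    Pair m δ (fun i => Qsum (P i) (Q i) k) fun i => Qsum (P' i) (Q' i) k :=
  Pair.sum _ fun j hj => by
    obtain ⟨h1, h2⟩ := Finset.mem_Ico.1 hj
    exact (hP j h2).ip (hQ (k - j) (by omega))

/-- The pairs of all coefficients. -/
def Bounded (m δ : ι → ℝ) (L : LoopData D) (c c' : ι → ℕ → R3 → ℝ) (k : ℕ) : Prop :=
  Pair m δ (fun i => U L (c i) k) (fun i => U L (c' i) k) ∧
    Pair m δ (fun i => W L (c i) k) (fun i => W L (c' i) k) ∧
      (1 ≤ k → Tiny m δ fun i q => U L (c' i) k q - U L (c i) k q)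

variable {c c' : ι → ℕ → R3 → ℝ}

lemma Pair.const_coef (hm : ∀ i, 1 ≤ m i) {E : Type} [NormedAddCommGroup E] [NormedSpace ℝ E]
    {g : R2 → E} (hg : Smooth2 g) :
    Pair m δ (fun _ : ι => lift g) fun _ => lift g :=
  Pair.same (Fam1.of_coef hm hg)

lemma Pair.const_prof (hm : ∀ i, 1 ≤ m i) {E : Type} [NormedAddCommGroup E] [NormedSpace ℝ E]
    {P : R3 → E} (hP : IsProfile P) : Pair m δ (fun _ : ι => P) fun _ => P :=
  Pair.same (Fam1.of_fixed hm hP)

/-- All coefficients are bounded, uniformly in the index, and depend on the data with `δ`. -/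
theorem bounded (hm : ∀ i, 1 ≤ m i) (hc : ∀ i, Input D (c i)) (hc' : ∀ i, Input D (c' i))
    (hp : ∀ k, Pair m δ (fun i => c i k) fun i => c' i k) (k : ℕ) :
    Bounded m δ L c c' k := by
  induction k using Nat.strong_induction_on with
  | _ k ih =>
  rcases k with _ | n
  · exact ⟨Pair.same (Fam1.of_coef hm D.f_smooth), Pair.same Fam1.zero, fun h => absurd h (by omega)⟩
  have hX0 : Pair m δ (fun _ : ι => L.X0) fun _ => L.X0 := Pair.const_prof hm L.isProfile_X0
  have hT0 : Pair m δ (fun _ : ι => lift (dy D.f)) fun _ => lift (dy D.f) :=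
    Pair.const_coef hm (smooth2_dy D.f_smooth)
  have hX : ∀ j < n, Pair m δ (fun i => Xco (term L (c i)) j) fun i => Xco (term L (c' i)) j :=
    fun j hj => (ih (j + 1) (by omega)).2.1.add ((ih j (by omega)).1.pd _)
  have hT : ∀ j ≤ n, Pair m δ (fun i => Tco (term L (c i)) j) fun i => Tco (term L (c' i)) j :=
    fun j hj => (ih j (by omega)).1.pd _
  have hW : Pair m δ (fun i => W L (c i) (n + 1)) fun i => W L (c' i) (n + 1) := by
    rcases Nat.eq_zero_or_pos n with rfl | hn
    · simp only [zero_add, W_one]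
      exact Pair.const_prof hm L.w_prof
    have hU := (ih n (by omega)).1
    have hα : Pair m δ (fun i => alpha L (term L (c i)) n) fun i => alpha L (term L (c' i)) n :=
      let h := (((hT0.ip (hU.pd _)).add (hX0.ip (hU.pd _))).add
        (Pair.qsum hX fun j hj => hT j hj.le)).neg
      h.sub (Pair.meanP hm h)
    have hβ : Pair m δ (fun i => beta L (term L (c i)) n) fun i => beta L (term L (c' i)) n :=
      let h := ((hX0.ip (hU.pd _)).add ((Pair.qsum hX hX).clm
        (ContinuousLinearMap.mul ℝ ℝ (1 / 2)))).neg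
      h.sub (Pair.meanP hm h)
    have hγ : Pair m δ (fun i => gamma L (term L (c i)) n) fun i => gamma L (term L (c' i)) n :=
      (hα.pd _).add (Pair.sum _ fun j hj => by
        obtain ⟨h1, h2⟩ := Finset.mem_Ico.1 hj
        exact ((ih j (by omega)).2.1.pd _).ip (hT (n + 1 - j) (by omega)))
    have hX' := smooth2_dx D.f_smooth
    have hσ : Pair m δ
        (fun i => L.forced (alpha L (term L (c i)) n) (beta L (term L (c i)) n)
          (gamma L (term L (c i)) n))
        (fun i => L.forced (alpha L (term L (c' i)) n) (beta L (term L (c' i)) n)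
          (gamma L (term L (c' i)) n)) :=
      (hβ.sub ((Pair.const_coef hm (smooth2_inner hX' L.A1_smooth)).mul hα)).sub
        ((Pair.const_coef hm (smooth2_inner hX' L.A2_smooth)).mul hγ)
    have hF : Pair m δ
        (fun i => L.free (L.forced (alpha L (term L (c i)) n) (beta L (term L (c i)) n)
          (gamma L (term L (c i)) n)) (c i (n + 1)))
        (fun i => L.free (L.forced (alpha L (term L (c' i)) n) (beta L (term L (c' i)) n)
          (gamma L (term L (c' i)) n)) (c' i (n + 1))) :=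
      (hp _).add (Pair.sum _ fun j _ => (Pair.const_prof hm (L.φ_prof j)).mul
        (Pair.meanP hm ((hσ.mul (Pair.const_prof hm (L.g_prof j))).add
          ((hp _).mul (Pair.const_prof hm (L.h_prof j))))))
    simp only [W_succ L _ hn]
    exact ((hα.smul (Pair.const_coef hm L.A1_smooth)).add
      (hγ.smul (Pair.const_coef hm L.A2_smooth))).add
      ((hσ.smul (Pair.const_prof hm L.Z_prof)).add (hF.smul (Pair.const_prof hm L.e_prof)))
  have hP0 : ∀ i x, mean (W L (c i) (n + 1)) x = 0 :=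
    fun i x => (known (hc i) (n + 1)).mean_w (n + 1) le_rfl x
  have hP0' : ∀ i x, mean (W L (c' i) (n + 1)) x = 0 :=
    fun i x => (known (hc' i) (n + 1)).mean_w (n + 1) le_rfl x
  have hPr := hW.prim hm hP0 hP0'
  have hX1 : ∀ j < n + 1, Pair m δ (fun i => Xco (term L (c i)) j)
      fun i => Xco (term L (c' i)) j := fun j hj => by
    rcases (Nat.lt_succ_iff.1 hj).lt_or_eq with h | rfl
    · exact hX j h
    · exact hW.add ((ih j (by omega)).1.pd _)
  have hT1 : ∀ j < n + 1, Pair m δ (fun i => Tco (term L (c i)) j)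
      fun i => Tco (term L (c' i)) j := fun j hj => hT j (Nat.lt_succ_iff.1 hj)
  have two : ∀ {P P' : ι → R3 → ℝ}, Pair m δ P P' →
      Pair m δ (fun i q => 2 * P i q) fun i q => 2 * P' i q :=
    fun h => h.clm (ContinuousLinearMap.mul ℝ ℝ 2)
  have h1 := Pair.meanP hm ((two (hX0.ip (hPr.pd (1, 0)))).add (Pair.qsum hX1 hX1))
  have h2 := Pair.meanP hm (((hT0.ip (hPr.pd (1, 0))).add (hX0.ip (hPr.pd (0, 1)))).add
    (Pair.qsum hX1 hT1))
  have h3 := Pair.meanP hm ((two (hT0.ip (hPr.pd (0, 1)))).add (Pair.qsum hT1 hT1))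
  have hh : Pair m δ (fun i => lift fun p => -hmean L (term L (c i)) (n + 1) p)
      fun i => lift fun p => -hmean L (term L (c' i)) (n + 1) p := by
    have h := ((h1.clm (ContinuousLinearMap.inl ℝ ℝ (ℝ × ℝ))).add
      (((h2.clm (ContinuousLinearMap.inl ℝ ℝ ℝ)).add
        (h3.clm (ContinuousLinearMap.inr ℝ ℝ ℝ))).clm
          (ContinuousLinearMap.inr ℝ ℝ (ℝ × ℝ)))).neg
    have e : ∀ c0 : ℕ → R3 → ℝ, (lift fun p => -hmean L (term L c0) (n + 1) p) = fun q : R3 =>
        -((hmean L (term L c0) (n + 1) q.1).1, (hmean L (term L c0) (n + 1) q.1).2.1,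
          (hmean L (term L c0) (n + 1) q.1).2.2) := fun c0 => rfl
    convert h using 2 with i i <;> funext q <;>
      simp [lift, hmean, WKB.meanP, px, py, term]
  obtain ⟨hR, hRt⟩ := Pair.rop hm (fun i => (known (hc i) (n + 1)).hmean_ok L)
    (fun i => (known (hc' i) (n + 1)).hmean_ok L) hh
  have hU : Pair m δ (fun i => U L (c i) (n + 1)) fun i => U L (c' i) (n + 1) := by
    simp only [U_succ]
    exact hPr.add hR
  refine ⟨hU, hW, fun _ => ((hW.prim_dif hm hP0 hP0').add hRt).congr fun i q => ?_⟩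
  simp only [U_succ, nextU, lift, term]
  abel

end

end Vale.Agent.P205.WKB
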