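import Mathlib
import Vale.Agent.P205.Full.WKB.Bounds

/-!
# P205: the truncated series and its metric error

`approx L c N lam` is the series through order `N + 1`.  Its `xx` and `xy` errors are the slow
defects of the mean corrector plus terms of order above `N`; so is the `yy` error of a twist, and
otherwise it is of positive order.  For a right inverse the defects vanish.
-/

namespace Vale.Agent.P205.WKB

open scoped ContDiff RealInnerProductSpace
open Correction Profile intervalIntegral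
open Vale.Agent.P205.Algebra

noncomputable section

variable {D : Step} (L : LoopData D)

/-- The truncated series. -/
def approx (c : ℕ → R3 → ℝ) (N : ℕ) (lam : ℝ) (p : R2) : V4 :=
  ∑ k ∈ Finset.range (N + 2), (lam⁻¹) ^ k • U L c k (p, lam * p.1)

/-- The coefficients of the `x` derivative of the truncated series. -/
def Xtr (c : ℕ → R3 → ℝ) (N k : ℕ) : R3 → V4 :=
  if k ≤ N then Xc L c k else px (U L c k)

/-- The index pairs of order above `K` among the first `N + 2`. -/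
def high (N K : ℕ) : Finset (ℕ × ℕ) :=
  ((Finset.range (N + 2)) ×ˢ (Finset.range (N + 2))).filter fun x => K < x.1 + x.2

lemma expand {P Q : ℕ → V4} {N K : ℕ} {d : ℕ → ℝ} (r : ℝ) (hK : K ≤ N)
    (h : ∀ k, 1 ≤ k → k ≤ K → ∑ i ∈ Finset.range (k + 1), ⟪P i, Q (k - i)⟫ = d k) :
    ⟪∑ i ∈ Finset.range (N + 2), r ^ i • P i, ∑ j ∈ Finset.range (N + 2), r ^ j • Q j⟫ =
      ⟪P 0, Q 0⟫ + ∑ k ∈ Finset.range K, r ^ (k + 1) * d (k + 1)
        + ∑ x ∈ high N K, r ^ (x.1 + x.2) * ⟪P x.1, Q x.2⟫ := by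
  classical
  have h0 : ⟪∑ i ∈ Finset.range (N + 2), r ^ i • P i, ∑ j ∈ Finset.range (N + 2), r ^ j • Q j⟫ =
      ∑ x ∈ Finset.range (N + 2) ×ˢ Finset.range (N + 2),
        r ^ (x.1 + x.2) * ⟪P x.1, Q x.2⟫ := by
    rw [sum_inner, Finset.sum_product]
    refine Finset.sum_congr rfl fun i _ => ?_
    rw [inner_sum]
    refine Finset.sum_congr rfl fun j _ => ?_
    rw [real_inner_smul_left, real_inner_smul_right, pow_add]
    ring
  rw [h0, ← Finset.sum_filter_add_sum_filter_not _ (fun x : ℕ × ℕ => K < x.1 + x.2), add_comm]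
  congr 1
  rw [← Finset.sum_fiberwise_of_maps_to (g := fun x : ℕ × ℕ => x.1 + x.2)
    (t := Finset.range (K + 1)) (fun x hx => by
      simp only [Finset.mem_filter, Finset.mem_range] at hx ⊢; omega),
    Finset.sum_range_succ']
  have fib : ∀ k ≤ K, ((Finset.range (N + 2) ×ˢ Finset.range (N + 2)).filter
      fun x : ℕ × ℕ => ¬K < x.1 + x.2).filter (fun x => x.1 + x.2 = k) =
      (Finset.range (k + 1)).image fun i => (i, k - i) := fun k hk => by
    ext ⟨i, j⟩
    simp only [Finset.mem_filter, Finset.mem_product, Finset.mem_range, Finset.mem_image,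
      Prod.mk.injEq]
    constructor
    · rintro ⟨-, he⟩; exact ⟨i, by omega, rfl, by omega⟩
    · rintro ⟨i', hi, rfl, rfl⟩; omega
  have inj : ∀ k, Set.InjOn (fun i => (i, k - i)) ↑(Finset.range (k + 1)) :=
    fun k a _ b _ hab => congrArg Prod.fst hab
  rw [Finset.sum_congr rfl (g := fun k => r ^ (k + 1) * d (k + 1)) fun k hk => ?_,
    fib 0 (Nat.zero_le _), Finset.sum_image (inj 0), add_comm]
  · simp
  · have hk' : k + 1 ≤ K := Finset.mem_range.1 hk
    rw [fib (k + 1) hk', Finset.sum_image (inj (k + 1)),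
      Finset.sum_congr rfl (g := fun i => r ^ (k + 1) * ⟪P i, Q (k + 1 - i)⟫) fun i hi => by
        have hi' := Finset.mem_range.1 hi
        rw [show i + (k + 1 - i) = k + 1 by omega],
      ← Finset.mul_sum, h (k + 1) (by omega) hk']

variable {L} {c : ℕ → R3 → ℝ}

lemma fderiv_phase {P : R3 → V4} (hP : ContDiff ℝ ∞ P) (lam : ℝ) (p e : R2) :
    fderiv ℝ (fun p : R2 => P (p, lam * p.1)) p e =
      pd e P (p, lam * p.1) + (lam * e.1) • dPhase P (p, lam * p.1) := by
  have h := fderiv_osc hP (v := fun p : R2 => p.1) contDiff_fst lam p e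
  rw [show fderiv ℝ (fun p : R2 => p.1) p e = e.1 by rw [fderiv_fst]; rfl] at h
  exact h

lemma fderiv_approx (hc : Input D c) (N : ℕ) (lam : ℝ) (p e : R2) :
    fderiv ℝ (approx L c N lam) p e = ∑ k ∈ Finset.range (N + 2), (lam⁻¹) ^ k •
      (pd e (U L c k) (p, lam * p.1) + (lam * e.1) • W L c k (p, lam * p.1)) := by
  have hd : ∀ k, DifferentiableAt ℝ (fun p : R2 => U L c k (p, lam * p.1)) p := fun k =>
    (((U_prof hc k).1.comp (contDiff_id.prodMk (contDiff_const.mul contDiff_fst))).differentiable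
      (by simp)).differentiableAt
  rw [show approx L c N lam = fun p : R2 =>
      ∑ k ∈ Finset.range (N + 2), (lam⁻¹) ^ k • U L c k (p, lam * p.1) from rfl,
    fderiv_fun_sum fun k _ => (hd k).fun_const_smul _, _root_.sum_apply]
  refine Finset.sum_congr rfl fun k _ => ?_
  rw [fderiv_fun_const_smul (hd k), _root_.smul_apply, fderiv_phase (U_prof hc k).1, dPhase_U hc]

lemma dx_approx (hc : Input D c) (N : ℕ) {lam : ℝ} (hlam : lam ≠ 0) (p : R2) :
    dx (approx L c N lam) p =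
      ∑ k ∈ Finset.range (N + 2), (lam⁻¹) ^ k • Xtr L c N k (p, lam * p.1) := by
  show fderiv ℝ _ p (1, 0) = _
  rw [fderiv_approx hc]
  simp only [smul_add, Finset.sum_add_distrib, smul_smul]
  rw [Finset.sum_range_succ' (fun k => ((lam⁻¹) ^ k * (lam * 1)) • W L c k (p, lam * p.1)),
    W_zero, smul_zero, add_zero, Finset.sum_range_succ (fun k => (lam⁻¹) ^ k •
      Xtr L c N k (p, lam * p.1)), Finset.sum_range_succ (fun k => (lam⁻¹) ^ k •
      pd (1, 0) (U L c k) (p, lam * p.1))]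
  have e : ∀ k ∈ Finset.range (N + 1), (lam⁻¹) ^ k • Xtr L c N k (p, lam * p.1) =
      (lam⁻¹) ^ k • pd (1, 0) (U L c k) (p, lam * p.1) +
        ((lam⁻¹) ^ (k + 1) * (lam * 1)) • W L c (k + 1) (p, lam * p.1) := fun k hk => by
    rw [Xtr, if_pos (Nat.lt_succ_iff.1 (Finset.mem_range.1 hk)), pow_succ, mul_one, mul_assoc,
      inv_mul_cancel₀ hlam, mul_one, ← smul_add, add_comm]
    rfl
  rw [Finset.sum_congr rfl e, Finset.sum_add_distrib, Xtr, if_neg (by omega)]
  show _ + _ + _ = _ + (lam⁻¹) ^ (N + 1) • pd (1, 0) (U L c (N + 1)) _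
  abel

lemma dy_approx (hc : Input D c) (N : ℕ) (lam : ℝ) (p : R2) :
    dy (approx L c N lam) p =
      ∑ k ∈ Finset.range (N + 2), (lam⁻¹) ^ k • Tc L c k (p, lam * p.1) := by
  show fderiv ℝ _ p (0, 1) = _
  rw [fderiv_approx hc]
  simp only [mul_zero, zero_smul, add_zero]
  rfl

lemma Xtr_zero (N : ℕ) : Xtr L c N 0 = L.X0 := by rw [Xtr, if_pos (Nat.zero_le _), Xc_zero]

/-- The `xx` error. -/
theorem err_xx (hc : Input D c) (N : ℕ) {lam : ℝ} (hlam : lam ≠ 0) (p : R2) :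
    ⟪dx (approx L c N lam) p, dx (approx L c N lam) p⟫ - ⟪dx D.f p, dx D.f p⟫ - D.a p ^ 2 =
      ∑ k ∈ Finset.range N, (lam⁻¹) ^ (k + 1) * (defect L (term L c) (k + 1) p).1 +
      ∑ x ∈ high N N, (lam⁻¹) ^ (x.1 + x.2) *
        ip (Xtr L c N x.1) (Xtr L c N x.2) (p, lam * p.1) := by
  rw [dx_approx hc N hlam, expand _ le_rfl fun k h1 hk => by
    refine Eq.trans (Finset.sum_congr rfl fun i hi => ?_) (order_xx (L := L) hc h1 (p, lam * p.1))
    have hi' := Finset.mem_range.1 hi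
    rw [Xtr, Xtr, if_pos (by omega), if_pos (by omega)]]
  have h0 : ⟪L.X0 (p, lam * p.1), L.X0 (p, lam * p.1)⟫ =
      ⟪dx D.f p, dx D.f p⟫ + D.a p ^ 2 := by
    by_cases hp : p ∈ D.K
    · exact L.circle p hp _
    · simp [LoopData.X0, L.w_zero p hp, D.a_zero p hp]
  rw [Xtr_zero, h0]
  simp only [ip]
  ring

/-- The `xy` error. -/
theorem err_xy (hc : Input D c) (N : ℕ) {lam : ℝ} (hlam : lam ≠ 0) (p : R2) :
    ⟪dx (approx L c N lam) p, dy (approx L c N lam) p⟫ - ⟪dx D.f p, dy D.f p⟫ =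
      ∑ k ∈ Finset.range N, (lam⁻¹) ^ (k + 1) * (defect L (term L c) (k + 1) p).2.1 +
      ∑ x ∈ high N N, (lam⁻¹) ^ (x.1 + x.2) *
        ip (Xtr L c N x.1) (Tc L c x.2) (p, lam * p.1) := by
  rw [dx_approx hc N hlam, dy_approx hc N, expand _ le_rfl fun k h1 hk => by
    refine Eq.trans (Finset.sum_congr rfl fun i hi => ?_) (order_xy (L := L) hc h1 (p, lam * p.1))
    have hi' := Finset.mem_range.1 hi
    rw [Xtr, if_pos (by omega)]]
  have h0 : ⟪L.X0 (p, lam * p.1), dy D.f p⟫ = ⟪dx D.f p, dy D.f p⟫ := by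
    rw [LoopData.X0, inner_add_left, real_inner_comm (dy D.f p) (L.w (p, lam * p.1))]
    by_cases hp : p ∈ D.K
    · rw [L.T_w p hp, add_zero]
    · simp [L.w_zero p hp]
  rw [Xtr_zero, Tc_zero, lift, h0]
  simp only [ip]
  ring

/-- The `yy` error is of positive order. -/
theorem err_yy_low (hc : Input D c) (N : ℕ) (lam : ℝ) (p : R2) :
    ⟪dy (approx L c N lam) p, dy (approx L c N lam) p⟫ - ⟪dy D.f p, dy D.f p⟫ =
      ∑ x ∈ high N 0, (lam⁻¹) ^ (x.1 + x.2) *
        ip (Tc L c x.1) (Tc L c x.2) (p, lam * p.1) := by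
  rw [dy_approx hc N, expand (d := fun _ => 0) _ (Nat.zero_le _)
    fun k h1 hk => absurd hk (by omega), Tc_zero, lift]
  simp only [ip, Finset.range_zero, Finset.sum_empty]
  ring

/-- The `yy` error of a twist. -/
theorem err_yy (hL : L.Twist) (hc : Input D c) (N : ℕ) (lam : ℝ) (p : R2) :
    ⟪dy (approx L c N lam) p, dy (approx L c N lam) p⟫ - ⟪dy D.f p, dy D.f p⟫ =
      ∑ k ∈ Finset.range N, (lam⁻¹) ^ (k + 1) * (defect L (term L c) (k + 1) p).2.2 +
      ∑ x ∈ high N N, (lam⁻¹) ^ (x.1 + x.2) *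
        ip (Tc L c x.1) (Tc L c x.2) (p, lam * p.1) := by
  rw [dy_approx hc N, expand (P := fun i => Tc L c i (p, lam * p.1))
    (Q := fun i => Tc L c i (p, lam * p.1)) _ le_rfl fun k h1 _ =>
      order_yy hL hc h1 (p, lam * p.1)]
  simp only [Tc_zero, lift]
  simp only [ip]
  ring

/-- The metric error of a twist. -/
theorem err_met (hL : L.Twist) (hc : Input D c) (N : ℕ) {lam : ℝ} (hlam : lam ≠ 0) (p : R2) :
    met (approx L c N lam) p - met D.f p - (D.a p ^ 2, 0, 0) =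
      ∑ k ∈ Finset.range N, (lam⁻¹) ^ (k + 1) • defect L (term L c) (k + 1) p +
      ∑ x ∈ high N N, (lam⁻¹) ^ (x.1 + x.2) •
        (ip (Xtr L c N x.1) (Xtr L c N x.2) (p, lam * p.1),
          ip (Xtr L c N x.1) (Tc L c x.2) (p, lam * p.1),
          ip (Tc L c x.1) (Tc L c x.2) (p, lam * p.1)) := by
  simp only [met, Prod.mk_sub_mk, sub_zero, err_xx hc N hlam, err_xy hc N hlam, err_yy hL hc]
  ext <;> simp [Prod.fst_sum, Prod.snd_sum]

/-- The series starts at `f`. -/
lemma approx_sub (c : ℕ → R3 → ℝ) (N : ℕ) (lam : ℝ) (p : R2) :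
    approx L c N lam p - D.f p =
      ∑ k ∈ Finset.range (N + 1), (lam⁻¹) ^ (k + 1) • U L c (k + 1) (p, lam * p.1) := by
  rw [approx, Finset.sum_range_succ', U_zero]
  simp [lift]

/-- The series equals `f` off `K`. -/
lemma approx_off (hc : Input D c) (N : ℕ) (lam : ℝ) {p : R2} (hp : p ∉ D.K) :
    approx L c N lam p = D.f p := by
  rw [← sub_eq_zero, approx_sub]
  exact Finset.sum_eq_zero fun k _ => by rw [U_support hc (by omega) hp, smul_zero]

/-- The series is smooth. -/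
lemma contDiff_approx (hc : Input D c) (N : ℕ) (lam : ℝ) : ContDiff ℝ ∞ (approx L c N lam) :=
  ContDiff.sum fun k _ =>
    (((U_prof hc k).1.comp (contDiff_id.prodMk (contDiff_const.mul contDiff_fst))).const_smul _ :
      ContDiff ℝ ∞ fun p : R2 => (lam⁻¹) ^ k • U L c k (p, lam * p.1))

/-- At an integral frequency the series is periodic. -/
lemma smooth2_approx (hc : Input D c) (N : ℕ) (n : ℕ) : Smooth2 (approx L c N n) := by
  have h : ∀ k (p : R2) (v : R2) (j : ℕ), (∀ z : R3, U L c k (z + (v, 0)) = U L c k z) →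
      U L c k (p + v, (n : ℝ) * p.1 + j) = U L c k (p, (n : ℝ) * p.1) := fun k p v j hv => by
    have hper := phase_periodic (U_prof (L := L) hc k) (p + v)
    have e := hper.nat_mul j ((n : ℝ) * p.1)
    simp only [mul_one] at e
    rw [e, ← hv (p, (n : ℝ) * p.1)]
    exact congrArg _ (Prod.ext rfl (add_zero _).symm)
  refine ⟨contDiff_approx hc N _, fun p => ?_, fun p => ?_⟩
  all_goals refine Finset.sum_congr rfl fun k _ => ?_
  · rw [show ((n : ℝ) * (p + ((1 : ℝ), (0 : ℝ))).1) = (n : ℝ) * p.1 + n by simp [mul_add],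
      h k p (1, 0) n fun z => ((U_prof hc k).2 z).1]
  · rw [show ((n : ℝ) * (p + ((0 : ℝ), (1 : ℝ))).1) = (n : ℝ) * p.1 + ((0 : ℕ) : ℝ) by simp,
      h k p (0, 1) 0 fun z => ((U_prof hc k).2 z).2.1]

section Bounds

variable {ι : Type} {m δ : ι → ℝ} {c c' : ι → ℕ → R3 → ℝ}
variable {E : Type} [NormedAddCommGroup E] [NormedSpace ℝ E]

/-- Bound for a sum of terms of order at least `K` along the phase. -/
theorem sum_bound (hm : ∀ i, 1 ≤ m i) {κ : Type} (s : Finset κ) {d : κ → ℕ} {K : ℕ}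
    (hd : ∀ x ∈ s, K ≤ d x) {G : κ → ι → R3 → E} (hG : ∀ x ∈ s, Fam m (G x)) (n : ℕ) :
    ∃ C, 0 ≤ C ∧ ∀ i (lam : ℝ), 1 ≤ lam → ∀ p,
      ‖iteratedFDeriv ℝ n (fun p : R2 => ∑ x ∈ s, (lam⁻¹) ^ d x • G x i (p, lam * p.1)) p‖
        ≤ C * (m i * lam) ^ n * (lam⁻¹) ^ K := by
  classical
  choose! C hC0 hC using fun x hx => (hG x hx).osc_bound hm n
  refine ⟨∑ x ∈ s, C x, Finset.sum_nonneg hC0, fun i lam hlam p => ?_⟩
  have hs : ∀ x ∈ s, ContDiff ℝ n fun p : R2 => G x i (p, lam * p.1) := fun x hx =>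
    (((hG x hx).smooth i).comp (contDiff_id.prodMk (contDiff_const.mul contDiff_fst))).of_le
      (by exact_mod_cast le_top)
  rw [iteratedFDeriv_fun_sum_apply fun x hx => ((hs x hx).const_smul _).contDiffAt]
  refine (norm_sum_le _ _).trans ?_
  rw [Finset.sum_mul, Finset.sum_mul]
  refine Finset.sum_le_sum fun x hx => ?_
  rw [iteratedFDeriv_const_smul_apply' (hs x hx).contDiffAt, norm_smul, Real.norm_eq_abs,
    abs_of_nonneg (pow_nonneg (inv_nonneg.2 (by linarith)) _), mul_comm]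
  refine mul_le_mul (hC x hx i lam hlam p) (pow_le_pow_of_le_one (inv_nonneg.2 (by linarith))
    (inv_le_one_of_one_le₀ hlam) (hd x hx)) (by positivity) ?_
  exact mul_nonneg (hC0 x hx) (pow_nonneg (mul_nonneg (by linarith [hm i]) (by linarith)) _)

variable (hm : ∀ i, 1 ≤ m i) (hc : ∀ i, Input D (c i)) (hc' : ∀ i, Input D (c' i))
  (hp : ∀ k, Pair m δ (fun i => c i k) fun i => c' i k)
include hm hc hc' hp

lemma Xtr_pair (N k : ℕ) :
    Pair m δ (fun i => Xtr L (c i) N k) fun i => Xtr L (c' i) N k := by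
  by_cases h : k ≤ N
  · simp only [Xtr, if_pos h]
    exact (bounded hm hc hc' hp (k + 1)).2.1.add ((bounded hm hc hc' hp k).1.pd _)
  · simp only [Xtr, if_neg h]
    exact (bounded hm hc hc' hp k).1.pd _

lemma Tc_pair (k : ℕ) : Pair m δ (fun i => Tc L (c i) k) fun i => Tc L (c' i) k :=
  (bounded hm hc hc' hp k).1.pd _

/-- The metric error of a twist with a right inverse is `O (lam ^ (-(N + 1)))`, with one factor
`m * lam` for each derivative. -/
theorem met_bound (hL : L.Twist) (hR : D.Exact) (N n : ℕ) :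
    ∃ C, 0 ≤ C ∧ ∀ i (lam : ℝ), 1 ≤ lam → ∀ p,
      ‖iteratedFDeriv ℝ n (fun p => met (approx L (c i) N lam) p - met D.f p - (D.a p ^ 2, 0, 0)) p‖
        ≤ C * (m i * lam) ^ n * (lam⁻¹) ^ (N + 1) := by
  obtain ⟨C, hC0, hC⟩ := sum_bound hm (high N N) (d := fun x => x.1 + x.2) (K := N + 1)
    (fun x hx => (Finset.mem_filter.1 hx).2)
    (G := fun x i q => (ip (Xtr L (c i) N x.1) (Xtr L (c i) N x.2) q,
      ip (Xtr L (c i) N x.1) (Tc L (c i) x.2) q, ip (Tc L (c i) x.1) (Tc L (c i) x.2) q))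
    (fun x _ => by
      have hX := fun k => (Xtr_pair (L := L) hm hc hc' hp N k).left.fam
      have hT := fun k => (Tc_pair (L := L) hm hc hc' hp k).left.fam
      have h := (((hX x.1).bilin (hX x.2) (innerSL ℝ)).clm
        (ContinuousLinearMap.inl ℝ ℝ (ℝ × ℝ))).add
        (((((hX x.1).bilin (hT x.2) (innerSL ℝ)).clm (ContinuousLinearMap.inl ℝ ℝ ℝ)).add
          (((hT x.1).bilin (hT x.2) (innerSL ℝ)).clm (ContinuousLinearMap.inr ℝ ℝ ℝ))).clm
            (ContinuousLinearMap.inr ℝ ℝ (ℝ × ℝ)))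
      convert h using 1
      funext i q
      simp [ip]
      exact ⟨rfl, rfl, rfl⟩) n
  refine ⟨C, hC0, fun i lam hlam p => ?_⟩
  refine le_trans (le_of_eq (congrArg (‖iteratedFDeriv ℝ n · p‖) (funext fun p => ?_)))
    (hC i lam hlam p)
  rw [err_met hL (hc i) N (by linarith : lam ≠ 0)]
  simp [defect_zero hR (hc i)]

/-- The `xx` and `xy` errors without the twist conditions, less the defects. -/
theorem xx_xy_bound (N n : ℕ) :
    ∃ C, 0 ≤ C ∧ ∀ i (lam : ℝ), 1 ≤ lam → ∀ p,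
      ‖iteratedFDeriv ℝ n (fun p =>
        ((⟪dx (approx L (c i) N lam) p, dx (approx L (c i) N lam) p⟫ - ⟪dx D.f p, dx D.f p⟫
            - D.a p ^ 2
            - ∑ k ∈ Finset.range N, (lam⁻¹) ^ (k + 1) * (defect L (term L (c i)) (k + 1) p).1,
          ⟪dx (approx L (c i) N lam) p, dy (approx L (c i) N lam) p⟫ - ⟪dx D.f p, dy D.f p⟫
            - ∑ k ∈ Finset.range N, (lam⁻¹) ^ (k + 1) * (defect L (term L (c i)) (k + 1) p).2.1)
            : ℝ × ℝ)) p‖
        ≤ C * (m i * lam) ^ n * (lam⁻¹) ^ (N + 1) := by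
  obtain ⟨C, hC0, hC⟩ := sum_bound hm (high N N) (d := fun x => x.1 + x.2) (K := N + 1)
    (fun x hx => (Finset.mem_filter.1 hx).2)
    (G := fun x i q => (ip (Xtr L (c i) N x.1) (Xtr L (c i) N x.2) q,
      ip (Xtr L (c i) N x.1) (Tc L (c i) x.2) q))
    (fun x _ => by
      have hX := fun k => (Xtr_pair (L := L) hm hc hc' hp N k).left.fam
      have hT := fun k => (Tc_pair (L := L) hm hc hc' hp k).left.fam
      have h := (((hX x.1).bilin (hX x.2) (innerSL ℝ)).clm (ContinuousLinearMap.inl ℝ ℝ ℝ)).add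
        (((hX x.1).bilin (hT x.2) (innerSL ℝ)).clm (ContinuousLinearMap.inr ℝ ℝ ℝ))
      convert h using 1
      funext i q
      simp [ip]
      exact ⟨rfl, rfl⟩) n
  refine ⟨C, hC0, fun i lam hlam p => ?_⟩
  have hl : lam ≠ 0 := by linarith
  refine le_trans (le_of_eq (congrArg (‖iteratedFDeriv ℝ n · p‖) (funext fun p => ?_)))
    (hC i lam hlam p)
  simp only [err_xx (hc i) N hl, err_xy (hc i) N hl, add_sub_cancel_left]
  ext <;> simp [Prod.fst_sum, Prod.snd_sum]

/-- The `yy` error is `O (1 / lam)` in any case. -/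
theorem yy_bound (N n : ℕ) :
    ∃ C, 0 ≤ C ∧ ∀ i (lam : ℝ), 1 ≤ lam → ∀ p,
      ‖iteratedFDeriv ℝ n (fun p => ⟪dy (approx L (c i) N lam) p, dy (approx L (c i) N lam) p⟫
        - ⟪dy D.f p, dy D.f p⟫) p‖ ≤ C * (m i * lam) ^ n * lam⁻¹ := by
  obtain ⟨C, hC0, hC⟩ := sum_bound hm (high N 0) (d := fun x => x.1 + x.2) (K := 1)
    (fun x hx => (Finset.mem_filter.1 hx).2)
    (G := fun x i q => ip (Tc L (c i) x.1) (Tc L (c i) x.2) q)
    (fun x _ => (Tc_pair (L := L) hm hc hc' hp x.1).left.fam.bilin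
      (Tc_pair (L := L) hm hc hc' hp x.2).left.fam (innerSL ℝ)) n
  refine ⟨C, hC0, fun i lam hlam p => ?_⟩
  rw [show (fun p => ⟪dy (approx L (c i) N lam) p, dy (approx L (c i) N lam) p⟫
      - ⟪dy D.f p, dy D.f p⟫) = _ from funext (err_yy_low (hc i) N lam), ← pow_one lam⁻¹]
  simpa [smul_eq_mul] using hC i lam hlam p

/-- The series is close to `f`. -/
theorem approx_bound (N n : ℕ) :
    ∃ C, 0 ≤ C ∧ ∀ i (lam : ℝ), 1 ≤ lam → ∀ p,
      ‖iteratedFDeriv ℝ n (fun p => approx L (c i) N lam p - D.f p) p‖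
        ≤ C * (m i * lam) ^ n * lam⁻¹ := by
  obtain ⟨C, hC0, hC⟩ := sum_bound hm (Finset.range (N + 1)) (d := fun k => k + 1) (K := 1)
    (fun k _ => Nat.le_add_left _ _) (G := fun k i => U L (c i) (k + 1))
    (fun k _ => (bounded hm hc hc' hp (k + 1)).1.left.fam) n
  refine ⟨C, hC0, fun i lam hlam p => ?_⟩
  rw [funext (approx_sub (L := L) (c i) N lam), ← pow_one lam⁻¹]
  simpa using hC i lam hlam p

/-- The series is Lipschitz in the free component. -/
theorem approx_lipschitz (N n : ℕ) :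
    ∃ C, 0 ≤ C ∧ ∀ i (lam : ℝ), 1 ≤ lam → ∀ p,
      ‖iteratedFDeriv ℝ n (fun p => approx L (c' i) N lam p - approx L (c i) N lam p) p‖
        ≤ C * |δ i| * (m i * lam) ^ n * lam⁻¹ := by
  choose! B hB eB using fun k (_ : k ∈ Finset.range (N + 1)) =>
    (bounded (L := L) hm hc hc' hp (k + 1)).2.2 (Nat.le_add_left _ _)
  obtain ⟨C, hC0, hC⟩ := sum_bound hm (Finset.range (N + 1)) (d := fun k => k + 1) (K := 1)
    (fun k _ => Nat.le_add_left _ _) (G := B) hB n
  refine ⟨C, hC0, fun i lam hlam p => ?_⟩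
  have e : (fun p => approx L (c' i) N lam p - approx L (c i) N lam p) = fun p : R2 =>
      δ i • ∑ k ∈ Finset.range (N + 1), (lam⁻¹) ^ (k + 1) • B k i (p, lam * p.1) := funext fun p => by
    rw [← sub_sub_sub_cancel_right _ _ (D.f p), approx_sub, approx_sub, ← Finset.sum_sub_distrib,
      Finset.smul_sum]
    refine Finset.sum_congr rfl fun k hk => ?_
    rw [← smul_sub, show U L (c' i) (k + 1) (p, lam * p.1) - U L (c i) (k + 1) (p, lam * p.1) =
      δ i • B k i (p, lam * p.1) from eB k hk i _, smul_comm]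
  rw [e, iteratedFDeriv_const_smul_apply', norm_smul, Real.norm_eq_abs, mul_comm C, mul_assoc,
    mul_assoc, ← mul_assoc C]
  · refine mul_le_mul_of_nonneg_left ?_ (abs_nonneg _)
    simpa using hC i lam hlam p
  · exact ((ContDiff.sum fun k hk => (((hB k hk).smooth i).comp
      (contDiff_id.prodMk (contDiff_const.mul contDiff_fst))).const_smul ((lam⁻¹) ^ (k + 1))).of_le
      (by exact_mod_cast le_top)).contDiffAt

/-- The defects are bounded at the scale and Lipschitz in the free component. -/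
theorem defect_pair (k : ℕ) :
    Pair m δ (fun i => lift (defect L (term L (c i)) (k + 1)))
      fun i => lift (defect L (term L (c' i)) (k + 1)) := by
  have hb := fun j => bounded (L := L) hm hc hc' hp j
  have hP := (hb (k + 1)).2.1.prim hm (fun i x => (known (hc i) (k + 1)).mean_w _ le_rfl x)
    (fun i x => (known (hc' i) (k + 1)).mean_w _ le_rfl x)
  have hV : Pair m δ (fun i => lift (D.R fun p => -hmean L (term L (c i)) (k + 1) p))
      fun i => lift (D.R fun p => -hmean L (term L (c' i)) (k + 1) p) := by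
    have h := (hb (k + 1)).1.sub hP
    convert h using 2 with i i <;> funext q <;> simp [U_succ, nextU, lift, term]
  have hX0 : Pair m δ (fun _ : ι => L.X0) fun _ => L.X0 := Pair.const_prof hm L.isProfile_X0
  have hFx : Pair m δ (fun _ : ι => lift (dx D.f)) fun _ => lift (dx D.f) :=
    Pair.const_coef hm (smooth2_dx D.f_smooth)
  have hT0 : Pair m δ (fun _ : ι => lift (dy D.f)) fun _ => lift (dy D.f) :=
    Pair.const_coef hm (smooth2_dy D.f_smooth)
  have hX : ∀ j < k + 1, Pair m δ (fun i => Xco (term L (c i)) j)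
      fun i => Xco (term L (c' i)) j :=
    fun j _ => (hb (j + 1)).2.1.add ((hb j).1.pd _)
  have hT : ∀ j < k + 1, Pair m δ (fun i => Tco (term L (c i)) j)
      fun i => Tco (term L (c' i)) j := fun j _ => (hb j).1.pd _
  have two : ∀ {P P' : ι → R3 → ℝ}, Pair m δ P P' →
      Pair m δ (fun i q => 2 * P i q) fun i q => 2 * P' i q :=
    fun h => h.clm (ContinuousLinearMap.mul ℝ ℝ 2)
  have h1 := (two (hFx.ip (hV.pd (1, 0)))).add
    (Pair.meanP hm ((two (hX0.ip (hP.pd (1, 0)))).add (Pair.qsum hX hX)))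
  have h2 := ((hFx.ip (hV.pd (0, 1))).add ((hV.pd (1, 0)).ip hT0)).add
    (Pair.meanP hm (((hT0.ip (hP.pd (1, 0))).add (hX0.ip (hP.pd (0, 1)))).add
      (Pair.qsum hX hT)))
  have h3 := (two (hT0.ip (hV.pd (0, 1)))).add
    (Pair.meanP hm ((two (hT0.ip (hP.pd (0, 1)))).add (Pair.qsum hT hT)))
  have h := (h1.clm (ContinuousLinearMap.inl ℝ ℝ (ℝ × ℝ))).add
    (((h2.clm (ContinuousLinearMap.inl ℝ ℝ ℝ)).add
      (h3.clm (ContinuousLinearMap.inr ℝ ℝ ℝ))).clm (ContinuousLinearMap.inr ℝ ℝ (ℝ × ℝ)))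
  have hd : ∀ (c0 : ℕ → R3 → ℝ), Input D c0 → ∀ v (q : R3),
      pd v (lift (D.R fun p => -hmean L (term L c0) (k + 1) p)) q =
        fderiv ℝ (D.R fun p => -hmean L (term L c0) (k + 1) p) q.1 v := fun c0 h0 v q =>
    pd_lift ((D.R_ok _ ((known h0 (k + 1)).hmean_ok L)).1.1.differentiable (by simp)) v q
  convert h using 2 with i i <;> funext q
  · simp only [WKB.ip, hd (c i) (hc i)]
    simp [lift, defect, lin, hmean, WKB.meanP, WKB.ip, px, py, term, dx, dy]
  · simp only [WKB.ip, hd (c' i) (hc' i)]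
    simp [lift, defect, lin, hmean, WKB.meanP, WKB.ip, px, py, term, dx, dy]

end Bounds

end

end Vale.Agent.P205.WKB
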