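import Mathlib
import Vale.Agent.P205.Full.WKB.Series
import Vale.Agent.P205.Generic.Weight

/-!
# P205: anisotropic bounds along the phase

A derivative across the phase costs nothing, one along it costs the frequency.  A bound on
differences in a parameter passes to the derivative in the parameter.
-/

namespace Vale.Agent.P205.WKB

open scoped ContDiff Topology
open Correction Profile Filter

noncomputable section

variable {E : Type} [NormedAddCommGroup E] [NormedSpace ℝ E]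

lemma contDiff_gdx {g : R2 → E} (hg : ContDiff ℝ ∞ g) : ContDiff ℝ ∞ (Generic.dx g) :=
  (hg.fderiv_right (m := ∞) le_rfl).clm_apply contDiff_const

lemma contDiff_gdy {g : R2 → E} (hg : ContDiff ℝ ∞ g) : ContDiff ℝ ∞ (Generic.dy g) :=
  (hg.fderiv_right (m := ∞) le_rfl).clm_apply contDiff_const

lemma contDiff_gdy_iter {g : R2 → E} (hg : ContDiff ℝ ∞ g) :
    ∀ b, ContDiff ℝ ∞ (Generic.dy^[b] g)
  | 0 => hg
  | b + 1 => by rw [Function.iterate_succ_apply']; exact contDiff_gdy (contDiff_gdy_iter hg b)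

/-- The pure derivative is below the full one. -/
lemma norm_dx_iter_le : ∀ (a : ℕ) {g : R2 → E}, ContDiff ℝ ∞ g → ∀ x,
    ‖Generic.dx^[a] g x‖ ≤ ‖iteratedFDeriv ℝ a g x‖
  | 0, g, _, x => by rw [norm_iteratedFDeriv_zero]; rfl
  | a + 1, g, hg, x => by
    rw [Function.iterate_succ_apply]
    refine (norm_dx_iter_le a (contDiff_gdx hg) x).trans ?_
    rw [← norm_iteratedFDeriv_fderiv (n := a)]
    have h := (ContinuousLinearMap.apply ℝ E ((1 : ℝ), (0 : ℝ))).norm_iteratedFDeriv_comp_left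
      (x := x) (hg.fderiv_right (m := ∞) le_rfl).contDiffAt (n := a) (by exact_mod_cast le_top)
    refine h.trans (mul_le_of_le_one_left (norm_nonneg _)
      (ContinuousLinearMap.opNorm_le_bound _ zero_le_one fun T => ?_))
    simpa using T.le_opNorm ((1 : ℝ), (0 : ℝ))

/-- Mixed derivatives commute. -/
lemma pd_swap {g : R2 → E} (hg : ContDiff ℝ ∞ g) (a : ℕ) :
    ∀ b, Generic.pd a b g = Generic.dx^[a] (Generic.dy^[b] g)
  | 0 => rfl
  | b + 1 => by
    rw [Function.iterate_succ_apply', show Generic.pd a (b + 1) g =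
      Generic.dy (Generic.pd a b g) from Function.iterate_succ_apply' Generic.dy b _, pd_swap hg a b]
    exact funext fun x => (Generic.dx_iter_dy isOpen_univ
      (contDiff_gdy_iter hg b).contDiffOn a (Set.mem_univ x)).symm

variable {ι : Type} {m : ι → ℝ}

/-- The family along the phase. -/
def along (P : R3 → E) (lam : ℝ) (x : R2) : E := P (x, lam * x.1)

lemma contDiff_along {P : R3 → E} (hP : ContDiff ℝ ∞ P) (lam : ℝ) : ContDiff ℝ ∞ (along P lam) :=
  hP.comp (contDiff_id.prodMk (contDiff_const.mul contDiff_fst))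

lemma dy_along {P : R3 → E} (hP : ContDiff ℝ ∞ P) (lam : ℝ) :
    Generic.dy (along P lam) = along (py P) lam := funext fun x => by
  show fderiv ℝ (fun x : R2 => P (x, lam * x.1)) x (0, 1) = fderiv ℝ P (x, lam * x.1) ((0, 1), 0)
  obtain ⟨L, hL⟩ : ∃ L : R2 →L[ℝ] R3, L = (ContinuousLinearMap.id ℝ R2).prod
      (lam • ContinuousLinearMap.fst ℝ ℝ ℝ) := ⟨_, rfl⟩
  have e : (fun x : R2 => P (x, lam * x.1)) = P ∘ L := funext fun y => by simp [hL]
  rw [e, fderiv_comp x (hP.differentiable (by simp) _) L.differentiableAt,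
    ContinuousLinearMap.fderiv, ContinuousLinearMap.comp_apply, hL]
  simp

lemma dy_iter_along {P : ι → R3 → E} (hP : Fam m P) : ∀ b, ∃ Q : ι → R3 → E, Fam m Q ∧
    ∀ i lam, Generic.dy^[b] (along (P i) lam) = along (Q i) lam
  | 0 => ⟨P, hP, fun _ _ => rfl⟩
  | b + 1 => by
    obtain ⟨Q, hQ, e⟩ := dy_iter_along hP b
    refine ⟨fun i => py (Q i), hQ.pd _, fun i lam => ?_⟩
    rw [Function.iterate_succ_apply', e, dy_along (hQ.smooth i)]

/-- The anisotropic bound along the phase. -/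
theorem Fam.osc_pd (hm : ∀ i, 1 ≤ m i) {P : ι → R3 → E} (hP : Fam m P) (a b : ℕ) :
    ∃ C, 0 ≤ C ∧ ∀ i (lam : ℝ), 1 ≤ lam → ∀ x,
      ‖Generic.pd a b (along (P i) lam) x‖ ≤ C * (m i * lam) ^ a := by
  obtain ⟨Q, hQ, e⟩ := dy_iter_along hP b
  obtain ⟨C, hC0, hC⟩ := hQ.osc_bound hm a
  refine ⟨C, hC0, fun i lam hlam x => ?_⟩
  rw [pd_swap (contDiff_along (hP.smooth i) lam), e]
  exact (norm_dx_iter_le a (contDiff_along (hQ.smooth i) lam) x).trans (hC i lam hlam x)

lemma dx_iter_smul (r : ℝ) {g : R2 → E} (hg : ContDiff ℝ ∞ g) : ∀ a,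
    Generic.dx^[a] (fun x => r • g x) = fun x => r • Generic.dx^[a] g x
  | 0 => rfl
  | a + 1 => by
    rw [Function.iterate_succ_apply', dx_iter_smul r hg a, Function.iterate_succ_apply']
    funext x
    show fderiv ℝ _ x (1, 0) = _
    rw [fderiv_fun_const_smul ((Generic.contDiffOn_dx_iter isOpen_univ hg.contDiffOn a).differentiableOn
      (by simp) |>.differentiableAt univ_mem)]
    rfl

lemma pd_smul (r : ℝ) {g : R2 → E} (hg : ContDiff ℝ ∞ g) (a b : ℕ) (x : R2) :
    Generic.pd a b (fun x => r • g x) x = r • Generic.pd a b g x := by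
  induction b generalizing x with
  | zero => exact congrFun (dx_iter_smul r hg a) x
  | succ b ih =>
    simp only [show ∀ h : R2 → E, Generic.pd a (b + 1) h = Generic.dy (Generic.pd a b h) from
      fun h => Function.iterate_succ_apply' Generic.dy b _, funext ih]
    show fderiv ℝ _ x (0, 1) = _
    rw [fderiv_fun_const_smul ((Generic.contDiffOn_pd isOpen_univ hg.contDiffOn a b).differentiableOn
      (by simp) |>.differentiableAt univ_mem)]
    rfl

lemma pd_sum {κ : Type} (s : Finset κ) {g : κ → R2 → E} (hg : ∀ k ∈ s, ContDiff ℝ ∞ (g k))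
    (a b : ℕ) (x : R2) :
    Generic.pd a b (fun x => ∑ k ∈ s, g k x) x = ∑ k ∈ s, Generic.pd a b (g k) x := by
  classical
  induction s using Finset.induction generalizing x with
  | empty =>
    have h0 : Generic.dx (fun _ : R2 => (0 : E)) = fun _ => 0 := by ext; simp [Generic.dx]
    have h1 : Generic.dy (fun _ : R2 => (0 : E)) = fun _ => 0 := by ext; simp [Generic.dy]
    simp [Generic.pd, Function.iterate_fixed h0, Function.iterate_fixed h1]
  | insert k s hk ih =>
    have hs : ContDiff ℝ ∞ fun x => ∑ k ∈ s, g k x :=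
      ContDiff.sum fun j hj => hg j (Finset.mem_insert_of_mem hj)
    rw [Finset.sum_insert hk, show (fun x => ∑ k ∈ insert k s, g k x) =
        g k + fun x => ∑ k ∈ s, g k x from funext fun x => Finset.sum_insert hk,
      Generic.pd_add isOpen_univ (hg k (Finset.mem_insert_self k s)).contDiffOn hs.contDiffOn a b
        (Set.mem_univ x), Pi.add_apply, ih (fun j hj => hg j (Finset.mem_insert_of_mem hj))]

/-- Bound for a sum of terms of order at least `K` along the phase. -/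
theorem sum_pd (hm : ∀ i, 1 ≤ m i) {κ : Type} (s : Finset κ) {d : κ → ℕ} {K : ℕ}
    (hd : ∀ x ∈ s, K ≤ d x) {G : κ → ι → R3 → E} (hG : ∀ x ∈ s, Fam m (G x)) (a b : ℕ) :
    ∃ C, 0 ≤ C ∧ ∀ i (lam : ℝ), 1 ≤ lam → ∀ p,
      ‖Generic.pd a b (fun p : R2 => ∑ x ∈ s, (lam⁻¹) ^ d x • G x i (p, lam * p.1)) p‖
        ≤ C * (m i * lam) ^ a * (lam⁻¹) ^ K := by
  classical
  choose! C hC0 hC using fun x hx => (hG x hx).osc_pd hm a b
  refine ⟨∑ x ∈ s, C x, Finset.sum_nonneg hC0, fun i lam hlam p => ?_⟩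
  have hs : ∀ x ∈ s, ContDiff ℝ ∞ (along (G x i) lam) := fun x hx =>
    contDiff_along ((hG x hx).smooth i) lam
  show ‖Generic.pd a b (fun p : R2 => ∑ x ∈ s, (lam⁻¹) ^ d x • along (G x i) lam p) p‖ ≤ _
  rw [pd_sum s (g := fun x (p : R2) => (lam⁻¹) ^ d x • along (G x i) lam p)
    (fun x hx => (hs x hx).const_smul _) a b p]
  refine (norm_sum_le _ _).trans ?_
  rw [Finset.sum_mul, Finset.sum_mul]
  refine Finset.sum_le_sum fun x hx => ?_
  rw [pd_smul _ (hs x hx), norm_smul, Real.norm_eq_abs,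
    abs_of_nonneg (pow_nonneg (inv_nonneg.2 (by linarith)) _), mul_comm]
  refine mul_le_mul (hC x hx i lam hlam p) (pow_le_pow_of_le_one (inv_nonneg.2 (by linarith))
    (inv_le_one_of_one_le₀ hlam) (hd x hx)) (by positivity) ?_
  exact mul_nonneg (hC0 x hx) (pow_nonneg (mul_nonneg (by linarith [hm i]) (by linarith)) _)

section Param

variable {T : Type} [NormedAddCommGroup T] [NormedSpace ℝ T]

/-- Derivative of a map of parameter and point along a fixed vector. -/
def ptl (u : T × R2) (Φ : T × R2 → E) (z : T × R2) : E := fderiv ℝ Φ z u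

lemma contDiff_ptl {u : T × R2} {Φ : T × R2 → E} (h : ContDiff ℝ ∞ Φ) : ContDiff ℝ ∞ (ptl u Φ) :=
  (h.fderiv_right (m := ∞) le_rfl).clm_apply contDiff_const

lemma ptl_comm {u v : T × R2} {Φ : T × R2 → E} (h : ContDiff ℝ ∞ Φ) :
    ptl u (ptl v Φ) = ptl v (ptl u Φ) := funext fun z => by
  have hs : IsSymmSndFDerivAt ℝ Φ z :=
    (h.contDiffAt.of_le (m := 2) (WithTop.coe_le_coe.2 le_top)).isSymmSndFDerivAt (by simp)
  have hd : DifferentiableAt ℝ (fderiv ℝ Φ) z :=
    ((h.fderiv_right (m := ∞) le_rfl).differentiable (by simp)).differentiableAt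
  show fderiv ℝ (fun z => fderiv ℝ Φ z v) z u = fderiv ℝ (fun z => fderiv ℝ Φ z u) z v
  rw [fderiv_clm_apply hd (differentiableAt_const _), fderiv_clm_apply hd (differentiableAt_const _)]
  simpa using hs _ _

lemma contDiff_ptl_iter {u : T × R2} {Φ : T × R2 → E} (h : ContDiff ℝ ∞ Φ) :
    ∀ n, ContDiff ℝ ∞ ((ptl u)^[n] Φ)
  | 0 => h
  | n + 1 => by rw [Function.iterate_succ_apply']; exact contDiff_ptl (contDiff_ptl_iter h n)

lemma ptl_iter_comm {u v : T × R2} {Φ : T × R2 → E} (h : ContDiff ℝ ∞ Φ) :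
    ∀ n, (ptl u)^[n] (ptl v Φ) = ptl v ((ptl u)^[n] Φ)
  | 0 => rfl
  | n + 1 => by
    rw [Function.iterate_succ_apply', ptl_iter_comm h n, Function.iterate_succ_apply']
    exact ptl_comm (contDiff_ptl_iter h n)

lemma pd_slice {Φ : T × R2 → E} (h : ContDiff ℝ ∞ Φ) (a b : ℕ) (τ : T) (x : R2) :
    Generic.pd a b (fun x => Φ (τ, x)) x =
      (ptl ((0 : T), ((0 : ℝ), (1 : ℝ))))^[b] ((ptl ((0 : T), ((1 : ℝ), (0 : ℝ))))^[a] Φ) (τ, x) := by
  have h1 : ∀ (Ψ : T × R2 → E), ContDiff ℝ ∞ Ψ → ∀ v x,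
      fderiv ℝ (fun x => Ψ (τ, x)) x v = ptl ((0 : T), v) Ψ (τ, x) := fun Ψ hΨ v x => by
    rw [show fderiv ℝ (fun x => Ψ (τ, x)) x =
      (fderiv ℝ Ψ (τ, x)).comp (ContinuousLinearMap.inr ℝ T R2) from
        ((hΨ.differentiable (by simp) (τ, x)).hasFDerivAt.comp x
          (hasFDerivAt_prodMk_right τ x)).fderiv]
    rfl
  have ha : ∀ a, Generic.dx^[a] (fun x => Φ (τ, x)) =
      fun x => (ptl ((0 : T), ((1 : ℝ), (0 : ℝ))))^[a] Φ (τ, x) := by
    intro a
    induction a with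
    | zero => rfl
    | succ a ih =>
      rw [Function.iterate_succ_apply', ih, Function.iterate_succ_apply']
      exact funext fun x => h1 _ (contDiff_ptl_iter h a) (1, 0) x
  induction b generalizing x with
  | zero => exact congrFun (ha a) x
  | succ b ih =>
    simp only [show ∀ g : R2 → E, Generic.pd a (b + 1) g = Generic.dy (Generic.pd a b g) from
      fun g => Function.iterate_succ_apply' Generic.dy b _, funext ih, Function.iterate_succ_apply']
    exact h1 _ (contDiff_ptl_iter (contDiff_ptl_iter h a) b) (0, 1) x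

/-- A Lipschitz bound in the parameter passes to the derivative in the parameter. -/
theorem pd_deriv_le {Φ : T × R2 → E} (h : ContDiff ℝ ∞ Φ) (a b : ℕ) (τ w : T) (x : R2) {C : ℝ}
    (hC : 0 ≤ C) (hlip : ∀ᶠ σ in 𝓝 τ, ‖Generic.pd a b (fun x => Φ (σ, x)) x -
      Generic.pd a b (fun x => Φ (τ, x)) x‖ ≤ C * ‖σ - τ‖) :
    ‖Generic.pd a b (fun x => fderiv ℝ Φ (τ, x) (w, 0)) x‖ ≤ C * ‖w‖ := by
  obtain ⟨Ψ, hΨ⟩ : ∃ Ψ, Ψ =
      (ptl ((0 : T), ((0 : ℝ), (1 : ℝ))))^[b] ((ptl ((0 : T), ((1 : ℝ), (0 : ℝ))))^[a] Φ) :=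
    ⟨_, rfl⟩
  have hs : ContDiff ℝ ∞ Ψ := hΨ ▸ contDiff_ptl_iter (contDiff_ptl_iter h a) b
  have hd : HasFDerivAt (fun σ => Ψ (σ, x))
      ((fderiv ℝ Ψ (τ, x)).comp (ContinuousLinearMap.inl ℝ T R2)) τ :=
    (hs.differentiable (by simp) (τ, x)).hasFDerivAt.comp τ (hasFDerivAt_prodMk_left τ x)
  have hb := hd.le_of_lip' hC (hlip.mono fun σ hσ => by rwa [hΨ, ← pd_slice h, ← pd_slice h])
  refine le_trans (le_of_eq (congrArg norm ?_)) (ContinuousLinearMap.le_of_opNorm_le _ hb w)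
  show Generic.pd a b (fun x => ptl (w, (0 : R2)) Φ (τ, x)) x = ptl (w, (0 : R2)) Ψ (τ, x)
  rw [pd_slice (contDiff_ptl h), ptl_iter_comm h, ptl_iter_comm (contDiff_ptl_iter h a), hΨ]

end Param

end

end Vale.Agent.P205.WKB
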