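import Mathlib
import Vale.Agent.P205.Full.WKB.Orders

/-!
# P205: loop data from an abstract loop

Every loop `f_x + a • u` on the circle in the plane orthogonal to `f_y`, `f_yy` that covers that
plane gives `LoopData`.  The mean fix inverts a positive operator that is nondegenerate up to
`a = 0`, so nothing is divided by the amplitude.
-/

namespace Vale.Agent.P205.WKB

open scoped ContDiff RealInnerProductSpace
open Correction Profile intervalIntegral
open Vale.Agent.P205.Algebra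

noncomputable section

/-- `z ↦ cross4 x y z` as a linear map. -/
def crossL (x y : V4) : V4 →L[ℝ] V4 :=
  LinearMap.toContinuousLinearMap
    { toFun := cross4 x y
      map_add' := fun z z' => by simpa using cross4_add_smul x y z z' 1
      map_smul' := fun r z => by
        have h : cross4 x y 0 = 0 := by ext i; fin_cases i <;> simp [cross4]
        simpa [h] using cross4_add_smul x y 0 z r }

@[simp] lemma crossL_apply (x y z : V4) : crossL x y z = cross4 x y z := rfl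

lemma cross4_swap (x y z z' : V4) : ⟪z, cross4 x y z'⟫ = -⟪z', cross4 x y z⟫ := by
  simp only [inner4]
  simp [cross4]
  ring

lemma cross4_gram (x y z : V4) : ⟪cross4 x y z, cross4 x y z⟫ =
    ⟪x, x⟫ * (⟪y, y⟫ * ⟪z, z⟫ - ⟪y, z⟫ ^ 2) - ⟪x, y⟫ * (⟪x, y⟫ * ⟪z, z⟫ - ⟪y, z⟫ * ⟪x, z⟫)
      + ⟪x, z⟫ * (⟪x, y⟫ * ⟪y, z⟫ - ⟪y, y⟫ * ⟪x, z⟫) := by
  simp only [inner4]
  simp [cross4]
  ring

/-- The operator `y ↦ ⟪v, y⟫ • v`. -/
def rk (v : V4) : V4 →L[ℝ] V4 := ContinuousLinearMap.smulRightL ℝ V4 V4 (innerSL ℝ v) v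

@[simp] lemma rk_apply (v y : V4) : rk v y = ⟪v, y⟫ • v := rfl

lemma contDiff_rk {X : Type} [NormedAddCommGroup X] [NormedSpace ℝ X] {v : X → V4}
    (hv : ContDiff ℝ ∞ v) : ContDiff ℝ ∞ fun x => rk (v x) := by
  have I : ∃ I : V4 →L[ℝ] V4 →L[ℝ] ℝ, ∀ w, I w = innerSL ℝ w := ⟨innerSL ℝ, fun _ => rfl⟩
  obtain ⟨I, hI⟩ := I
  have h1 : ContDiff ℝ ∞ fun x => innerSL ℝ (v x) := by
    simpa only [Function.comp_def, hI] using I.contDiff.comp hv
  exact ((ContinuousLinearMap.smulRightL ℝ V4 V4).contDiff.comp h1).clm_apply hv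

lemma smooth2_rk {v : R2 → V4} (hv : Smooth2 v) : Smooth2 fun p => rk (v p) :=
  ⟨contDiff_rk hv.1, fun p => congrArg rk (hv.2.1 p), fun p => congrArg rk (hv.2.2 p)⟩

lemma smooth2_const {E : Type} [NormedAddCommGroup E] [NormedSpace ℝ E] (c : E) :
    Smooth2 fun _ : R2 => c :=
  ⟨contDiff_const, fun _ => rfl, fun _ => rfl⟩

namespace Spin

variable (D : Spin)

/-- The constant part of the normal. -/
def e0 (p : R2) : V4 := cross4 (D.T p) (D.A p) (D.X p)
/-- The varying part of the normal, divided by the amplitude. -/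
def et (q : R3) : V4 := cross4 (D.T q.1) (D.A q.1) (D.u q)
/-- The covariance of the varying part. -/
def cov (p : R2) : V4 →L[ℝ] V4 := mean (fun q => rk (D.et q)) p
/-- The positive operator of the mean fix. -/
def op (p : R2) : V4 →L[ℝ] V4 :=
  (D.cov p).comp (D.cov p) + rk (D.e0 p) + rk (D.T p) + rk (D.e2 p)
    + (1 - D.η p) • ContinuousLinearMap.id ℝ V4
/-- Its inverse. -/
def opInv (p : R2) : V4 →L[ℝ] V4 := (D.op p).inverse

lemma smooth2_e0 : Smooth2 D.e0 :=
  ⟨contDiff_cross4 D.smooth2_T.1 D.smooth2_A.1 D.smooth2_X.1,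
    fun p => by simp only [e0, D.smooth2_T.2.1, D.smooth2_A.2.1, D.smooth2_X.2.1],
    fun p => by simp only [e0, D.smooth2_T.2.2, D.smooth2_A.2.2, D.smooth2_X.2.2]⟩

lemma isProfile_et : IsProfile D.et := by
  refine ⟨contDiff_cross4 (D.smooth2_T.1.comp contDiff_fst) (D.smooth2_A.1.comp contDiff_fst)
    D.u_prof.1, fun z => ?_⟩
  obtain ⟨h1, h2, h3⟩ := D.u_prof.2 z
  refine ⟨?_, ?_, ?_⟩
  · rw [et, et, h1]; show cross4 (D.T (z.1 + (1, 0))) (D.A (z.1 + (1, 0))) _ = _
    rw [D.smooth2_T.2.1, D.smooth2_A.2.1]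
  · rw [et, et, h2]; show cross4 (D.T (z.1 + (0, 1))) (D.A (z.1 + (0, 1))) _ = _
    rw [D.smooth2_T.2.2, D.smooth2_A.2.2]
  · rw [et, et, h3]; show cross4 (D.T (z.1 + 0)) (D.A (z.1 + 0)) _ = _
    rw [add_zero]

lemma mean_et (p : R2) : mean D.et p = 0 := by
  have h := (crossL (D.T p) (D.A p)).intervalIntegral_comp_comm (μ := MeasureTheory.volume)
    (intervalIntegrable_phase D.u_prof.1.continuous p 0 1)
  calc mean D.et p = crossL (D.T p) (D.A p) (mean D.u p) := h
    _ = 0 := by rw [D.u_mean, map_zero]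

lemma smooth2_cov : Smooth2 D.cov :=
  smooth2_mean ⟨contDiff_rk D.isProfile_et.1, fun z => ⟨congrArg rk (D.isProfile_et.2 z).1,
    congrArg rk (D.isProfile_et.2 z).2.1, congrArg rk (D.isProfile_et.2 z).2.2⟩⟩

lemma inner_cov (p : R2) (z y : V4) :
    ⟪D.cov p z, y⟫ = mean (fun q => ⟪D.et q, z⟫ * ⟪D.et q, y⟫) p := by
  have hc : Continuous fun q => rk (D.et q) := (contDiff_rk D.isProfile_et.1).continuous
  have h := ((innerSL ℝ).flip y ∘L ContinuousLinearMap.apply ℝ V4 z).intervalIntegral_comp_comm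
    (μ := MeasureTheory.volume) (intervalIntegrable_phase hc p 0 1)
  refine Eq.trans ?_ (h.symm.trans (intervalIntegral.integral_congr fun t _ => ?_))
  · rfl
  · show ⟪rk (D.et (p, t)) z, y⟫ = _
    rw [rk_apply, real_inner_smul_left]

lemma smooth2_op : Smooth2 D.op :=
  ((((D.smooth2_cov.bilin D.smooth2_cov (ContinuousLinearMap.compL ℝ V4 V4 V4)).add
    (smooth2_rk D.smooth2_e0)).add (smooth2_rk D.smooth2_T)).add (smooth2_rk D.smooth2_e2)).add
    (((smooth2_const (1 : ℝ)).sub D.η_smooth).bilin (smooth2_const (ContinuousLinearMap.id ℝ V4))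
      (ContinuousLinearMap.lsmul ℝ ℝ))

lemma inner_op (p : R2) (y : V4) : ⟪D.op p y, y⟫ = ⟪D.cov p y, D.cov p y⟫ + ⟪D.e0 p, y⟫ ^ 2
    + ⟪D.T p, y⟫ ^ 2 + ⟪D.e2 p, y⟫ ^ 2 + (1 - D.η p) * ⟪y, y⟫ := by
  have h : ⟪D.cov p (D.cov p y), y⟫ = ⟪D.cov p y, D.cov p y⟫ := by
    rw [inner_cov, inner_cov]
    exact intervalIntegral.integral_congr fun t _ => mul_comm _ _
  simp only [op, _root_.add_apply, ContinuousLinearMap.comp_apply, rk_apply,
    _root_.smul_apply, ContinuousLinearMap.id_apply, inner_add_left, real_inner_smul_left, h]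
  ring

lemma area {p : R2} (hp : D.η p = 1) :
    D.gT p * ⟪D.A p, D.A p⟫ - ⟪D.T p, D.A p⟫ ^ 2 = D.gT p * D.q22 p := by
  rw [q22, e2, D.rinv_one hp, inner_sub_left, inner_sub_right, inner_sub_right,
    real_inner_smul_left, real_inner_smul_right, real_inner_smul_left, real_inner_smul_right,
    real_inner_comm (D.A p) (D.T p)]
  have := (D.gT_pos hp).ne'
  unfold gT at this ⊢
  field_simp
  ring

lemma op_ker (p : R2) (y : V4) (h : D.op p y = 0) : y = 0 := by
  have h0 := D.inner_op p y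
  rw [h, inner_zero_left] at h0
  have n1 : (0 : ℝ) ≤ ⟪D.cov p y, D.cov p y⟫ := real_inner_self_nonneg
  have n5 : (0 : ℝ) ≤ (1 - D.η p) * ⟪y, y⟫ :=
    mul_nonneg (by linarith [D.η_le p]) real_inner_self_nonneg
  have n2 := sq_nonneg ⟪D.e0 p, y⟫
  have n3 := sq_nonneg ⟪D.T p, y⟫
  have n4 := sq_nonneg ⟪D.e2 p, y⟫
  rcases (D.η_le p).lt_or_eq with hη | hη
  · have : (1 - D.η p) * ⟪y, y⟫ = 0 := by linarith
    exact inner_self_eq_zero.1 ((mul_eq_zero.1 this).resolve_left (by linarith))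
  have hG : D.cov p y = 0 := inner_self_eq_zero.1 (by linarith : ⟪D.cov p y, D.cov p y⟫ = 0)
  have he : ⟪D.e0 p, y⟫ = 0 := (sq_eq_zero_iff).1 (by linarith)
  have hT : ⟪D.T p, y⟫ = 0 := (sq_eq_zero_iff).1 (by linarith)
  have h2 : ⟪D.e2 p, y⟫ = 0 := (sq_eq_zero_iff).1 (by linarith)
  have hA : ⟪D.A p, y⟫ = 0 := by
    rw [e2, inner_sub_left, real_inner_smul_left, hT, mul_zero, sub_zero] at h2
    exact h2
  have hz : ∀ θ, ⟪D.et (p, θ), y⟫ = 0 := by
    have hm : mean (fun q => ⟪D.et q, y⟫ * ⟪D.et q, y⟫) p = 0 := by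
      rw [← inner_cov, hG, inner_zero_left]
    have hc : Continuous fun t => ⟪D.et (p, t), y⟫ :=
      ((D.isProfile_et.1.continuous.comp (Continuous.prodMk_right p)).inner continuous_const)
    intro θ
    have hper : Function.Periodic (fun t => ⟪D.et (p, t), y⟫) 1 := fun t => by
      show ⟪D.et (p, t + 1), y⟫ = _
      exact congrArg (⟪·, y⟫) (phase_periodic D.isProfile_et p t)
    obtain ⟨t, ht, e⟩ := hper.exists_mem_Ico₀ one_pos θ
    by_contra hne
    have hne' : ⟪D.et (p, t), y⟫ ≠ 0 := fun h0 => hne (e.trans h0)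
    have hpos := intervalIntegral.integral_pos (f := fun s => ⟪D.et (p, s), y⟫ * ⟪D.et (p, s), y⟫)
      one_pos (hc.mul hc).continuousOn (fun s _ => mul_self_nonneg _)
      ⟨t, ⟨ht.1, ht.2.le⟩, mul_self_pos.2 hne'⟩
    exact absurd hm hpos.ne'
  have hy : cross4 (D.T p) (D.A p) y = 0 :=
    D.cover p hη _ (cross4_orth _ _ _).1 (cross4_orth _ _ _).2.1
      (by rw [cross4_swap, real_inner_comm]; exact neg_eq_zero.2 he)
      (fun θ => by rw [cross4_swap, real_inner_comm]; exact neg_eq_zero.2 (hz θ))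
  have hgr := cross4_gram (D.T p) (D.A p) y
  rw [hy, hT, hA, inner_zero_left] at hgr
  have harea := D.area hη
  unfold gT at harea
  have : ⟪D.T p, D.T p⟫ * D.q22 p * ⟪y, y⟫ = 0 := by rw [← harea, hgr]; ring
  exact inner_self_eq_zero.1 ((mul_eq_zero.1 this).resolve_left
    (mul_pos (D.gT_pos hη) (D.q22_pos hη)).ne')

/-- The operator as an equivalence. -/
def opEquiv (p : R2) : V4 ≃L[ℝ] V4 :=
  (LinearEquiv.ofInjectiveEndo (D.op p : V4 →ₗ[ℝ] V4)
    (LinearMap.ker_eq_bot.1 (LinearMap.ker_eq_bot'.2 (D.op_ker p)))).toContinuousLinearEquiv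

lemma opEquiv_coe (p : R2) : (D.opEquiv p : V4 →L[ℝ] V4) = D.op p := rfl

lemma smooth2_opInv : Smooth2 D.opInv :=
  ⟨contDiff_iff_contDiffAt.2 fun p => ContDiffAt.comp p
      (D.opEquiv_coe p ▸ contDiffAt_map_inverse (D.opEquiv p)) D.smooth2_op.1.contDiffAt,
    fun p => congrArg ContinuousLinearMap.inverse (D.smooth2_op.2.1 p),
    fun p => congrArg ContinuousLinearMap.inverse (D.smooth2_op.2.2 p)⟩

lemma op_opInv (p : R2) (v : V4) : D.op p (D.opInv p v) = v := by
  rw [opInv, ← D.opEquiv_coe p, ContinuousLinearMap.inverse_equiv]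
  exact (D.opEquiv p).apply_symm_apply v

/-- The coefficient of `v` in the corrector of the mean fix. -/
def corr (q : R3) (v : V4) : ℝ :=
  -(D.a q.1 * ⟪D.e0 q.1, D.opInv q.1 v⟫ + ⟪D.et q, D.cov q.1 (D.opInv q.1 v)⟫)

/-- `u / rho`. -/
def zt (q : R3) : V4 := rinv D.η D.rho q.1 • D.u q

lemma smooth2_rinv_rho : Smooth2 (rinv D.η D.rho) := D.smooth2_rinv D.smooth2_rho D.den_rho

lemma isProfile_zt : IsProfile D.zt :=
  isProfile_bilin (isProfile_lift D.smooth2_rinv_rho) D.u_prof (ContinuousLinearMap.lsmul ℝ ℝ)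

/-- The loop. -/
def wv (q : R3) : V4 := D.a q.1 • D.u q
/-- The dual of `f_x + wv`. -/
def zv (q : R3) : V4 := rinv D.η D.rho q.1 • (D.q q.1 + D.wv q)
/-- The free normal. -/
def ev (q : R3) : V4 := D.e0 q.1 + D.a q.1 • D.et q
/-- Correctors. -/
def phi (k : Fin 5) (q : R3) : ℝ :=
  Fin.cases (-1) (fun i => D.corr q (EuclideanSpace.single i 1)) k
/-- Weights of the forced component. -/
def gw (k : Fin 5) (q : R3) : ℝ := Fin.cases 0 (fun i => D.zt q i) k
/-- Weights of the free component. -/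
def hw (k : Fin 5) (q : R3) : ℝ := Fin.cases 1 (fun i => D.et q i) k

lemma isProfile_wv : IsProfile D.wv :=
  isProfile_bilin (isProfile_lift D.a_smooth) D.u_prof (ContinuousLinearMap.lsmul ℝ ℝ)

lemma isProfile_const {E : Type} [NormedAddCommGroup E] [NormedSpace ℝ E] (c : E) :
    IsProfile fun _ : R3 => c :=
  ⟨contDiff_const, fun _ => ⟨rfl, rfl, rfl⟩⟩

lemma isProfile_phi (k : Fin 5) : IsProfile (D.phi k) := by
  refine Fin.cases (isProfile_const _) (fun i => ?_) k
  have hy := D.smooth2_opInv.clm (ContinuousLinearMap.apply ℝ V4 (EuclideanSpace.single i (1 : ℝ)))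
  have h1 := isProfile_bilin (isProfile_lift D.a_smooth)
    (isProfile_lift (smooth2_inner D.smooth2_e0 hy)) (ContinuousLinearMap.mul ℝ ℝ)
  have h2 := isProfile_ip D.isProfile_et
    (isProfile_lift (D.smooth2_cov.bilin hy (ContinuousLinearMap.id ℝ (V4 →L[ℝ] V4))))
  exact isProfile_comp (isProfile_add h1 h2) contDiff_neg

lemma isProfile_gw (k : Fin 5) : IsProfile (D.gw k) :=
  Fin.cases (isProfile_const _) (fun i => isProfile_comp D.isProfile_zt
    (EuclideanSpace.proj i : V4 →L[ℝ] ℝ).contDiff) k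

lemma isProfile_hw (k : Fin 5) : IsProfile (D.hw k) :=
  Fin.cases (isProfile_const _) (fun i => isProfile_comp D.isProfile_et
    (EuclideanSpace.proj i : V4 →L[ℝ] ℝ).contDiff) k

/-- A weighted sum of correctors is the corrector of the weighted vector. -/
lemma sum_corr (q : R3) (v : V4) :
    ∑ i : Fin 4, D.corr q (EuclideanSpace.single i 1) * v i = D.corr q v := by
  let T : V4 →ₗ[ℝ] ℝ :=
    { toFun := D.corr q
      map_add' := fun x y => by simp only [corr, map_add, inner_add_right]; ring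
      map_smul' := fun r x => by
        simp only [corr, map_smul, real_inner_smul_right, smul_eq_mul, RingHom.id_apply]; ring }
  have hv : v = ∑ i : Fin 4, v i • EuclideanSpace.single i (1 : ℝ) := by
    ext j
    fin_cases j <;> simp [Fin.sum_univ_four]
  show ∑ i : Fin 4, T (EuclideanSpace.single i 1) * v i = T v
  conv_rhs => rw [hv, map_sum]
  exact Finset.sum_congr rfl fun i _ => by rw [map_smul, smul_eq_mul, mul_comm]

lemma inner_T_et (q : R3) : ⟪D.T q.1, D.et q⟫ = 0 := (cross4_orth _ _ _).1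

lemma inner_e2_et (q : R3) : ⟪D.e2 q.1, D.et q⟫ = 0 := by
  rw [e2, inner_sub_left, real_inner_smul_left, D.inner_T_et, mul_zero, sub_zero]
  exact (cross4_orth _ _ _).2.1

lemma inner_e2_e0 (p : R2) : ⟪D.e2 p, D.e0 p⟫ = 0 := by
  rw [e2, inner_sub_left, real_inner_smul_left, show ⟪D.T p, D.e0 p⟫ = 0 from (cross4_orth _ _ _).1,
    mul_zero, sub_zero]
  exact (cross4_orth _ _ _).2.1

lemma mean_inner_left {P : R3 → V4} (hP : Continuous P) (y : V4) (p : R2) :
    mean (fun q => ⟪P q, y⟫) p = ⟪mean P p, y⟫ :=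
  ((innerSL ℝ).flip y).intervalIntegral_comp_comm (intervalIntegrable_phase hP p 0 1)

lemma inner_cov_zero (p : R2) (z y : V4) (h : ∀ θ, ⟪D.et (p, θ), y⟫ = 0) :
    ⟪y, D.cov p z⟫ = 0 := by
  rw [real_inner_comm, inner_cov]
  simp [mean, h]

/-- The inverse of a vector of the plane lies in the plane. -/
lemma opInv_plane {p : R2} (hp : D.η p = 1) {v : V4} (hT : ⟪D.T p, v⟫ = 0)
    (hA : ⟪D.e2 p, v⟫ = 0) : ⟪D.T p, D.opInv p v⟫ = 0 ∧ ⟪D.e2 p, D.opInv p v⟫ = 0 := by
  obtain ⟨y, hy⟩ : ∃ y, y = D.opInv p v := ⟨_, rfl⟩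
  have h := D.op_opInv p v
  rw [← hy] at h ⊢
  simp only [op, hp, sub_self, _root_.add_apply, rk_apply, _root_.smul_apply,
    ContinuousLinearMap.comp_apply] at h
  rw [zero_smul ℝ (ContinuousLinearMap.id ℝ V4 y), add_zero] at h
  have h1 := congrArg (fun x => ⟪D.T p, x⟫) h
  have h2 := congrArg (fun x => ⟪D.e2 p, x⟫) h
  simp only [inner_add_right, real_inner_smul_right, hT, hA,
    D.inner_cov_zero p _ (D.T p) (fun θ => by rw [real_inner_comm]; exact D.inner_T_et (p, θ)),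
    D.inner_cov_zero p _ (D.e2 p) (fun θ => by rw [real_inner_comm]; exact D.inner_e2_et (p, θ)),
    show ⟪D.T p, D.e0 p⟫ = 0 from (cross4_orth _ _ _).1, D.inner_e2_e0, D.inner_T_e2 hp,
    real_inner_comm (D.T p) (D.e2 p), mul_zero, zero_add, add_zero] at h1 h2
  exact ⟨(mul_eq_zero.1 h1).resolve_right (D.gT_pos hp).ne',
    (mul_eq_zero.1 h2).resolve_right (D.q22_pos hp).ne'⟩

/-- The mean fix. -/
lemma fix_eq (σ c : R3 → ℝ) (hσ : Continuous σ) (hc : Continuous c) (p : R2) (hp : p ∈ D.K)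
    (h0 : mean σ p = 0) : mean (fun q => σ q • D.zv q +
      (c q + ∑ k, D.phi k q * meanP (fun q => σ q * D.gw k q + c q * D.hw k q) q) • D.ev q) p
      = 0 := by
  have hη := D.η_one p hp
  obtain ⟨m0, hm0⟩ : ∃ m0, m0 = mean c p := ⟨_, rfl⟩
  have cz : Continuous D.zt := D.isProfile_zt.1.continuous
  have ce : Continuous D.et := D.isProfile_et.1.continuous
  have c1 : Continuous fun q => σ q • D.zt q := hσ.smul cz
  have c2 : Continuous fun q => c q • D.et q := hc.smul ce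
  obtain ⟨v, hv⟩ : ∃ v, v = mean (fun q => σ q • D.zt q + c q • D.et q) p := ⟨_, rfl⟩
  have hvi : ∀ i, mean (fun q => σ q * D.zt q i + c q * D.et q i) p = v i := fun i => by
    rw [hv]
    exact ((mean_congr fun θ => by simp).trans
      (mean_clm (c1.add c2) (EuclideanSpace.proj i : V4 →L[ℝ] ℝ) p))
  have hvo : ∀ y, (∀ θ, ⟪D.et (p, θ), y⟫ = 0) → (∀ θ, ⟪D.zt (p, θ), y⟫ = 0) → ⟪y, v⟫ = 0 := by
    intro y h1 h2
    rw [hv, real_inner_comm, ← mean_inner_left (P := fun q => σ q • D.zt q + c q • D.et q)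
      (c1.add c2) y p]
    simp [mean, inner_add_left, real_inner_smul_left, h1, h2]
  have hvT : ⟪D.T p, v⟫ = 0 := hvo _ (fun θ => by rw [real_inner_comm]; exact D.inner_T_et (p, θ))
    (fun θ => by
      rw [zt, real_inner_smul_left, real_inner_comm]
      exact mul_eq_zero_of_right _ (D.T_u p hη θ))
  have hv2 : ⟪D.e2 p, v⟫ = 0 := hvo _ (fun θ => by rw [real_inner_comm]; exact D.inner_e2_et (p, θ))
    (fun θ => by
      rw [zt, real_inner_smul_left, real_inner_comm, e2, inner_sub_left, real_inner_smul_left,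
        show ⟪D.T p, D.u (p, θ)⟫ = 0 from D.T_u p hη θ,
        show ⟪D.A p, D.u (p, θ)⟫ = 0 from D.A_u p hη θ]
      simp)
  obtain ⟨y, hy⟩ : ∃ y, y = D.opInv p v := ⟨_, rfl⟩
  obtain ⟨yT, y2⟩ := D.opInv_plane hη hvT hv2
  rw [← hy] at yT y2
  have hMy : D.cov p (D.cov p y) + ⟪D.e0 p, y⟫ • D.e0 p = v := by
    have h := D.op_opInv p v
    rw [← hy] at h
    simpa [op, hη, yT, y2] using h
  obtain ⟨d, hd⟩ : ∃ d, d = m0 + D.a p * ⟪D.e0 p, y⟫ := ⟨_, rfl⟩
  have hC : ∀ θ, c (p, θ) + ∑ k, D.phi k (p, θ) *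
      meanP (fun q => σ q * D.gw k q + c q * D.hw k q) (p, θ) =
      c (p, θ) - d - ⟪D.et (p, θ), D.cov p y⟫ := fun θ => by
    rw [Fin.sum_univ_succ]
    simp only [phi, gw, hw, Fin.cases_zero, Fin.cases_succ, meanP, hvi, D.sum_corr, mul_zero,
      zero_add, mul_one]
    rw [corr, ← hy, hd, hm0]
    ring
  obtain ⟨G, hG⟩ : ∃ G, G = D.cov p y := ⟨_, rfl⟩
  have hpt : ∀ θ, σ (p, θ) • D.zv (p, θ) +
      (c (p, θ) + ∑ k, D.phi k (p, θ) *
        meanP (fun q => σ q * D.gw k q + c q * D.hw k q) (p, θ)) • D.ev (p, θ) =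
      (σ (p, θ) • (rinv D.η D.rho p • D.q p) + (c (p, θ) - d - ⟪D.et (p, θ), G⟫) • D.e0 p) +
        D.a p • ((σ (p, θ) • D.zt (p, θ) + c (p, θ) • D.et (p, θ)) -
          (d • D.et (p, θ) + rk (D.et (p, θ)) G)) := fun θ => by
    rw [hC, hG, zv, wv, ev, zt, rk_apply, real_inner_comm (D.cov p y) (D.et (p, θ))]
    dsimp only
    module
  rw [mean_congr (Q := fun q : R3 =>
    (σ q • (rinv D.η D.rho q.1 • D.q q.1) + (c q - d - ⟪D.et q, G⟫) • D.e0 q.1) +
      D.a q.1 • ((σ q • D.zt q + c q • D.et q) - (d • D.et q + rk (D.et q) G)))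
    fun θ => hpt θ]
  have cq : Continuous fun q : R3 => σ q • (rinv D.η D.rho q.1 • D.q q.1) :=
    hσ.smul ((smooth2_smul D.smooth2_rinv_rho D.smooth2_q).1.continuous.comp continuous_fst)
  have ci : Continuous fun q => ⟪D.et q, G⟫ := ce.inner continuous_const
  have cd : Continuous fun q : R3 => (c q - d - ⟪D.et q, G⟫) • D.e0 q.1 :=
    ((hc.sub continuous_const).sub ci).smul (D.smooth2_e0.1.continuous.comp continuous_fst)
  have cr : Continuous fun q => rk (D.et q) G :=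
    ((contDiff_rk D.isProfile_et.1).continuous).clm_apply continuous_const
  have cde : Continuous fun q => d • D.et q := ce.const_smul d
  have cbr : Continuous fun q : R3 => (σ q • D.zt q + c q • D.et q) -
      (d • D.et q + rk (D.et q) G) := (c1.add c2).sub (cde.add cr)
  have e1 : mean (fun q : R3 => c q - d - ⟪D.et q, G⟫) p = m0 - d := by
    rw [mean_sub (P := fun q : R3 => c q - d) (hc.sub continuous_const) ci,
      mean_sub hc continuous_const,
      mean_const (fun _ => d), mean_inner_left ce, D.mean_et, inner_zero_left, sub_zero, hm0]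
  have e2' : mean (fun q : R3 => (σ q • D.zt q + c q • D.et q) -
      (d • D.et q + rk (D.et q) G)) p = v - D.cov p G := by
    rw [mean_sub (P := fun q => σ q • D.zt q + c q • D.et q)
      (Q := fun q => d • D.et q + rk (D.et q) G) (c1.add c2) (cde.add cr),
      mean_add cde cr, mean_smul, D.mean_et, smul_zero, zero_add, ← hv,
      mean_congr (Q := fun q => ContinuousLinearMap.apply ℝ V4 G (rk (D.et q))) fun θ => rfl,
      mean_clm (contDiff_rk D.isProfile_et.1).continuous]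
    rfl
  rw [mean_add (show Continuous fun q : R3 => σ q • (rinv D.η D.rho q.1 • D.q q.1) +
      (c q - d - ⟪D.et q, G⟫) • D.e0 q.1 from cq.add cd)
    (show Continuous fun q : R3 => D.a q.1 • ((σ q • D.zt q + c q • D.et q) -
      (d • D.et q + rk (D.et q) G)) from (D.a_smooth.1.continuous.comp continuous_fst).smul cbr),
    mean_add cq cd, mean_smul_fst (fun p => rinv D.η D.rho p • D.q p), mean_smul_fst D.e0, e1, h0,
    mean_congr (Q := fun q : R3 => D.a p • ((σ q • D.zt q + c q • D.et q) -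
      (d • D.et q + rk (D.et q) G))) fun θ => rfl, mean_smul, e2', ← hMy, hd, ← hG]
  module

/-- The loop data of a spin. -/
def loop : LoopData D.toStep where
  A1 := D.A1
  A2 := D.A2
  w := D.wv
  Z := D.zv
  e := D.ev
  φ := D.phi
  g := D.gw
  h := D.hw
  A1_smooth := D.smooth2_A1
  A2_smooth := D.smooth2_A2
  w_prof := D.isProfile_wv
  Z_prof := isProfile_bilin (isProfile_lift D.smooth2_rinv_rho)
    (isProfile_add (isProfile_lift D.smooth2_q) D.isProfile_wv) (ContinuousLinearMap.lsmul ℝ ℝ)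
  e_prof := isProfile_add (isProfile_lift D.smooth2_e0)
    (isProfile_bilin (isProfile_lift D.a_smooth) D.isProfile_et (ContinuousLinearMap.lsmul ℝ ℝ))
  φ_prof := D.isProfile_phi
  g_prof := D.isProfile_gw
  h_prof := D.isProfile_hw
  w_zero p hp θ := by simp [wv, D.a_zero p hp]
  mean_w p := by
    rw [mean_congr (Q := fun q => D.a p • D.u q) fun θ => rfl, mean_smul, D.u_mean, smul_zero]
  T_A1 p hp := D.inner_T_A1 (D.η_one p hp)
  T_A2 p hp := D.inner_T_A2 (D.η_one p hp)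
  w_A1 p hp θ := by
    have hT : ⟪D.T p, D.u (p, θ)⟫ = 0 := D.T_u p (D.η_one p hp) θ
    have hA : ⟪D.A p, D.u (p, θ)⟫ = 0 := D.A_u p (D.η_one p hp) θ
    rw [real_inner_comm (D.u (p, θ))] at hT hA
    simp [wv, A1, A2, e2, real_inner_smul_left, inner_sub_right, real_inner_smul_right, hT, hA]
  w_A2 p hp θ := by
    have hT : ⟪D.T p, D.u (p, θ)⟫ = 0 := D.T_u p (D.η_one p hp) θ
    have hA : ⟪D.A p, D.u (p, θ)⟫ = 0 := D.A_u p (D.η_one p hp) θ
    rw [real_inner_comm (D.u (p, θ))] at hT hA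
    simp [wv, A2, e2, real_inner_smul_left, inner_sub_right, real_inner_smul_right, hT, hA]
  T_w p hp θ := by
    rw [wv, real_inner_smul_right, D.T_u p (D.η_one p hp) θ, mul_zero]
  circle p hp θ := D.circle p (D.η_one p hp) θ
  T_Z p hp θ := by
    show ⟪D.T p, _⟫ = 0
    rw [zv, real_inner_smul_right, inner_add_right, D.inner_T_q (D.η_one p hp), wv,
      real_inner_smul_right, show ⟪D.T p, D.u (p, θ)⟫ = 0 from D.T_u p (D.η_one p hp) θ]
    ring
  X_Z p hp θ := by
    have hη := D.η_one p hp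
    obtain ⟨Y, hY⟩ : ∃ Y, Y = D.q p + D.wv (p, θ) := ⟨_, rfl⟩
    have hT : ⟪D.T p, Y⟫ = 0 := by
      rw [hY, wv, inner_add_right, D.inner_T_q hη, real_inner_smul_right,
        show ⟪D.T p, D.u (p, θ)⟫ = 0 from D.T_u p hη θ]
      ring
    have hA : ⟪D.A p, Y⟫ = 0 := by
      rw [hY, wv, inner_add_right, D.inner_A_q hη, real_inner_smul_right,
        show ⟪D.A p, D.u (p, θ)⟫ = 0 from D.A_u p hη θ]
      ring
    have hX : D.X p + D.wv (p, θ) =
        Y + ⟪D.X p, D.T p⟫ • D.A1 p + ⟪D.X p, D.A p⟫ • D.A2 p := by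
      rw [hY, q]; abel
    have hA2 : ⟪D.A2 p, Y⟫ = 0 := by
      simp [A2, e2, real_inner_smul_left, inner_sub_left, hT, hA]
    have hA1 : ⟪D.A1 p, Y⟫ = 0 := by
      simp [A1, real_inner_smul_left, inner_sub_left, hT, hA2]
    have hXY : ⟪D.X p + D.wv (p, θ), Y⟫ = ⟪Y, Y⟫ := by
      rw [hX]; simp [inner_add_left, real_inner_smul_left, hA1, hA2]
    have hYY : ⟪Y, Y⟫ = D.rho p := by
      have h := D.circle p hη θ
      have hq : ⟪D.X p, D.u (p, θ)⟫ = ⟪D.q p, D.u (p, θ)⟫ := by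
        have hT' : ⟪D.T p, D.u (p, θ)⟫ = 0 := D.T_u p hη θ
        have hA' : ⟪D.A p, D.u (p, θ)⟫ = 0 := D.A_u p hη θ
        simp [q, A1, A2, e2, inner_sub_left, real_inner_smul_left, hT', hA']
      have hq' : ⟪D.u (p, θ), D.X p⟫ = ⟪D.q p, D.u (p, θ)⟫ := by rw [real_inner_comm, hq]
      rw [hY, wv, rho]
      simp only [inner_add_left, inner_add_right, real_inner_smul_left, real_inner_smul_right,
        real_inner_comm (D.q p) (D.u (p, θ))]
      simp only [show dx D.f p = D.X p from rfl, inner_add_left, inner_add_right,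
        real_inner_smul_left, real_inner_smul_right] at h
      rw [hq, hq'] at h
      linear_combination h
    show ⟪D.X p + D.wv (p, θ), D.zv (p, θ)⟫ = 1
    rw [zv, real_inner_smul_right, show D.q (p, θ).1 + D.wv (p, θ) = Y from hY.symm, hXY, hYY,
      D.rinv_one hη, inv_mul_cancel₀ (D.rho_pos hη).ne']
  T_e p hp θ := by
    show ⟪D.T p, _⟫ = 0
    simp [ev, e0, et, inner_add_right, real_inner_smul_right, (cross4_orth _ _ _).1]
  X_e p hp θ := by
    show ⟪D.X p + D.a p • D.u (p, θ), D.e0 p + D.a p • D.et (p, θ)⟫ = 0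
    rw [show D.e0 p + D.a p • D.et (p, θ) = cross4 (D.T p) (D.A p) (D.X p + D.a p • D.u (p, θ))
      from (cross4_add_smul _ _ _ _ _).symm]
    exact (cross4_orth _ _ _).2.2
  fix := D.fix_eq

/-- The spin loop satisfies the twist conditions. -/
lemma loop_twist : D.loop.Twist where
  A_A1 p hp := D.inner_A_A1 (D.η_one p hp)
  A_A2 p hp := D.inner_A_A2 (D.η_one p hp)
  A_w p hp θ := by
    show ⟪D.A p, D.a p • D.u (p, θ)⟫ = 0
    rw [real_inner_smul_right, show ⟪D.A p, D.u (p, θ)⟫ = 0 from D.A_u p (D.η_one p hp) θ, mul_zero]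
  A_Z p hp θ := by
    show ⟪D.A p, D.zv (p, θ)⟫ = 0
    rw [zv, real_inner_smul_right, inner_add_right, D.inner_A_q (D.η_one p hp), wv,
      real_inner_smul_right, show ⟪D.A p, D.u (p, θ)⟫ = 0 from D.A_u p (D.η_one p hp) θ]
    ring
  A_e p hp θ := by
    show ⟪D.A p, D.ev (p, θ)⟫ = 0
    simp [ev, e0, et, inner_add_right, real_inner_smul_right, (cross4_orth _ _ _).2.1]

end Spin

end

end Vale.Agent.P205.WKB
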