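import Mathlib
import Vale.Agent.P205.Full.WKB.Series
import Vale.Agent.P205.Full.WKB.SpinLoop

/-!
# P205: smooth dependence of the series on parameters

A separated family is a finite sum of smooth functions of the parameter times profiles.  The
recursion keeps the class, so the series is smooth in parameter and point together.
-/

namespace Vale.Agent.P205.WKB

open scoped ContDiff RealInnerProductSpace
open Correction Profile intervalIntegral
open Vale.Agent.P205.Algebra

noncomputable section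

variable {T : Type} [NormedAddCommGroup T] [NormedSpace ℝ T] {ι : Type} {m : ι → ℝ}
variable {E F G : Type} [NormedAddCommGroup E] [NormedSpace ℝ E]
  [NormedAddCommGroup F] [NormedSpace ℝ F] [NormedAddCommGroup G] [NormedSpace ℝ G]

/-- Finite sums of smooth functions of the parameter times bounded families. -/
inductive Sep (m : ι → ℝ) : (ι → T → R3 → E) → Prop
  | mk {φ : T → ℝ} {Q : ι → R3 → E} (hφ : ContDiff ℝ ∞ φ) (hQ : Fam1 m Q) :
      Sep m fun i τ q => φ τ • Q i q
  | add {P P' : ι → T → R3 → E} (hP : Sep m P) (hP' : Sep m P') :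
      Sep m fun i τ q => P i τ q + P' i τ q

/-- The slice at phase zero is a bounded family. -/
lemma Fam.slice {Q : ι → R3 → E} (hQ : Fam m Q) : Fam m fun i q => Q i (q.1, 0) := by
  refine ⟨fun i => ⟨(hQ.smooth i).comp (contDiff_fst.prodMk contDiff_const), fun z => ?_⟩,
    fun n => ?_⟩
  · obtain ⟨h1, h2, -⟩ := (hQ.prof i).2 (z.1, 0)
    refine ⟨?_, ?_, ?_⟩
    · simpa using h1
    · simpa using h2
    · simp [Prod.mk_zero_zero]
  · obtain ⟨C, hC0, hC⟩ := hQ.bdd.nonneg n
    refine ⟨C * ‖pr0‖ ^ n, fun i q => ?_⟩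
    have e : (fun q => Q i ((scl (m i) q).1, 0)) = (fun q => Q i (scl (m i) q)) ∘ pr0 :=
      funext fun w => by simp
    rw [e, pr0.iteratedFDeriv_comp_right (hQ.smooth_scl i) q (by exact_mod_cast le_top)]
    refine ((iteratedFDeriv ℝ n (fun q => Q i (scl (m i) q))
      (pr0 q)).norm_compContinuousLinearMap_le _).trans ?_
    rw [Finset.prod_const, Finset.card_univ, Fintype.card_fin]
    exact mul_le_mul_of_nonneg_right (hC i _) (by positivity)

namespace Sep

variable {P : ι → T → R3 → E}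

lemma congr (hP : Sep m P) {P' : ι → T → R3 → E} (h : ∀ i τ q, P' i τ q = P i τ q) :
    Sep m P' := by
  rwa [show P' = P from funext fun i => funext fun τ => funext (h i τ)]

lemma prof (hP : Sep m P) (i : ι) (τ : T) : IsProfile (P i τ) := by
  induction hP with
  | mk hφ hQ => exact isProfile_comp (hQ.fam.prof i) (contDiff_const_smul _)
  | add _ _ h h' => exact isProfile_add h h'

lemma joint (hP : Sep m P) (i : ι) : ContDiff ℝ ∞ fun z : T × R3 => P i z.1 z.2 := by
  induction hP with
  | mk hφ hQ => exact (hφ.comp contDiff_fst).smul ((hQ.fam.smooth i).comp contDiff_snd)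
  | add _ _ h h' => exact h.add h'

lemma of_fam {Q : ι → R3 → E} (hQ : Fam1 m Q) : Sep m fun i (_ : T) => Q i :=
  (Sep.mk (contDiff_const (c := (1 : ℝ))) hQ).congr fun _ _ _ => (one_smul ℝ _).symm

lemma const (hm : ∀ i, 1 ≤ m i) {Q : R3 → E} (hQ : IsProfile Q) :
    Sep m fun (_ : ι) (_ : T) => Q :=
  of_fam (Fam1.of_fixed hm hQ)

lemma zero : Sep m fun (_ : ι) (_ : T) (_ : R3) => (0 : E) := of_fam Fam1.zero

lemma clm (hP : Sep m P) (L : E →L[ℝ] F) : Sep m fun i τ q => L (P i τ q) := by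
  induction hP with
  | mk hφ hQ => exact (Sep.mk hφ (hQ.clm L)).congr fun i τ q => by rw [map_smul]
  | add _ _ h h' => exact (h.add h').congr fun i τ q => by rw [map_add]

lemma bilin (hP : Sep m P) {Q : ι → T → R3 → F} (hQ : Sep m Q) (B : E →L[ℝ] F →L[ℝ] G) :
    Sep m fun i τ q => B (P i τ q) (Q i τ q) := by
  induction hP with
  | mk hφ hP =>
    induction hQ with
    | mk hψ hQ =>
      exact (Sep.mk (hφ.mul hψ) (hP.bilin hQ B)).congr fun i τ q => by
        simp only [map_smul, _root_.smul_apply, smul_smul]; congr 1; ring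
    | add _ _ h h' => exact (h.add h').congr fun i τ q => by rw [map_add]
  | add _ _ h h' => exact (h.add h').congr fun i τ q => by rw [map_add, _root_.add_apply]

lemma pd (hP : Sep m P) (v : R2) : Sep m fun i τ => WKB.pd v (P i τ) := by
  induction hP with
  | mk hφ hQ =>
    refine (Sep.mk hφ (hQ.pd v)).congr fun i τ q => ?_
    show fderiv ℝ _ q (v, 0) = _
    rw [fderiv_fun_const_smul ((hQ.fam.smooth i).differentiable (by simp)).differentiableAt]
    rfl
  | add hP hP' h h' =>
    refine (h.add h').congr fun i τ q => ?_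
    show fderiv ℝ _ q (v, 0) = _
    rw [fderiv_fun_add ((hP.prof i τ).1.differentiable (by simp)).differentiableAt
      ((hP'.prof i τ).1.differentiable (by simp)).differentiableAt]
    rfl

lemma neg (hP : Sep m P) : Sep m fun i τ q => -P i τ q :=
  (hP.clm (-ContinuousLinearMap.id ℝ E)).congr fun i τ q => by simp

lemma sub (hP : Sep m P) {P' : ι → T → R3 → E} (hP' : Sep m P') :
    Sep m fun i τ q => P i τ q - P' i τ q :=
  (hP.add hP'.neg).congr fun i τ q => sub_eq_add_neg _ _

lemma mul {P Q : ι → T → R3 → ℝ} (hP : Sep m P) (hQ : Sep m Q) :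
    Sep m fun i τ q => P i τ q * Q i τ q :=
  hP.bilin hQ (ContinuousLinearMap.mul ℝ ℝ)

lemma smul {c : ι → T → R3 → ℝ} (hc : Sep m c) (hP : Sep m P) :
    Sep m fun i τ q => c i τ q • P i τ q :=
  hc.bilin hP (ContinuousLinearMap.lsmul ℝ ℝ)

lemma ip {P Q : ι → T → R3 → V4} (hP : Sep m P) (hQ : Sep m Q) :
    Sep m fun i τ => WKB.ip (P i τ) (Q i τ) :=
  hP.bilin hQ (innerSL ℝ)

lemma sum {κ : Type} (s : Finset κ) {P : κ → ι → T → R3 → E} (h : ∀ j ∈ s, Sep m (P j)) :
    Sep m fun i τ q => ∑ j ∈ s, P j i τ q := by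
  classical
  induction s using Finset.induction with
  | empty => simpa using (Sep.zero : Sep m fun (_ : ι) (_ : T) (_ : R3) => (0 : E))
  | insert a s ha ih =>
    refine ((h a (Finset.mem_insert_self a s)).add
      (ih fun j hj => h j (Finset.mem_insert_of_mem hj))).congr fun i τ q => ?_
    rw [Finset.sum_insert ha]

lemma meanP [CompleteSpace E] (hm : ∀ i, 1 ≤ m i) (hP : Sep m P) :
    Sep m fun i τ => WKB.meanP (P i τ) := by
  induction hP with
  | mk hφ hQ =>
    exact (Sep.mk hφ (Fam1.meanP hm hQ.fam)).congr fun i τ q => mean_smul _ _ _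
  | add hP hP' h h' =>
    exact (h.add h').congr fun i τ q =>
      mean_add (hP.prof i τ).1.continuous (hP'.prof i τ).1.continuous q.1

lemma prim [CompleteSpace E] (hm : ∀ i, 1 ≤ m i) (hP : Sep m P)
    (h0 : ∀ i τ x, mean (P i τ) x = 0) : Sep m fun i τ => Profile.prim (P i τ) := by
  suffices H : Sep m fun i τ => Profile.prim (fun q => P i τ q - WKB.meanP (P i τ) q) by
    refine H.congr fun i τ q => ?_
    congr 1
    funext z
    simp [WKB.meanP, h0]
  clear h0
  induction hP with
  | mk hφ hQ =>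
    refine (Sep.mk hφ (Fam1.prim hm (hQ.fam.sub (hQ.fam.meanP hm)) fun i x => ?_)).congr
      fun i τ q => ?_
    · rw [mean_sub (hQ.fam.smooth i).continuous
        (isProfile_meanP (hQ.fam.prof i)).1.continuous]
      exact sub_eq_zero.2 (mean_const _ x).symm
    · rw [← prim_smul]
      congr 1
      funext z
      simp [WKB.meanP, mean_smul, smul_sub]
  | add hP hP' h h' =>
    refine (h.add h').congr fun i τ q => ?_
    rw [← prim_add ((hP.prof i τ).1.sub (isProfile_meanP (hP.prof i τ)).1)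
      ((hP'.prof i τ).1.sub (isProfile_meanP (hP'.prof i τ)).1)]
    congr 1
    funext z
    simp only [WKB.meanP, mean_add (hP.prof i τ).1.continuous (hP'.prof i τ).1.continuous]
    abel

lemma exists_sum (hP : Sep m P) : ∃ (n : ℕ) (φ : Fin n → T → ℝ) (Q : Fin n → ι → R3 → E),
    (∀ j, ContDiff ℝ ∞ (φ j)) ∧ (∀ j, Fam1 m (Q j)) ∧
      ∀ i τ q, P i τ q = ∑ j, φ j τ • Q j i q := by
  induction hP with
  | mk hφ hQ => exact ⟨1, ![_], ![_], fun j => by fin_cases j; exact hφ,
      fun j => by fin_cases j; exact hQ, fun i τ q => by simp⟩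
  | add _ _ h h' =>
    obtain ⟨n, φ, Q, a, b, e⟩ := h
    obtain ⟨n', φ', Q', a', b', e'⟩ := h'
    refine ⟨n + n', Fin.append φ φ', Fin.append Q Q', fun j => ?_, fun j => ?_, fun i τ q => ?_⟩
    · induction j using Fin.addCases with
      | left i => simpa using a i
      | right i => simpa using a' i
    · induction j using Fin.addCases with
      | left i => simpa using b i
      | right i => simpa using b' i
    · simp [Fin.sum_univ_add, e, e']

variable {D : Step}

lemma ok_comb {h h' : R2 → Sym3} (hh : Ok D.K h) (hh' : Ok D.K h') (r : ℝ) :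
    Ok D.K fun p => h p + r • h' p :=
  ⟨hh.1.add (hh'.1.const_smul r), fun p hp => by simp [hh.2 p hp, hh'.2 p hp]⟩

lemma rop_sum {n : ℕ} (r : Fin n → ℝ) {h : Fin n → R2 → Sym3} (hh : ∀ j, Ok D.K (h j))
    (s : Finset (Fin n)) : Ok D.K (fun p => ∑ j ∈ s, r j • h j p) ∧
      D.R (fun p => ∑ j ∈ s, r j • h j p) = fun p => ∑ j ∈ s, r j • D.R (h j) p := by
  classical
  have hz : Ok D.K fun _ => (0 : Sym3) := ⟨smooth2_const 0, fun _ _ => rfl⟩
  induction s using Finset.induction with
  | empty =>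
    refine ⟨by simpa using hz, ?_⟩
    have e := D.R_linear _ _ 1 hz hz
    simp only [smul_zero, add_zero, one_smul] at e
    funext p
    simpa using congrFun e p
  | insert a s ha ih =>
    have e : (fun p => ∑ j ∈ insert a s, r j • h j p) =
        fun p => (∑ j ∈ s, r j • h j p) + r a • h a p :=
      funext fun p => by rw [Finset.sum_insert ha, add_comm]
    rw [e]
    refine ⟨ok_comb ih.1 (hh a) _, ?_⟩
    rw [D.R_linear _ _ _ ih.1 (hh a), ih.2]
    funext p
    rw [Finset.sum_insert ha, add_comm]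

/-- The mean corrector keeps separated families. -/
lemma rop {h : ι → T → R2 → Sym3} (hS : Sep m fun i τ => lift (h i τ))
    (hok : ∀ i τ, Ok D.K (h i τ)) : Sep m fun i τ => lift (D.R (h i τ)) := by
  obtain ⟨n, φ, Q, hφ, hQ, e⟩ := hS.exists_sum
  obtain ⟨Φ, hΦ⟩ : ∃ Φ : ι → (Fin n → ℝ) →ₗ[ℝ] (R2 → Sym3),
      ∀ i v p, Φ i v p = ∑ j, v j • Q j i (p, 0) :=
    ⟨fun i => Fintype.linearCombination ℝ (fun j p => Q j i (p, 0)), fun i v p => by
      simp [Fintype.linearCombination_apply]⟩
  obtain ⟨A, hA⟩ : ∃ A : Submodule ℝ (Fin n → ℝ),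
      A = Submodule.span ℝ (Set.range fun τ => fun j => φ j τ) := ⟨_, rfl⟩
  obtain ⟨π, hπ⟩ := LinearMap.exists_leftInverse_of_injective A.subtype A.ker_subtype
  have hAok : ∀ i, ∀ v ∈ A, Ok D.K (Φ i v) := fun i v hv => by
    subst hA
    induction hv using Submodule.span_induction with
    | mem x hx =>
      obtain ⟨τ, rfl⟩ := hx
      rw [show Φ i (fun j => φ j τ) = h i τ from
        funext fun p => (hΦ i _ p).trans (e i τ (p, 0)).symm]
      exact hok i τ
    | zero => rw [map_zero]; exact ⟨smooth2_const 0, fun _ _ => rfl⟩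
    | add x y _ _ hx hy =>
      rw [map_add, show Φ i x + Φ i y = fun p => Φ i x p + (1 : ℝ) • Φ i y p from
        funext fun p => by simp]
      exact ok_comb hx hy 1
    | smul a x _ hx =>
      rw [map_smul]
      exact ⟨hx.1.const_smul a, fun p hp => by simp [hx.2 p hp]⟩
  obtain ⟨g, hg⟩ : ∃ g : Fin n → ι → R2 → Sym3,
      g = fun j i => Φ i (π (Pi.single j 1) : Fin n → ℝ) := ⟨_, rfl⟩
  have hgok : ∀ j i, Ok D.K (g j i) := fun j i => by rw [hg]; exact hAok i _ (π _).2
  have hgfam : ∀ j, Fam m fun i => lift (g j i) := fun j => by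
    have hs := Fam.sum (Finset.univ : Finset (Fin n)) fun l _ =>
      (hQ l).fam.slice.smul_bdd (c := fun _ => ((π (Pi.single j 1) : A) : Fin n → ℝ) l)
        (fun _ => le_rfl)
    have e' : (fun i => lift (g j i)) = fun i (q : R3) =>
        ∑ l, ((π (Pi.single j 1) : A) : Fin n → ℝ) l • Q l i (q.1, 0) :=
      funext fun i => funext fun q => by simp [lift, hg, hΦ]
    rw [e']
    exact hs
  have hdec : ∀ i τ, h i τ = fun p => ∑ j, φ j τ • g j i p := fun i τ => by
    have hm : (fun j => φ j τ) ∈ A := hA ▸ Submodule.subset_span ⟨τ, rfl⟩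
    have h1 : ((π (fun j => φ j τ) : A) : Fin n → ℝ) = fun j => φ j τ :=
      congrArg Subtype.val (LinearMap.congr_fun hπ ⟨_, hm⟩)
    have h2 : (fun j => φ j τ) = ∑ j, φ j τ • (Pi.single j 1 : Fin n → ℝ) :=
      pi_eq_sum_univ' _
    funext p
    rw [show h i τ p = Φ i (fun j => φ j τ) p from (e i τ (p, 0)).trans (hΦ i _ p).symm, ← h1]
    conv_lhs => rw [h2]
    simp only [map_sum, map_smul, Submodule.coe_sum, Submodule.coe_smul_of_tower,
      Finset.sum_apply, Pi.smul_apply, hg]
  refine (sum Finset.univ fun j _ => Sep.mk (hφ j)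
    (Fam1.rop (hgok j) (hgfam j))).congr fun i τ q => ?_
  rw [hdec i τ, (rop_sum (fun j => φ j τ) (fun j => hgok j i) Finset.univ).2]
  rfl

lemma qsum {k : ℕ} {P Q : ι → T → ℕ → R3 → V4} (hP : ∀ j < k, Sep m fun i τ => P i τ j)
    (hQ : ∀ j < k, Sep m fun i τ => Q i τ j) : Sep m fun i τ => Qsum (P i τ) (Q i τ) k :=
  sum _ fun j hj => by
    obtain ⟨h1, h2⟩ := Finset.mem_Ico.1 hj
    exact (hP j h2).ip (hQ (k - j) (by omega))

end Sep

variable {D : Step} {L : LoopData D} {c : ι → T → ℕ → R3 → ℝ}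

/-- All coefficients are separated. -/
theorem separated (hm : ∀ i, 1 ≤ m i) (hc : ∀ i τ, Input D (c i τ))
    (hs : ∀ k, Sep m fun i τ => c i τ k) (k : ℕ) :
    (Sep m fun i τ => U L (c i τ) k) ∧ Sep m fun i τ => W L (c i τ) k := by
  induction k using Nat.strong_induction_on with
  | _ k ih =>
  rcases k with _ | n
  · exact ⟨Sep.const hm (isProfile_lift D.f_smooth), Sep.zero⟩
  have hX0 : Sep m fun (_ : ι) (_ : T) => L.X0 := Sep.const hm L.isProfile_X0
  have hT0 : Sep m fun (_ : ι) (_ : T) => lift (dy D.f) := Sep.const hm (isProfile_lift (smooth2_dy D.f_smooth))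
  have hT : ∀ j ≤ n, Sep m fun i τ => Tco (term L (c i τ)) j := fun j hj => (ih j (by omega)).1.pd _
  have hX : ∀ j < n, Sep m fun i τ => Xco (term L (c i τ)) j := fun j hj =>
    (ih (j + 1) (by omega)).2.add ((ih j (by omega)).1.pd _)
  have hW : Sep m fun i τ => W L (c i τ) (n + 1) := by
    rcases Nat.eq_zero_or_pos n with rfl | hn
    · simp only [zero_add, W_one]
      exact Sep.const hm L.w_prof
    have hU := (ih n (by omega)).1
    have hα : Sep m fun i τ => alpha L (term L (c i τ)) n :=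
      let h := (((hT0.ip (hU.pd (1, 0))).add (hX0.ip (hU.pd (0, 1)))).add
        (Sep.qsum hX fun j hj => hT j hj.le)).neg
      h.sub (Sep.meanP hm h)
    have hβ : Sep m fun i τ => beta L (term L (c i τ)) n :=
      let h := ((hX0.ip (hU.pd (1, 0))).add ((Sep.qsum hX hX).clm
        (ContinuousLinearMap.mul ℝ ℝ (1 / 2)))).neg
      h.sub (Sep.meanP hm h)
    have hγ : Sep m fun i τ => gamma L (term L (c i τ)) n :=
      (hα.pd _).add (Sep.sum _ fun j hj => by
        obtain ⟨h1, h2⟩ := Finset.mem_Ico.1 hj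
        exact ((ih j (by omega)).2.pd _).ip (hT (n + 1 - j) (by omega)))
    have hX' := smooth2_dx D.f_smooth
    have hσ : Sep m fun i τ => L.forced (alpha L (term L (c i τ)) n) (beta L (term L (c i τ)) n)
        (gamma L (term L (c i τ)) n) :=
      (hβ.sub ((Sep.const hm (isProfile_lift (smooth2_inner hX' L.A1_smooth))).mul hα)).sub
        ((Sep.const hm (isProfile_lift (smooth2_inner hX' L.A2_smooth))).mul hγ)
    have hF : Sep m fun i τ => L.free (L.forced (alpha L (term L (c i τ)) n) (beta L (term L (c i τ)) n)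
        (gamma L (term L (c i τ)) n)) (c i τ (n + 1)) :=
      (hs _).add (Sep.sum _ fun j _ => (Sep.const hm (L.φ_prof j)).mul
        (Sep.meanP hm ((hσ.mul (Sep.const hm (L.g_prof j))).add ((hs _).mul (Sep.const hm (L.h_prof j))))))
    simp only [W_succ L _ hn]
    exact ((hα.smul (Sep.const hm (isProfile_lift L.A1_smooth))).add
      (hγ.smul (Sep.const hm (isProfile_lift L.A2_smooth)))).add
      ((hσ.smul (Sep.const hm L.Z_prof)).add (hF.smul (Sep.const hm L.e_prof)))
  refine ⟨?_, hW⟩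
  have hP := hW.prim hm fun i τ x => (known (hc i τ) (n + 1)).mean_w _ le_rfl x
  have hX1 : ∀ j < n + 1, Sep m fun i τ => Xco (term L (c i τ)) j := fun j hj => by
    rcases (Nat.lt_succ_iff.1 hj).lt_or_eq with h | rfl
    · exact hX j h
    · exact hW.add ((ih j (by omega)).1.pd _)
  have hT1 : ∀ j < n + 1, Sep m fun i τ => Tco (term L (c i τ)) j :=
    fun j hj => hT j (Nat.lt_succ_iff.1 hj)
  have two : ∀ {P : ι → T → R3 → ℝ}, Sep m P → Sep m fun i τ q => 2 * P i τ q :=
    fun h => h.clm (ContinuousLinearMap.mul ℝ ℝ 2)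
  have h1 := Sep.meanP hm ((two (hX0.ip (hP.pd (1, 0)))).add (Sep.qsum hX1 hX1))
  have h2 := Sep.meanP hm (((hT0.ip (hP.pd (1, 0))).add (hX0.ip (hP.pd (0, 1)))).add
    (Sep.qsum hX1 hT1))
  have h3 := Sep.meanP hm ((two (hT0.ip (hP.pd (0, 1)))).add (Sep.qsum hT1 hT1))
  have hh : Sep m fun i τ => lift fun p => -hmean L (term L (c i τ)) (n + 1) p := by
    refine (((h1.clm (ContinuousLinearMap.inl ℝ ℝ (ℝ × ℝ))).add
      (((h2.clm (ContinuousLinearMap.inl ℝ ℝ ℝ)).add
        (h3.clm (ContinuousLinearMap.inr ℝ ℝ ℝ))).clm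
          (ContinuousLinearMap.inr ℝ ℝ (ℝ × ℝ)))).neg).congr fun i τ q => ?_
    simp [lift, hmean, WKB.meanP, px, py, term]
  simp only [U_succ]
  exact hP.add (Sep.rop hh fun i τ => (known (hc i τ) (n + 1)).hmean_ok L)

/-- The series is smooth in parameter and point. -/
theorem contDiff_approx_param (hm : ∀ i, 1 ≤ m i) (hc : ∀ i τ, Input D (c i τ))
    (hs : ∀ k, Sep m fun i τ => c i τ k) (i : ι) (N : ℕ) (lam : ℝ) :
    ContDiff ℝ ∞ fun z : T × R2 => approx L (c i z.1) N lam z.2 :=
  ContDiff.sum fun k _ =>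
    ((((separated (L := L) hm hc hs k).1.joint i).comp (contDiff_fst.prodMk
      (contDiff_snd.prodMk (contDiff_const.mul (contDiff_fst.comp contDiff_snd))))).const_smul _ :
      ContDiff ℝ ∞ fun z : T × R2 => (lam⁻¹) ^ k • U L (c i z.1) k (z.2, lam * z.2.1))

end

end Vale.Agent.P205.WKB
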