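import Mathlib
import Vale.Agent.P205.Full.WKB.Series

/-!
# P205: the series away from the loop and the free data

On an open set where the loop and the free data up to order `K` vanish, the coefficients up to
order `K` do not depend on the phase, so the series is close to `f` in every seminorm.
-/

namespace Vale.Agent.P205.WKB

open scoped ContDiff RealInnerProductSpace Topology
open Correction Profile intervalIntegral
open Vale.Agent.P205.Algebra

noncomputable section

/-- Independent of the phase over `O`. -/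
def Still {E : Type} (O : Set R2) (P : R3 → E) : Prop := ∀ p ∈ O, ∀ θ, P (p, θ) = P (p, 0)

variable {O : Set R2} {E : Type} [NormedAddCommGroup E] [NormedSpace ℝ E]

omit [NormedSpace ℝ E] in
lemma still_of_zero {P : R3 → E} (h : ∀ p ∈ O, ∀ θ, P (p, θ) = 0) : Still O P :=
  fun p hp θ => by rw [h p hp θ, h p hp 0]

lemma Still.ip {P Q : R3 → V4} (hP : Still O P) (hQ : Still O Q) : Still O (ip P Q) :=
  fun p hp θ => by simp only [WKB.ip, hP p hp θ, hQ p hp θ]

lemma eventually_over {q : R3} (hO : IsOpen O) (hq : q.1 ∈ O) : ∀ᶠ z in 𝓝 q, z.1 ∈ O :=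
  continuous_fst.continuousAt.preimage_mem_nhds (hO.mem_nhds hq)

lemma pd_zero_over (hO : IsOpen O) {P : R3 → E} (h : ∀ p ∈ O, ∀ θ, P (p, θ) = 0) (v : R2)
    {p : R2} (hp : p ∈ O) (θ : ℝ) : pd v P (p, θ) = 0 := by
  have e : P =ᶠ[𝓝 (p, θ)] fun _ => 0 := (eventually_over hO hp).mono fun z hz => h _ hz _
  show fderiv ℝ P (p, θ) (v, 0) = 0
  rw [e.fderiv_eq, fderiv_fun_const]
  rfl

lemma Still.pd (hO : IsOpen O) {P : R3 → E} (hs : ContDiff ℝ ∞ P) (hP : Still O P) (v : R2) :
    Still O (pd v P) := fun p hp θ => by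
  obtain ⟨g, hg⟩ : ∃ g : R2 → E, g = fun p => P (p, 0) := ⟨_, rfl⟩
  have hd : Differentiable ℝ g := by
    rw [hg]; exact ((hs.comp (contDiff_id.prodMk contDiff_const)).differentiable (by simp) :)
  have e : ∀ t, WKB.pd v P (p, t) = fderiv ℝ g p v := fun t => by
    have he : P =ᶠ[𝓝 (p, t)] fun z => g z.1 := (eventually_over hO hp).mono fun z hz => by
      rw [hg]; exact hP _ hz _
    show fderiv ℝ P (p, t) (v, 0) = _
    rw [he.fderiv_eq, show fderiv ℝ (fun z : R3 => g z.1) (p, t) =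
      (fderiv ℝ g p).comp (ContinuousLinearMap.fst ℝ R2 ℝ) from
        ((hd p).hasFDerivAt.comp (p, t) hasFDerivAt_fst).fderiv]
    rfl
  rw [e θ, e 0]

lemma sub_meanP_still {P : R3 → ℝ} (hP : Still O P) {p : R2} (hp : p ∈ O) (θ : ℝ) :
    P (p, θ) - meanP P (p, θ) = 0 := by
  simp [meanP, mean, hP p hp]

lemma still_qsum {k : ℕ} {P Q : ℕ → R3 → V4} (hP : ∀ i < k, Still O (P i))
    (hQ : ∀ i < k, Still O (Q i)) : Still O (Qsum P Q k) := fun p hp θ =>
  Finset.sum_congr rfl fun i hi => by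
    obtain ⟨h1, h2⟩ := Finset.mem_Ico.1 hi
    exact (hP i h2).ip (hQ (k - i) (by omega)) p hp θ

variable {D : Step} {L : LoopData D} {c : ℕ → R3 → ℝ}

/-- Where loop and data vanish, nothing oscillates. -/
theorem still (hc : Input D c) (hO : IsOpen O) (hw : ∀ p ∈ O, ∀ θ, L.w (p, θ) = 0) {K : ℕ}
    (hc0 : ∀ j ≤ K, ∀ p ∈ O, ∀ θ, c j (p, θ) = 0) :
    ∀ k ≤ K, (∀ p ∈ O, ∀ θ, W L c k (p, θ) = 0) ∧ Still O (U L c k) := by
  intro k
  induction k using Nat.strong_induction_on with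
  | _ k ih =>
  intro hk
  rcases k with _ | n
  · exact ⟨fun p _ θ => by rw [W_zero], fun p _ θ => rfl⟩
  have hX0 : Still O L.X0 := fun p hp θ => by
    simp [LoopData.X0, hw p hp]
  have hf : Still O (lift (dy D.f)) := fun p _ θ => rfl
  have hU : ∀ i ≤ n, Still O (U L c i) := fun i hi => (ih i (by omega) (by omega)).2
  have hUd : ∀ i ≤ n, ∀ v, Still O (pd v (U L c i)) := fun i hi v =>
    (hU i hi).pd hO (U_prof hc i).1 v
  have hW : ∀ p ∈ O, ∀ θ, W L c (n + 1) (p, θ) = 0 := by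
    rcases Nat.eq_zero_or_pos n with rfl | hn
    · intro p hp θ; rw [W_one]; exact hw p hp θ
    have hX : ∀ i < n, Still O (Xco (term L c) i) := fun i hi p hp θ => by
      show W L c (i + 1) (p, θ) + px (U L c i) (p, θ) = W L c (i + 1) (p, 0) + px (U L c i) (p, 0)
      rw [(ih (i + 1) (by omega) (by omega)).1 p hp, (ih (i + 1) (by omega) (by omega)).1 p hp]
      exact congrArg _ (hUd i hi.le (1, 0) p hp θ)
    have hT : ∀ i < n, Still O (Tco (term L c) i) := fun i hi => hUd i hi.le (0, 1)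
    have ha : ∀ p ∈ O, ∀ θ, alpha L (term L c) n (p, θ) = 0 := fun p hp θ =>
      sub_meanP_still (fun p hp θ => by
        exact congrArg Neg.neg (congrArg₂ (· + ·) (congrArg₂ (· + ·)
          ((hf.ip (hUd n le_rfl (1, 0))) p hp θ) ((hX0.ip (hUd n le_rfl (0, 1))) p hp θ))
          (still_qsum hX hT p hp θ))) hp θ
    have hb : ∀ p ∈ O, ∀ θ, beta L (term L c) n (p, θ) = 0 := fun p hp θ =>
      sub_meanP_still (fun p hp θ => by
        exact congrArg Neg.neg (congrArg₂ (· + ·) ((hX0.ip (hUd n le_rfl (1, 0))) p hp θ)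
          (congrArg ((1 / 2 : ℝ) * ·) (still_qsum hX hX p hp θ)))) hp θ
    have hg : ∀ p ∈ O, ∀ θ, gamma L (term L c) n (p, θ) = 0 := fun p hp θ => by
      show py (alpha L (term L c) n) (p, θ) + _ = 0
      rw [py, pd_zero_over hO ha (0, 1) hp, zero_add]
      refine Finset.sum_eq_zero fun i hi => ?_
      obtain ⟨-, h2⟩ := Finset.mem_Ico.1 hi
      rw [WKB.ip, py, show (term L c i).w = W L c i from rfl,
        pd_zero_over hO (ih i (by omega) (by omega)).1 (0, 1) hp, inner_zero_left]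
    intro p hp θ
    rw [W_succ L c hn]
    simp [LoopData.sol, LoopData.free, LoopData.forced, meanP, mean, ha p hp, hb p hp, hg p hp,
      hc0 _ hk p hp]
  refine ⟨hW, fun p hp θ => ?_⟩
  rw [U_succ]
  simp [nextU, term, Profile.prim, Profile.prim0, mean, hW p hp]

/-- The series over the still set is slow up to order `K`. -/
lemma approx_still (hc : Input D c) (hO : IsOpen O) (hw : ∀ p ∈ O, ∀ θ, L.w (p, θ) = 0) {K N : ℕ}
    (hc0 : ∀ j ≤ K, ∀ p ∈ O, ∀ θ, c j (p, θ) = 0) (hN : N + 1 ≤ K) (lam : ℝ) {p : R2}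
    (hp : p ∈ O) : approx L c N lam p - D.f p =
      ∑ k ∈ Finset.range (N + 1), (lam⁻¹) ^ (k + 1) • U L c (k + 1) (p, 0) := by
  rw [approx_sub]
  refine Finset.sum_congr rfl fun k hk => ?_
  rw [(still hc hO hw hc0 (k + 1) (by have := Finset.mem_range.1 hk; omega)).2 p hp]

end

end Vale.Agent.P205.WKB
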