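import Mathlib
import Vale.Agent.P205.Full.WKB.Aniso
import Vale.Agent.P205.Full.WKB.Separated
import Vale.Agent.P205.Full.WKB.Still

/-!
# P205: the series along high frequency free data

The free component at one order is `eps * ∑ τ j * ∂θ A j` at an integral frequency `M` of the phase.
The variation in `τ` is of size `eps / M * lam ^ (-k0)` and changes the metric only at the order of
the truncation.
-/

namespace Vale.Agent.P205.WKB

open scoped ContDiff RealInnerProductSpace Topology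
open Correction Profile Filter
open Vale.Agent.P205.Algebra

noncomputable section

variable {ι : Type} {m δ : ι → ℝ} {E : Type} [NormedAddCommGroup E] [NormedSpace ℝ E]

/-- A profile at an integral frequency. -/
def freq (M : ℕ) (Q : R3 → E) (q : R3) : E := Q (q.1, (M : ℝ) * q.2)

lemma isProfile_freq {Q : R3 → E} (hQ : IsProfile Q) (M : ℕ) : IsProfile (freq M Q) := by
  refine ⟨hQ.1.comp (contDiff_fst.prodMk (contDiff_const.mul contDiff_snd)), fun z => ?_⟩
  obtain ⟨h1, h2, -⟩ := hQ.2 (z.1, (M : ℝ) * z.2)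
  refine ⟨?_, ?_, ?_⟩
  · simpa [freq, mul_add] using h1
  · simpa [freq, mul_add] using h2
  · have e := (phase_periodic hQ z.1).nat_mul M ((M : ℝ) * z.2)
    simp only [mul_one] at e
    simpa [freq, mul_add, Prod.mk_zero_zero] using e

lemma dPhase_freq {Q : R3 → E} (hQ : IsProfile Q) (M : ℕ) :
    dPhase (freq M Q) = fun q => (M : ℝ) • freq M (dPhase Q) q := funext fun q => by
  obtain ⟨L, hL⟩ : ∃ L : R3 →L[ℝ] R3, L = (ContinuousLinearMap.fst ℝ R2 ℝ).prod
      ((M : ℝ) • ContinuousLinearMap.snd ℝ R2 ℝ) := ⟨_, rfl⟩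
  have e : freq M Q = Q ∘ L := funext fun y => by simp [freq, hL]
  rw [dPhase, e, fderiv_comp q (hQ.1.differentiable (by simp) _) L.differentiableAt,
    ContinuousLinearMap.fderiv, ContinuousLinearMap.comp_apply, hL]
  simp only [ContinuousLinearMap.prod_apply, ContinuousLinearMap.coe_fst', _root_.smul_apply,
    ContinuousLinearMap.coe_snd', freq, dPhase]
  rw [← map_smul]
  congr 1
  simp

lemma isProfile_dPhase {Q : R3 → E} (hQ : IsProfile Q) : IsProfile (dPhase Q) :=
  isProfile_comp (isProfile_fderiv hQ) (ContinuousLinearMap.apply ℝ E ((0, 1) : R3)).contDiff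

/-- A profile at a frequency below the scale is a bounded family. -/
lemma Fam.freq (hm : ∀ i, 1 ≤ m i) {M : ι → ℕ} (hM : ∀ i, (M i : ℝ) ≤ m i) {Q : R3 → E}
    (hQ : IsProfile Q) : Fam m fun i => WKB.freq (M i) Q := by
  refine ⟨fun i => isProfile_freq hQ _, fun n => ?_⟩
  obtain ⟨C, hC⟩ := hQ.bound n
  refine ⟨max C 0, fun i q => ?_⟩
  obtain ⟨T, hT⟩ : ∃ T : R3 →L[ℝ] R3, T = (ContinuousLinearMap.fst ℝ R2 ℝ).prod
      (((M i : ℝ) * (m i)⁻¹) • ContinuousLinearMap.snd ℝ R2 ℝ) := ⟨_, rfl⟩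
  have hr : |(M i : ℝ) * (m i)⁻¹| ≤ 1 := by
    have h1 := hm i
    rw [abs_of_nonneg (by positivity), ← div_eq_mul_inv, div_le_one (by linarith)]
    exact hM i
  have hn : ‖T‖ ≤ 1 := by
    refine T.opNorm_le_bound zero_le_one fun w => ?_
    rw [one_mul, hT, ContinuousLinearMap.prod_apply, Prod.norm_def, Prod.norm_def]
    refine max_le_max le_rfl ?_
    simp only [_root_.smul_apply, ContinuousLinearMap.coe_snd', smul_eq_mul, Real.norm_eq_abs,
      abs_mul (_ * _)]
    exact mul_le_of_le_one_left (abs_nonneg _) hr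
  rw [show (fun q => WKB.freq (M i) Q (scl (m i) q)) = Q ∘ T from funext fun q => by
      simp [WKB.freq, hT, mul_assoc],
    T.iteratedFDeriv_comp_right hQ.1 q (by exact_mod_cast le_top)]
  refine ((iteratedFDeriv ℝ n Q (T q)).norm_compContinuousLinearMap_le _).trans ?_
  rw [Finset.prod_const, Finset.card_univ, Fintype.card_fin]
  exact (mul_le_mul ((hC _).trans (le_max_left _ _)) (pow_le_one₀ (norm_nonneg _) hn)
    (by positivity) (le_max_right _ _)).trans_eq (mul_one _)

/-- The phase derivative of a bounded family divided by the frequency is bounded. -/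
lemma Fam.dph_div {P : ι → R3 → E} (hP : Fam m P) :
    Fam m fun i q => (m i)⁻¹ • dPhase (P i) q := by
  refine ⟨fun i => isProfile_comp (isProfile_dPhase (hP.prof i)) (contDiff_const_smul _),
    fun n => ?_⟩
  obtain ⟨C, hC0, hC⟩ := hP.bdd.nonneg (n + 1)
  refine ⟨‖ContinuousLinearMap.apply ℝ E ((0, 1) : R3)‖ * C, fun i q => ?_⟩
  have h : (fun q => (m i)⁻¹ • dPhase (P i) (scl (m i) q)) = fun q =>
      ContinuousLinearMap.apply ℝ E ((0, 1) : R3) (fderiv ℝ (fun q => P i (scl (m i) q)) q) :=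
    funext fun q => by
      rw [fderiv_comp_scl (hP.smooth i)]
      simp [dPhase, ← map_smul]
  rw [h]
  refine ((ContinuousLinearMap.apply ℝ E ((0, 1) : R3)).norm_iteratedFDeriv_comp_left
    (((hP.smooth_scl i).fderiv_right (m := ∞) le_rfl).contDiffAt)
    (by exact_mod_cast le_top)).trans (mul_le_mul_of_nonneg_left ?_ (norm_nonneg _))
  exact norm_iteratedFDeriv_fderiv.trans_le (hC i q)

/-- A small family is `δ * m` times a bounded one. -/
lemma Small.fam (hm : ∀ i, 1 ≤ m i) {P : ι → R3 → E} (hP : Small m δ P) :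
    ∃ Q : ι → R3 → E, Fam m Q ∧ ∀ i q, P i q = (δ i * m i) • Q i q := by
  obtain ⟨A, B, hA, hB, e⟩ := hP
  refine ⟨_, hA.dph_div.add (hB.smul_bdd (c := fun i => (m i)⁻¹) (B := 1) fun i => ?_),
    fun i q => ?_⟩
  · have := hm i
    rw [abs_of_nonneg (by positivity)]
    exact inv_le_one_of_one_le₀ this
  · have : m i ≠ 0 := by linarith [hm i]
    simp only [e, smul_add, smul_smul, mul_assoc, mul_inv_cancel₀ this, mul_one]

variable {D : Step} {L : LoopData D}

/-- The coefficients up to an order depend on the free data up to that order. -/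
theorem congr_data {c c' : ℕ → R3 → ℝ} (k : ℕ) (h : ∀ j ≤ k, c j = c' j) :
    U L c k = U L c' k ∧ W L c k = W L c' k := by
  induction k using Nat.strong_induction_on with
  | _ k ih =>
  rcases k with _ | n
  · exact ⟨rfl, rfl⟩
  have hu : ∀ i ≤ n, (term L c i).u = (term L c' i).u := fun i hi =>
    (ih i (by omega) fun j hj => h j (by omega)).1
  have hw : ∀ i ≤ n, (term L c i).w = (term L c' i).w := fun i hi =>
    (ih i (by omega) fun j hj => h j (by omega)).2
  have hW : W L c (n + 1) = W L c' (n + 1) := by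
    rcases Nat.eq_zero_or_pos n with rfl | hn
    · simp only [zero_add, W_one]
    obtain ⟨e1, e2, e3⟩ := cond_congr L hw hu
    rw [W_succ L c hn, W_succ L c' hn, h (n + 1) le_rfl, e1, e2, e3]
  refine ⟨?_, hW⟩
  rw [U_succ, U_succ]
  have hw' : ∀ i ≤ n + 1, (term L c i).w = (term L c' i).w := fun i hi => by
    rcases hi.lt_or_eq with hi | rfl
    · exact hw i (by omega)
    · exact hW
  funext q
  simp only [nextU, hw' (n + 1) le_rfl, hmean_congr L hw' fun i hi => hu i (by omega)]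

/-- The three products of the coefficient pairs have a small difference. -/
lemma small_triple {X X' Y Y' X₂ X₂' Y₂ Y₂' : ι → R3 → V4} (hX : Pair m δ X X')
    (hX₂ : Pair m δ X₂ X₂') (hY : Pair m δ Y Y') (hY₂ : Pair m δ Y₂ Y₂') :
    Small m δ fun i q => ((ip (X' i) (X₂' i) q, ip (X' i) (Y₂' i) q, ip (Y' i) (Y₂' i) q) : Sym3) -
      (ip (X i) (X₂ i) q, ip (X i) (Y₂ i) q, ip (Y i) (Y₂ i) q) := by
  have h := ((hX.ip hX₂).clm (ContinuousLinearMap.inl ℝ ℝ (ℝ × ℝ))).add
    ((((hX.ip hY₂).clm (ContinuousLinearMap.inl ℝ ℝ ℝ)).add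
      ((hY.ip hY₂).clm (ContinuousLinearMap.inr ℝ ℝ ℝ))).clm
        (ContinuousLinearMap.inr ℝ ℝ (ℝ × ℝ)))
  exact h.dif.congr fun i q => by simp

/-- A difference of two sums of smooth maps. -/
lemma pd_sub_eq {f g : R2 → E} (hf : ContDiff ℝ ∞ f) (hg : ContDiff ℝ ∞ g) (a b : ℕ) (x : R2) :
    Generic.pd a b f x - Generic.pd a b g x = Generic.pd a b (fun y => f y - g y) x := by
  have e := Generic.pd_add (f := fun y => f y - g y) (g := g) isOpen_univ (hf.sub hg).contDiffOn
    hg.contDiffOn a b (Set.mem_univ x)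
  rw [show ((fun y => f y - g y) + g) = f from funext fun y => sub_add_cancel _ _,
    Pi.add_apply] at e
  rw [e, add_sub_cancel_right]

/-- A bound on differences at parameter distance below one gives one on the derivative. -/
lemma deriv_of_sub {T : Type} [NormedAddCommGroup T] [NormedSpace ℝ T] {G : T → R2 → E}
    (hG : ContDiff ℝ ∞ fun z : T × R2 => G z.1 z.2) (a b : ℕ) (τ w : T) (x : R2) {C : ℝ}
    (hC : 0 ≤ C) (h : ∀ σ, ‖σ - τ‖ < 1 →
      ‖Generic.pd a b (fun y => G σ y - G τ y) x‖ ≤ C * ‖σ - τ‖) :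
    ‖Generic.pd a b (fun x => fderiv ℝ (fun z : T × R2 => G z.1 z.2) (τ, x) (w, 0)) x‖
      ≤ C * ‖w‖ := by
  refine pd_deriv_le hG a b τ w x hC ?_
  filter_upwards [Metric.ball_mem_nhds τ one_pos] with σ hσ
  rw [Metric.mem_ball, dist_eq_norm] at hσ
  have hd : ∀ τ, ContDiff ℝ ∞ (G τ) := fun τ => hG.comp (contDiff_const.prodMk contDiff_id)
  show ‖Generic.pd a b (G σ) x - Generic.pd a b (G τ) x‖ ≤ _
  rw [pd_sub_eq (hd σ) (hd τ)]
  exact h σ hσ

/-- The phase derivative of a combination at frequencies. -/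
lemma dPhase_comb {κ : Type} (s : Finset κ) (r : κ → ℝ) (M : κ → ℕ) {Q : κ → R3 → ℝ}
    (hQ : ∀ j, IsProfile (Q j)) :
    dPhase (fun q => ∑ j ∈ s, r j • freq (M j) (Q j) q) =
      fun q => ∑ j ∈ s, r j * ((M j : ℝ) * freq (M j) (dPhase (Q j)) q) := funext fun q => by
  have hd : ∀ j, DifferentiableAt ℝ (freq (M j) (Q j)) q := fun j =>
    (isProfile_freq (hQ j) (M j)).1.differentiable (by simp) q
  rw [dPhase, fderiv_fun_sum (A := fun j q => r j • freq (M j) (Q j) q)
    fun j _ => (hd j).fun_const_smul (r j), sum_apply]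
  refine Finset.sum_congr rfl fun j _ => ?_
  rw [fderiv_fun_const_smul (hd j), _root_.smul_apply,
    show fderiv ℝ (freq (M j) (Q j)) q (0, 1) = _ from congrFun (dPhase_freq (hQ j) (M j)) q]
  simp only [smul_eq_mul]

/-- The free data: the phase primitives of the directions and the order. -/
structure FreeData (D : Step) (κ : Type) where
  /-- the primitives -/
  A : κ → R3 → ℝ
  /-- the order -/
  k0 : ℕ
  A_prof : ∀ j, IsProfile (A j)
  A_zero : ∀ j, ∀ p ∉ D.K, ∀ θ, A j (p, θ) = 0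
  one_le : 1 ≤ k0

namespace FreeData

variable {κ : Type} [Fintype κ] (Φ : FreeData D κ)

/-- The free component: every direction has its own frequency and amplitude. -/
def data (M : κ → ℕ) (eps τ : κ → ℝ) (k : ℕ) (q : R3) : ℝ :=
  if k = Φ.k0 then ∑ j, eps j * τ j * freq (M j) (dPhase (Φ.A j)) q else 0

variable (L) in
/-- The approximant. -/
def H (N : ℕ) (lam : ℝ) (M : κ → ℕ) (eps τ : κ → ℝ) : R2 → V4 :=
  approx L (Φ.data M eps τ) N lam

/-- Frequencies below a top one. -/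
structure Top (κ : Type) where
  /-- frequencies -/
  M : κ → ℕ
  /-- top frequency -/
  top : ℕ
  one_le_top : 1 ≤ top
  one_le_M : ∀ j, 1 ≤ M j
  M_le : ∀ j, M j ≤ top

/-- Frequencies, amplitudes and two parameters. -/
structure Ix (κ : Type) [Fintype κ] extends Top κ where
  /-- amplitudes -/
  eps : κ → ℝ
  /-- parameter -/
  τ : κ → ℝ
  /-- second parameter -/
  τ' : κ → ℝ
  eps_nonneg : ∀ j, 0 ≤ eps j
  eps_mul : ∀ j, eps j * M j ≤ 1
  norm_le : ‖τ‖ ≤ 8
  norm_le' : ‖τ'‖ ≤ 8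

/-- The scale of an index. -/
def scale (i : Top κ) : ℝ := i.top

omit [Fintype κ] in
lemma one_le_scale (i : Top κ) : 1 ≤ scale i := by unfold scale; exact_mod_cast i.one_le_top

omit [Fintype κ] in
lemma M_pos (i : Top κ) (j : κ) : (0 : ℝ) < i.M j := by exact_mod_cast i.one_le_M j

lemma isProfile_data (M : κ → ℕ) (eps τ : κ → ℝ) (k : ℕ) : IsProfile (Φ.data M eps τ k) := by
  by_cases hk : k = Φ.k0
  · have e : Φ.data M eps τ k = fun q => ∑ j, eps j * τ j * freq (M j) (dPhase (Φ.A j)) q :=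
      funext fun q => by simp [data, hk]
    rw [e]
    exact isProfile_sum _ fun j _ => isProfile_comp (isProfile_freq
      (isProfile_dPhase (Φ.A_prof j)) (M j)) (contDiff_const.mul contDiff_id)
  · have e : Φ.data M eps τ k = fun _ => 0 := funext fun q => by simp [data, hk]
    rw [e]
    exact ⟨contDiff_const, fun _ => ⟨rfl, rfl, rfl⟩⟩

omit [Fintype κ] in
lemma dPhase_A_zero (j : κ) {p : R2} (hp : p ∉ D.K) (θ : ℝ) : dPhase (Φ.A j) (p, θ) = 0 := by
  have e : Φ.A j =ᶠ[𝓝 (p, θ)] fun _ => 0 :=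
    (eventually_over (q := ((p, θ) : R3)) D.K_closed.isOpen_compl
      (show p ∈ D.Kᶜ from hp)).mono fun z hz => Φ.A_zero j z.1 hz z.2
  rw [dPhase, e.fderiv_eq, fderiv_fun_const]
  rfl

lemma input (M : κ → ℕ) (eps τ : κ → ℝ) : Input D (Φ.data M eps τ) := fun k =>
  ⟨Φ.isProfile_data M eps τ k, fun p hp θ => by simp [data, freq, Φ.dPhase_A_zero _ hp]⟩

lemma data_congr (M : κ → ℕ) (eps τ : κ → ℝ) (M' : κ → ℕ) (eps' τ' : κ → ℝ) {k : ℕ}
    (hk : k < Φ.k0) : Φ.data M eps τ k = Φ.data M' eps' τ' k := funext fun q => by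
  simp [data, hk.ne]

/-- Frequency and amplitude of a silent direction do not matter. -/
lemma data_silent {M M' : κ → ℕ} {eps τ : κ → ℝ} (h : ∀ j, τ j = 0 ∨ M j = M' j) (k : ℕ) :
    Φ.data M eps τ k = Φ.data M' eps τ k := funext fun q => by
  simp only [data]
  refine if_congr Iff.rfl (Finset.sum_congr rfl fun j _ => ?_) rfl
  rcases h j with h | h
  · simp [h]
  · rw [h]

/-- The normalised form: amplitudes are inverse frequencies. -/
def unit (M : κ → ℕ) (j : κ) : ℝ := ((M j : ℝ))⁻¹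

omit [Fintype κ] in
lemma unit_mul (i : Top κ) (j : κ) : unit i.M j * i.M j = 1 :=
  inv_mul_cancel₀ (M_pos i j).ne'

lemma data_unit (i : Top κ) (eps τ : κ → ℝ) :
    Φ.data i.M eps τ = Φ.data i.M (unit i.M) fun j => eps j * i.M j * τ j := by
  funext k q
  simp only [data]
  refine if_congr Iff.rfl (Finset.sum_congr rfl fun j _ => ?_) rfl
  rw [show unit i.M j * (eps j * i.M j * τ j) = unit i.M j * i.M j * (eps j * τ j) by ring, unit_mul,
    one_mul]

lemma fam_unit (j : κ) : Fam1 scale fun (i : Top κ) q =>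
    unit i.M j * freq (i.M j) (dPhase (Φ.A j)) q := by
  have hQ := isProfile_dPhase (Φ.A_prof j)
  have hM : ∀ i : Top κ, (i.M j : ℝ) ≤ scale i := fun i => by
    unfold scale; exact_mod_cast i.M_le j
  have hb : ∀ i : Top κ, |unit i.M j| ≤ 1 := fun i => by
    rw [unit, abs_inv, abs_of_pos (M_pos i j)]
    exact inv_le_one_of_one_le₀ (by exact_mod_cast i.one_le_M j)
  refine ⟨(Fam.freq one_le_scale hM hQ).smul_bdd hb, ?_⟩
  have e : (fun i : Top κ => dPhase fun q => unit i.M j * freq (i.M j) (dPhase (Φ.A j)) q) =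
      fun i => freq (i.M j) (dPhase (dPhase (Φ.A j))) := funext fun i => funext fun q => by
    have h := congrFun (dPhase_comb ({()} : Finset Unit) (fun _ => unit i.M j)
      (fun _ => i.M j) (Q := fun _ => dPhase (Φ.A j)) fun _ => hQ) q
    simp only [Finset.sum_singleton, smul_eq_mul] at h
    rw [h, ← mul_assoc, unit_mul, one_mul]
  rw [e]
  exact Fam.freq one_le_scale hM (isProfile_dPhase hQ)

/-- The normalised data are separated. -/
lemma sep_unit (k : ℕ) :
    Sep scale fun (i : Top κ) (σ : κ → ℝ) => Φ.data i.M (unit i.M) σ k := by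
  by_cases hk : k = Φ.k0
  · refine (Sep.sum Finset.univ fun j _ => Sep.mk (φ := fun σ : κ → ℝ => σ j)
      (contDiff_apply ℝ ℝ j) (Φ.fam_unit j)).congr fun i σ q => ?_
    simp only [data, if_pos hk, smul_eq_mul]
    exact Finset.sum_congr rfl fun j _ => by ring
  · exact Sep.zero.congr fun i σ q => by simp [data, hk]

/-- The size of the difference. -/
def gap (i : Ix κ) : ℝ := ∑ j, i.eps j / i.M j * |i.τ' j - i.τ j|

lemma gap_nonneg (i : Ix κ) : 0 ≤ gap i :=
  Finset.sum_nonneg fun j _ => mul_nonneg (div_nonneg (i.eps_nonneg j) (Nat.cast_nonneg _))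
    (abs_nonneg _)

/-- The normalised direction. -/
def dirv (i : Ix κ) (j : κ) : ℝ := i.eps j / i.M j * (i.τ' j - i.τ j) / gap i

lemma gap_dir (i : Ix κ) (j : κ) : gap i * dirv i j = i.eps j / i.M j * (i.τ' j - i.τ j) := by
  rcases eq_or_ne (gap i) 0 with h | h
  · have h0 := (Finset.sum_eq_zero_iff_of_nonneg fun j _ => mul_nonneg
      (div_nonneg (i.eps_nonneg j) (Nat.cast_nonneg _)) (abs_nonneg _)).1 h j (Finset.mem_univ j)
    rw [h, zero_mul]
    rcases mul_eq_zero.1 h0 with e | e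
    · rw [e, zero_mul]
    · rw [abs_eq_zero.1 e, mul_zero]
  · rw [dirv, mul_div_cancel₀ _ h]

lemma norm_dir (i : Ix κ) (j : κ) : |dirv i j| ≤ 1 := by
  rw [dirv, abs_div, abs_of_nonneg (gap_nonneg i), abs_mul,
    abs_of_nonneg (div_nonneg (i.eps_nonneg j) (Nat.cast_nonneg _))]
  exact div_le_one_of_le₀ (Finset.single_le_sum (f := fun j => i.eps j / i.M j * |i.τ' j - i.τ j|)
    (fun j _ => mul_nonneg (div_nonneg (i.eps_nonneg j) (Nat.cast_nonneg _)) (abs_nonneg _))
    (Finset.mem_univ j)) (gap_nonneg i)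

lemma fam1 {τ : Ix κ → κ → ℝ} (hτ : ∀ i, ‖τ i‖ ≤ 8) (k : ℕ) :
    Fam1 (fun i : Ix κ => scale i.toTop) fun i => Φ.data i.M i.eps (τ i) k := by
  by_cases hk : k = Φ.k0
  swap
  · have e : (fun i : Ix κ => Φ.data i.M i.eps (τ i) k) = fun _ _ => 0 :=
      funext fun i => funext fun q => by simp [data, hk]
    rw [e]
    exact Fam1.zero
  have hM : ∀ j (i : Ix κ), (i.M j : ℝ) ≤ scale i.toTop := fun j i => by
    unfold scale; exact_mod_cast i.M_le j
  have hm : ∀ i : Ix κ, 1 ≤ scale i.toTop := fun i => one_le_scale _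
  have hc : ∀ j (i : Ix κ), |i.eps j * i.M j * τ i j| ≤ 8 := fun j i => by
    rw [abs_mul, abs_of_nonneg (mul_nonneg (i.eps_nonneg j) (Nat.cast_nonneg _))]
    exact (mul_le_mul (i.eps_mul j) ((norm_le_pi_norm (τ i) j).trans (hτ i)) (abs_nonneg _)
      zero_le_one).trans_eq (one_mul _)
  have hc' : ∀ j (i : Ix κ), |i.eps j * τ i j| ≤ 8 := fun j i => by
    refine le_trans ?_ (hc j i)
    rw [show i.eps j * i.M j * τ i j = i.eps j * τ i j * i.M j by ring, abs_mul (_ * _),
      abs_of_nonneg (Nat.cast_nonneg (α := ℝ) (i.M j))]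
    exact le_mul_of_one_le_right (abs_nonneg _) (by exact_mod_cast i.one_le_M j)
  have hQ : ∀ j, IsProfile (dPhase (Φ.A j)) := fun j => isProfile_dPhase (Φ.A_prof j)
  have e : (fun i : Ix κ => Φ.data i.M i.eps (τ i) k) =
      fun i q => ∑ j, (i.eps j * τ i j) • freq (i.M j) (dPhase (Φ.A j)) q :=
    funext fun i => funext fun q => by simp [data, hk]
  have hd : ∀ i : Ix κ,
      dPhase (fun q => ∑ j, (i.eps j * τ i j) • freq (i.M j) (dPhase (Φ.A j)) q) =
      fun q => ∑ j, (i.eps j * i.M j * τ i j) • freq (i.M j) (dPhase (dPhase (Φ.A j))) q :=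
    fun i => by
      rw [dPhase_comb _ _ _ hQ]
      funext q
      exact Finset.sum_congr rfl fun j _ => by simp only [smul_eq_mul]; ring
  rw [e]
  refine ⟨Fam.sum _ fun j _ => (Fam.freq hm (hM j) (hQ j)).smul_bdd (hc' j), ?_⟩
  rw [funext hd]
  exact Fam.sum _ fun j _ => (Fam.freq hm (hM j) (isProfile_dPhase (hQ j))).smul_bdd (hc j)

/-- The two data form a pair. -/
lemma pair (k : ℕ) : Pair (fun i : Ix κ => scale i.toTop) gap
    (fun i => Φ.data i.M i.eps i.τ k) fun i => Φ.data i.M i.eps i.τ' k := by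
  refine ⟨Φ.fam1 (fun i => i.norm_le) k, Φ.fam1 (fun i => i.norm_le') k, ?_⟩
  by_cases hk : k = Φ.k0
  swap
  · exact (Tiny.small Tiny.zero).congr fun i q => by simp [data, hk]
  refine ⟨fun i q => ∑ j, dirv i j • freq (i.M j) (Φ.A j) q, fun _ _ => 0,
    Fam.sum _ fun j _ => (Fam.freq (fun i : Ix κ => one_le_scale _)
      (fun i => by unfold scale; exact_mod_cast i.M_le j) (Φ.A_prof j)).smul_bdd (norm_dir · j),
    Fam.zero, fun i q => ?_⟩
  rw [congrFun (dPhase_comb _ _ _ Φ.A_prof) q, add_zero, smul_eq_mul, Finset.mul_sum]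
  simp only [data, if_pos hk]
  rw [← Finset.sum_sub_distrib]
  refine Finset.sum_congr rfl fun j _ => ?_
  have := (M_pos i.toTop j).ne'
  rw [← mul_assoc, gap_dir]
  field_simp

/-- The difference in the parameter. -/
theorem diff_bound (N a b : ℕ) : ∃ C, 0 ≤ C ∧ ∀ (i : Ix κ) (lam : ℝ), 1 ≤ lam → ∀ x,
    ‖Generic.pd a b (fun x => Φ.H L N lam i.M i.eps i.τ' x - Φ.H L N lam i.M i.eps i.τ x) x‖
      ≤ C * gap i * (i.top * lam) ^ a * (lam⁻¹) ^ Φ.k0 := by
  classical
  have hm : ∀ i : Ix κ, 1 ≤ scale i.toTop := fun i => one_le_scale _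
  have hb := bounded (L := L) hm (fun i : Ix κ => Φ.input i.M i.eps i.τ)
    (fun i => Φ.input i.M i.eps i.τ') Φ.pair
  choose! B hB eB using fun k (hk : 1 ≤ k) => (hb k).2.2 hk
  obtain ⟨C, hC0, hC⟩ := sum_pd hm
    ((Finset.range (N + 2)).filter fun k => Φ.k0 ≤ k) (d := fun k => k) (K := Φ.k0)
    (fun k hk => (Finset.mem_filter.1 hk).2) (G := B)
    (fun k hk => hB k (Φ.one_le.trans (Finset.mem_filter.1 hk).2)) a b
  refine ⟨C, hC0, fun i lam hlam x => ?_⟩
  obtain ⟨s, hs⟩ : ∃ s : R2 → V4, s = fun p => ∑ k ∈ (Finset.range (N + 2)).filter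
    (fun k => Φ.k0 ≤ k), (lam⁻¹) ^ k • B k i (p, lam * p.1) := ⟨_, rfl⟩
  have hss : ContDiff ℝ ∞ s := hs ▸ ContDiff.sum fun k hk =>
    (contDiff_along ((hB k (Φ.one_le.trans (Finset.mem_filter.1 hk).2)).smooth i) lam).const_smul _
  have e : (fun x => Φ.H L N lam i.M i.eps i.τ' x - Φ.H L N lam i.M i.eps i.τ x) =
      fun p => gap i • s p := funext fun p => by
    simp only [H, approx, hs, ← Finset.sum_sub_distrib, Finset.smul_sum, Finset.sum_filter]
    refine Finset.sum_congr rfl fun k _ => ?_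
    by_cases hk : Φ.k0 ≤ k
    · rw [if_pos hk, ← smul_sub, smul_comm (gap i)]
      exact congrArg _ (eB k (Φ.one_le.trans hk) i _)
    · rw [if_neg hk, (congr_data (L := L) k fun j hj =>
        Φ.data_congr i.M i.eps i.τ' i.M i.eps i.τ (by omega)).1, sub_self, smul_zero]
  rw [e, pd_smul _ hss, norm_smul, Real.norm_eq_abs, abs_of_nonneg (gap_nonneg i)]
  refine (mul_le_mul_of_nonneg_left (hs ▸ hC i lam hlam x) (gap_nonneg i)).trans_eq ?_
  simp only [scale]
  ring

/-- The difference of the metrics. -/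
theorem met_diff_bound (N a b : ℕ) (hL : L.Twist) (hR : D.Exact) :
    ∃ C, 0 ≤ C ∧ ∀ (i : Ix κ) (lam : ℝ), 1 ≤ lam → ∀ x,
      ‖Generic.pd a b (fun p => met (Φ.H L N lam i.M i.eps i.τ') p
          - met (Φ.H L N lam i.M i.eps i.τ) p) x‖
        ≤ C * (gap i * i.top) * (i.top * lam) ^ a * (lam⁻¹) ^ (N + 1) := by
  classical
  have hm : ∀ i : Ix κ, 1 ≤ scale i.toTop := fun i => one_le_scale _
  have hc := fun i : Ix κ => Φ.input i.M i.eps i.τ
  have hc' := fun i : Ix κ => Φ.input i.M i.eps i.τ'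
  have hX := fun k => Xtr_pair (L := L) hm hc hc' Φ.pair N k
  have hT := fun k => Tc_pair (L := L) hm hc hc' Φ.pair k
  choose Q hQ eQ using fun x : ℕ × ℕ =>
    (small_triple (hX x.1) (hX x.2) (hT x.1) (hT x.2)).fam hm
  obtain ⟨C, hC0, hC⟩ := sum_pd hm (high N N)
    (d := fun x : ℕ × ℕ => x.1 + x.2) (K := N + 1) (fun x hx => (Finset.mem_filter.1 hx).2)
    (G := Q) (fun x _ => hQ x) a b
  refine ⟨C, hC0, fun i lam hlam x => ?_⟩
  obtain ⟨s, hs⟩ : ∃ s : R2 → Sym3, s = fun p => ∑ z ∈ high N N,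
    (lam⁻¹) ^ (z.1 + z.2) • Q z i (p, lam * p.1) := ⟨_, rfl⟩
  have hss : ContDiff ℝ ∞ s := hs ▸ ContDiff.sum fun z _ =>
    (contDiff_along ((hQ z).smooth i) lam).const_smul _
  have e : (fun p => met (Φ.H L N lam i.M i.eps i.τ') p - met (Φ.H L N lam i.M i.eps i.τ) p) =
      fun p => (gap i * scale i.toTop) • s p := funext fun p => by
    have e1 := err_met hL (hc' i) N (show lam ≠ 0 by linarith) p
    have e2 := err_met hL (hc i) N (show lam ≠ 0 by linarith) p
    rw [← sub_sub_sub_cancel_right _ _ (met D.f p + (D.a p ^ 2, 0, 0)), ← sub_sub, ← sub_sub, H, H,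
      e1, e2, hs]
    simp only [defect_zero hR (hc i), defect_zero hR (hc' i), smul_zero, Finset.sum_const_zero,
      zero_add, ← Finset.sum_sub_distrib, Finset.smul_sum, ← smul_sub]
    refine Finset.sum_congr rfl fun z _ => ?_
    rw [smul_comm (gap i * scale i.toTop), ← eQ z i]
  have h0 : 0 ≤ gap i * scale i.toTop :=
    mul_nonneg (gap_nonneg i) (by linarith [hm i])
  rw [e, pd_smul _ hss, norm_smul, Real.norm_eq_abs, abs_of_nonneg h0]
  refine (mul_le_mul_of_nonneg_left (hs ▸ hC i lam hlam x) h0).trans_eq ?_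
  simp only [scale]
  ring

end FreeData

end

end Vale.Agent.P205.WKB
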