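import Mathlib
import Vale.Agent.P205.Full.WKB.Aniso

/-!
# P205: full derivatives from mixed partial derivatives
-/

namespace Vale.Agent.P205.WKB

open scoped ContDiff
open Correction

noncomputable section

variable {E : Type} [NormedAddCommGroup E] [NormedSpace ℝ E]

/-- A full derivative is below the two partial ones. -/
lemma norm_iter_succ_le {g : R2 → E} (hg : ContDiff ℝ ∞ g) (i : ℕ) (x : R2) :
    ‖iteratedFDeriv ℝ (i + 1) g x‖ ≤
      ‖iteratedFDeriv ℝ i (Generic.dx g) x‖ + ‖iteratedFDeriv ℝ i (Generic.dy g) x‖ := by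
  obtain ⟨X, hX⟩ : ∃ X : E →L[ℝ] (R2 →L[ℝ] E),
      X = ContinuousLinearMap.smulRightL ℝ R2 E (ContinuousLinearMap.fst ℝ ℝ ℝ) := ⟨_, rfl⟩
  obtain ⟨Y, hY⟩ : ∃ Y : E →L[ℝ] (R2 →L[ℝ] E),
      Y = ContinuousLinearMap.smulRightL ℝ R2 E (ContinuousLinearMap.snd ℝ ℝ ℝ) := ⟨_, rfl⟩
  have hX1 : ‖X‖ ≤ 1 := hX ▸ X.opNorm_le_bound zero_le_one fun v => by
    rw [one_mul, hX]
    refine (ContinuousLinearMap.opNorm_le_bound _ (norm_nonneg v) fun z => ?_)
    rw [show ((ContinuousLinearMap.smulRightL ℝ R2 E (ContinuousLinearMap.fst ℝ ℝ ℝ)) v) z =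
      z.1 • v from rfl, norm_smul, mul_comm]
    exact mul_le_mul_of_nonneg_left (norm_fst_le z) (norm_nonneg _)
  have hY1 : ‖Y‖ ≤ 1 := hY ▸ Y.opNorm_le_bound zero_le_one fun v => by
    rw [one_mul, hY]
    refine (ContinuousLinearMap.opNorm_le_bound _ (norm_nonneg v) fun z => ?_)
    rw [show ((ContinuousLinearMap.smulRightL ℝ R2 E (ContinuousLinearMap.snd ℝ ℝ ℝ)) v) z =
      z.2 • v from rfl, norm_smul, mul_comm]
    exact mul_le_mul_of_nonneg_left (norm_snd_le z) (norm_nonneg _)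
  have e : fderiv ℝ g = fun y => X (Generic.dx g y) + Y (Generic.dy g y) := funext fun y =>
    ContinuousLinearMap.ext fun z => by
      show _ = X (Generic.dx g y) z + Y (Generic.dy g y) z
      rw [hX, hY, show ((ContinuousLinearMap.smulRightL ℝ R2 E (ContinuousLinearMap.fst ℝ ℝ ℝ))
          (Generic.dx g y)) z = z.1 • Generic.dx g y from rfl,
        show ((ContinuousLinearMap.smulRightL ℝ R2 E (ContinuousLinearMap.snd ℝ ℝ ℝ))
          (Generic.dy g y)) z = z.2 • Generic.dy g y from rfl, Generic.dx, Generic.dy,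
        ← map_smul, ← map_smul, ← map_add]
      congr 1
      ext <;> simp
  have hx := contDiff_gdx hg
  have hy := contDiff_gdy hg
  rw [← norm_iteratedFDeriv_fderiv, e,
    show (fun y => X (Generic.dx g y) + Y (Generic.dy g y)) = (X ∘ Generic.dx g) + (Y ∘ Generic.dy g)
      from rfl,
    iteratedFDeriv_add_apply ((X.contDiff.comp hx).of_le (by exact_mod_cast le_top)).contDiffAt
      ((Y.contDiff.comp hy).of_le (by exact_mod_cast le_top)).contDiffAt]
  refine (norm_add_le _ _).trans (add_le_add ?_ ?_)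
  · exact (X.norm_iteratedFDeriv_comp_left hx.contDiffAt (by exact_mod_cast le_top)).trans
      (mul_le_of_le_one_left (norm_nonneg _) hX1)
  · exact (Y.norm_iteratedFDeriv_comp_left hy.contDiffAt (by exact_mod_cast le_top)).trans
      (mul_le_of_le_one_left (norm_nonneg _) hY1)

/-- Full derivatives from mixed ones. -/
theorem norm_iter_le : ∀ (i : ℕ) {g : R2 → E}, ContDiff ℝ ∞ g → ∀ (x : R2) (B : ℝ),
    (∀ a b, a + b = i → ‖Generic.pd a b g x‖ ≤ B) → ‖iteratedFDeriv ℝ i g x‖ ≤ 2 ^ i * B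
  | 0, g, _, x, B, h => by
    rw [norm_iteratedFDeriv_zero, pow_zero, one_mul]
    exact h 0 0 rfl
  | i + 1, g, hg, x, B, h => by
    refine (norm_iter_succ_le hg i x).trans ((add_le_add
      (norm_iter_le i (contDiff_gdx hg) x B fun a b hab => ?_)
      (norm_iter_le i (contDiff_gdy hg) x B fun a b hab => ?_)).trans_eq ?_)
    · exact h (a + 1) b (by omega)
    · rw [Generic.pd_dy isOpen_univ hg.contDiffOn a b (Set.mem_univ x)]
      exact h a (b + 1) (by omega)
    · rw [pow_succ]; ring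

end

end Vale.Agent.P205.WKB
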