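import Vale.Agent.P205.Full.WKB.SpinLoop
import Vale.Agent.P205.Full.Loop
import Vale.Agent.P205.Generic.Lift

/-!
# P205: the loop of an exact step

Where `f_x, f_y, f_yy` are independent, the explicit loop in the plane orthogonal to `f_y, f_yy`,
times the cutoff, is a spin.
-/

namespace Vale.Agent.P205.WKB

open scoped ContDiff RealInnerProductSpace Topology
open Correction Profile
open Vale.Agent.P205.Algebra

noncomputable section

/-- A step with a cutoff on whose support `f_x, f_y, f_yy` are independent. -/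
structure Round where
  /-- the step -/
  D : Step
  /-- the cutoff -/
  η : R2 → ℝ
  η_smooth : Smooth2 η
  η_le : ∀ p, η p ≤ 1
  η_one : ∀ p ∈ D.K, η p = 1
  indep : ∀ p ∈ tsupport η, LinearIndependent ℝ ![dx D.f p, dy D.f p, F22 D.f p]

namespace Round

variable (S : Round)

/-- `f_y`. -/
def T : R2 → V4 := dy S.D.f

/-- The part of `f_yy` orthogonal to `f_y`. -/
def e (p : R2) : V4 := F22 S.D.f p - (⟪F22 S.D.f p, S.T p⟫ / ⟪S.T p, S.T p⟫) • S.T p

/-- The part of `f_x` orthogonal to `f_y, f_yy`. -/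
def q (p : R2) : V4 := dx S.D.f p - (⟪dx S.D.f p, S.T p⟫ / ⟪S.T p, S.T p⟫) • S.T p -
  (⟪dx S.D.f p, S.e p⟫ / ⟪S.e p, S.e p⟫) • S.e p

/-- The side vector. -/
def j (p : R2) : V4 :=
  (√(⟪S.T p, S.T p⟫ * ⟪S.e p, S.e p⟫))⁻¹ • cross4 (S.T p) (S.e p) (S.q p)

/-- The loop divided by the amplitude, cut off. -/
def u (z : R3) : V4 := S.η z.1 • Loop.gen (S.q z.1) (S.j z.1) (S.D.a z.1) z.2

variable {S} {p : R2}

lemma comb_ne (hp : p ∈ tsupport S.η) (r s t : ℝ) (h : r ≠ 0 ∨ s ≠ 0 ∨ t ≠ 0) :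
    r • dx S.D.f p + s • dy S.D.f p + t • F22 S.D.f p ≠ 0 := fun h0 => by
  have := Fintype.linearIndependent_iff.1 (S.indep p hp) ![r, s, t]
    (by simpa [Fin.sum_univ_three] using h0)
  have a1 := this 0
  have a2 := this 1
  have a3 := this 2
  simp at a1 a2 a3
  tauto

lemma T_ne (hp : p ∈ tsupport S.η) : S.T p ≠ 0 := fun h0 => by
  refine comb_ne hp 0 1 0 (by simp) ?_
  simpa [T] using h0

lemma e_ne (hp : p ∈ tsupport S.η) : S.e p ≠ 0 := fun h0 => by
  refine comb_ne hp 0 (-(⟪F22 S.D.f p, S.T p⟫ / ⟪S.T p, S.T p⟫)) 1 (by simp) ?_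
  rw [← h0, e, T]
  module

lemma q_ne (hp : p ∈ tsupport S.η) : S.q p ≠ 0 := fun h0 => by
  obtain ⟨s, hs⟩ : ∃ s, s = ⟪dx S.D.f p, S.T p⟫ / ⟪S.T p, S.T p⟫ := ⟨_, rfl⟩
  obtain ⟨t, ht⟩ : ∃ t, t = ⟪dx S.D.f p, S.e p⟫ / ⟪S.e p, S.e p⟫ := ⟨_, rfl⟩
  obtain ⟨r, hr⟩ : ∃ r, r = ⟪F22 S.D.f p, S.T p⟫ / ⟪S.T p, S.T p⟫ := ⟨_, rfl⟩
  refine comb_ne hp 1 (-s + t * r) (-t) (by simp) ?_
  rw [← h0, q, ← hs, ← ht, e, ← hr, T]
  module

lemma TT_pos (hp : p ∈ tsupport S.η) : 0 < ⟪S.T p, S.T p⟫ := real_inner_self_pos.2 (T_ne hp)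

lemma ee_pos (hp : p ∈ tsupport S.η) : 0 < ⟪S.e p, S.e p⟫ := real_inner_self_pos.2 (e_ne hp)

lemma inner_T_e (hp : p ∈ tsupport S.η) : ⟪S.T p, S.e p⟫ = 0 := by
  rw [e, inner_sub_right, real_inner_smul_right, div_mul_cancel₀ _ (TT_pos hp).ne',
    real_inner_comm (S.T p), sub_self]

lemma inner_T_q (hp : p ∈ tsupport S.η) : ⟪S.T p, S.q p⟫ = 0 := by
  rw [q, inner_sub_right, inner_sub_right, real_inner_smul_right, real_inner_smul_right,
    inner_T_e hp, div_mul_cancel₀ _ (TT_pos hp).ne', real_inner_comm (S.T p)]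
  ring

lemma inner_e_q (hp : p ∈ tsupport S.η) : ⟪S.e p, S.q p⟫ = 0 := by
  rw [q, inner_sub_right, inner_sub_right, real_inner_smul_right, real_inner_smul_right,
    real_inner_comm (S.T p) (S.e p), inner_T_e hp, div_mul_cancel₀ _ (ee_pos hp).ne',
    real_inner_comm (S.e p)]
  ring

lemma cross_orth : ⟪S.T p, S.j p⟫ = 0 ∧ ⟪S.e p, S.j p⟫ = 0 ∧ ⟪S.q p, S.j p⟫ = 0 := by
  obtain ⟨a, b, c⟩ := cross4_orth (S.T p) (S.e p) (S.q p)
  simp [j, real_inner_smul_right, a, b, c]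

lemma cross_sq (hp : p ∈ tsupport S.η) :
    ⟪cross4 (S.T p) (S.e p) (S.q p), cross4 (S.T p) (S.e p) (S.q p)⟫ =
      ⟪S.T p, S.T p⟫ * ⟪S.e p, S.e p⟫ * ⟪S.q p, S.q p⟫ := by
  rw [cross4_gram, inner_T_e hp, inner_T_q hp, inner_e_q hp]
  ring

lemma norm_j (hp : p ∈ tsupport S.η) : ‖S.j p‖ = ‖S.q p‖ := by
  have h := mul_pos (TT_pos hp) (ee_pos hp)
  refine (pow_left_inj₀ (norm_nonneg _) (norm_nonneg _) two_ne_zero).1 ?_
  rw [← real_inner_self_eq_norm_sq, ← real_inner_self_eq_norm_sq, j, real_inner_smul_left,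
    real_inner_smul_right, cross_sq hp, ← mul_assoc, ← mul_inv, Real.mul_self_sqrt h.le,
    ← mul_assoc, inv_mul_cancel₀ h.ne', one_mul]

lemma u_orth (hp : p ∈ tsupport S.η) (θ : ℝ) :
    ⟪S.T p, S.u (p, θ)⟫ = 0 ∧ ⟪S.e p, S.u (p, θ)⟫ = 0 := by
  obtain ⟨a, b, -⟩ := cross_orth (S := S) (p := p)
  simp [u, Loop.gen, inner_add_right, real_inner_smul_right, a, b, inner_T_q hp, inner_e_q hp]

lemma T_u (hp : p ∈ tsupport S.η) (θ : ℝ) : ⟪dy S.D.f p, S.u (p, θ)⟫ = 0 := (u_orth hp θ).1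

lemma A_u (hp : p ∈ tsupport S.η) (θ : ℝ) : ⟪F22 S.D.f p, S.u (p, θ)⟫ = 0 := by
  obtain ⟨a, b⟩ := u_orth hp θ
  rw [e, inner_sub_left, real_inner_smul_left, a] at b
  simpa using b

lemma X_u (hp : p ∈ tsupport S.η) (θ : ℝ) :
    ⟪dx S.D.f p, S.u (p, θ)⟫ = ⟪S.q p, S.u (p, θ)⟫ := by
  obtain ⟨a, b⟩ := u_orth hp θ
  simp [q, inner_sub_left, real_inner_smul_left, a, b]

lemma mem_tsupport (hp : S.η p ≠ 0) : p ∈ tsupport S.η := subset_tsupport _ hp

lemma smooth2_T : Smooth2 S.T := smooth2_dy S.D.f_smooth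

lemma contDiffAt_q (hp : p ∈ tsupport S.η) : ContDiffAt ℝ ∞ S.e p ∧ ContDiffAt ℝ ∞ S.q p := by
  have hT : ContDiffAt ℝ ∞ S.T p := smooth2_T.1.contDiffAt
  have hA : ContDiffAt ℝ ∞ (F22 S.D.f) p :=
    (smooth2_dy (smooth2_dy S.D.f_smooth)).1.contDiffAt
  have hX : ContDiffAt ℝ ∞ (dx S.D.f) p := (smooth2_dx S.D.f_smooth).1.contDiffAt
  have he : ContDiffAt ℝ ∞ S.e p :=
    hA.sub (((hA.inner ℝ hT).div (hT.inner ℝ hT) (TT_pos hp).ne').smul hT)
  exact ⟨he, (hX.sub (((hX.inner ℝ hT).div (hT.inner ℝ hT) (TT_pos hp).ne').smul hT)).sub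
    (((hX.inner ℝ he).div (he.inner ℝ he) (ee_pos hp).ne').smul he)⟩

lemma periodic_qj (v : R2) (hv : ∀ {E : Type} [NormedAddCommGroup E] [NormedSpace ℝ E]
    {g : R2 → E}, Smooth2 g → ∀ p, g (p + v) = g p) (p : R2) :
    S.q (p + v) = S.q p ∧ S.j (p + v) = S.j p := by
  have hT := hv S.smooth2_T p
  have hA : F22 S.D.f (p + v) = F22 S.D.f p := hv (smooth2_dy (smooth2_dy S.D.f_smooth)) p
  have hX := hv (smooth2_dx S.D.f_smooth) p
  have he : S.e (p + v) = S.e p := by rw [e, e, hT, hA]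
  have hq : S.q (p + v) = S.q p := by rw [q, q, hT, hX, he]
  exact ⟨hq, by rw [j, j, hT, he, hq]⟩

lemma isProfile_u : IsProfile S.u := by
  refine ⟨contDiff_iff_contDiffAt.2 fun z => ?_, fun z => ?_⟩
  · by_cases hz : z.1 ∈ tsupport S.η
    · obtain ⟨he, hq⟩ := contDiffAt_q hz
      have hq' : ContDiffAt ℝ ∞ (fun w : R3 => S.q w.1) z := hq.comp z contDiffAt_fst
      have he' : ContDiffAt ℝ ∞ (fun w : R3 => S.e w.1) z := he.comp z contDiffAt_fst
      have hT : ContDiffAt ℝ ∞ (fun w : R3 => S.T w.1) z :=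
        (smooth2_T.1.comp contDiff_fst).contDiffAt
      have hc : ContDiffAt ℝ ∞ (fun w : R3 => cross4 (S.T w.1) (S.e w.1) (S.q w.1)) z :=
        (contDiff_cross4 (u := fun x : V4 × V4 × V4 => x.1) (v := fun x => x.2.1)
          (w := fun x => x.2.2) (by fun_prop) (by fun_prop) (by fun_prop)).contDiffAt.comp z
            (hT.prodMk (he'.prodMk hq'))
      have hj : ContDiffAt ℝ ∞ (fun w : R3 => S.j w.1) z :=
        ((((hT.inner ℝ hT).mul (he'.inner ℝ he')).sqrt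
          (mul_pos (TT_pos hz) (ee_pos hz)).ne').inv
            (Real.sqrt_pos.2 (mul_pos (TT_pos hz) (ee_pos hz))).ne').smul hc
      exact (S.η_smooth.1.comp contDiff_fst).contDiffAt.smul (Loop.contDiffAt_gen hq' hj
        (S.D.a_smooth.1.comp contDiff_fst).contDiffAt contDiffAt_snd (q_ne hz))
    · refine (contDiffAt_const (c := (0 : V4))).congr_of_eventuallyEq ?_
      filter_upwards [continuous_fst.continuousAt.preimage_mem_nhds
        ((isClosed_tsupport S.η).isOpen_compl.mem_nhds hz)] with w hw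
      simp only [u]
      rw [image_eq_zero_of_notMem_tsupport hw, zero_smul]
  · obtain ⟨q1, j1⟩ := periodic_qj (S := S) (1, 0) (fun hg p => hg.2.1 p) z.1
    obtain ⟨q2, j2⟩ := periodic_qj (S := S) (0, 1) (fun hg p => hg.2.2 p) z.1
    refine ⟨?_, ?_, ?_⟩
    · simp only [u, Prod.fst_add, Prod.snd_add, add_zero, q1, j1, S.η_smooth.2.1,
        S.D.a_smooth.2.1]
    · simp only [u, Prod.fst_add, Prod.snd_add, add_zero, q2, j2, S.η_smooth.2.2,
        S.D.a_smooth.2.2]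
    · simp only [u, Prod.fst_add, Prod.snd_add, Prod.mk_zero_zero, add_zero, Loop.gen_one]

variable (S)

/-- The spin of the step. -/
def spin : Spin where
  toStep := S.D
  η := S.η
  u := S.u
  η_smooth := S.η_smooth
  η_le := S.η_le
  η_one := S.η_one
  u_prof := isProfile_u
  u_mean p := by
    by_cases hp : S.η p = 0
    · simp [mean, u, hp]
    · show ∫ t in (0 : ℝ)..1, S.η p • Loop.gen (S.q p) (S.j p) (S.D.a p) t = 0
      rw [intervalIntegral.integral_smul, Loop.mean_gen (q_ne (mem_tsupport hp)), smul_zero]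
  indep p hp := Fintype.linearIndependent_iff.2 fun g hg i => by
    have hp' : p ∈ tsupport S.η := mem_tsupport (by simp [hp])
    by_contra hi
    refine comb_ne hp' 0 (g 0) (g 1) ?_ ?_
    · fin_cases i <;> simp_all
    · simpa [Fin.sum_univ_two] using hg
  T_u p hp θ := T_u (mem_tsupport (by simp [hp])) θ
  A_u p hp θ := A_u (mem_tsupport (by simp [hp])) θ
  circle p hp θ := by
    have hp' : p ∈ tsupport S.η := mem_tsupport (by simp [hp])
    have h := Loop.norm_sq_add (q_ne hp') (norm_j hp') (cross_orth (S := S) (p := p)).2.2 (S.D.a p) θ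
    have hu : S.u (p, θ) = Loop.gen (S.q p) (S.j p) (S.D.a p) θ := by simp [u, hp]
    rw [← hu, ← real_inner_self_eq_norm_sq, ← real_inner_self_eq_norm_sq, inner_add_add_self] at h
    rw [inner_add_add_self]
    simp only [real_inner_smul_left, real_inner_smul_right, real_inner_comm _ (S.u (p, θ))] at h ⊢
    rw [X_u hp']
    linarith
  pos p hp := Or.inr (S.indep p (mem_tsupport (by simp [hp])))
  cover p hp y hT hA hX hu := by
    have hp' : p ∈ tsupport S.η := mem_tsupport (by simp [hp])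
    have he : ⟪S.e p, y⟫ = 0 := by
      simp [e, inner_sub_left, real_inner_smul_left, hA, show ⟪S.T p, y⟫ = 0 from hT]
    have hq : ⟪S.q p, y⟫ = 0 := by
      simp [q, inner_sub_left, real_inner_smul_left, hX, he, show ⟪S.T p, y⟫ = 0 from hT]
    have hn : 0 < ‖S.q p‖ := norm_pos_iff.2 (q_ne hp')
    have h4 := hu (1 / 4)
    rw [show S.u (p, 1 / 4) = Loop.gen (S.q p) (S.j p) (S.D.a p) (1 / 4) by simp [u, hp],
      Loop.gen, inner_add_left, real_inner_smul_left, real_inner_smul_left, hq, mul_zero,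
      zero_add] at h4
    have hw : Loop.wave (1 / 4) = 1 := by
      rw [Loop.wave, show 2 * Real.pi * (1 / 4) = Real.pi / 2 by ring, Real.sin_pi_div_two]
    have hc : Loop.cB ‖S.q p‖ (S.D.a p) (1 / 4) ≠ 0 := by
      have h1 := Loop.rad_pos hn (S.D.a p)
      have h2 := Real.sqrt_pos.2 (Loop.swing_pos hn (S.D.a p))
      have h3 := Real.sqrt_pos.2 (Loop.radicand_pos hn (S.D.a p) (1 / 4))
      rw [Loop.cB, hw] at *
      positivity
    have hj := (mul_eq_zero.1 h4).resolve_left hc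
    rw [j, real_inner_smul_left] at hj
    have hd := mul_pos (TT_pos hp') (ee_pos hp')
    refine Generic.eq_zero_of_perp (S.T p) (S.e p) (S.q p) y ?_ hT he hq
      ((mul_eq_zero.1 hj).resolve_left (inv_ne_zero (Real.sqrt_pos.2 hd).ne'))
    rw [cross_sq hp']
    exact (mul_pos hd (real_inner_self_pos.2 (q_ne hp'))).ne'

end Round

/-- `f_x, f_y, f_yy` are independent where `detg` and `W` do not vanish. -/
lemma indep_of_nondeg {f : R2 → V4} {p : R2} (hd : detg f p ≠ 0)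
    (hw : Wsq (fun _ => 1) f p ≠ 0) :
    LinearIndependent ℝ ![dx f p, dy f p, F22 f p] := by
  refine Fintype.linearIndependent_iff.2 fun g hg => ?_
  rw [Fin.sum_univ_three] at hg
  simp only [Matrix.cons_val_zero, Matrix.cons_val_one, Matrix.cons_val] at hg
  have e1 : g 0 * g11 f p + g 1 * g12 f p + g 2 * ⟪F22 f p, dx f p⟫ = 0 := by
    have := congrArg (fun v => ⟪v, dx f p⟫) hg
    simpa [inner_add_left, real_inner_smul_left, g11, g12, real_inner_comm (dx f p) (dy f p)]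
      using this
  have e2 : g 0 * g12 f p + g 1 * g22 f p + g 2 * ⟪F22 f p, dy f p⟫ = 0 := by
    have := congrArg (fun v => ⟪v, dy f p⟫) hg
    simpa [inner_add_left, real_inner_smul_left, g12, g22] using this
  have h2 : g 2 = 0 := by
    by_contra h2
    refine hw ?_
    have hn : g 2 • n0 (fun _ => 1) f p = 0 := by
      rw [← hg]
      simp only [n0, v1, v2, rinv, sub_self, add_zero, smul_sub, smul_smul]
      have a1 : g 0 = -(g 2 * ⟪F22 f p, dx f p⟫ * ((detg f p)⁻¹ * g22 f p)) +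
          g 2 * ⟪F22 f p, dy f p⟫ * ((detg f p)⁻¹ * g12 f p) := by
        field_simp
        rw [detg]
        linear_combination g22 f p * e1 - g12 f p * e2
      have a2 : g 1 = -(g 2 * ⟪F22 f p, dy f p⟫ * ((detg f p)⁻¹ * g11 f p)) +
          g 2 * ⟪F22 f p, dx f p⟫ * ((detg f p)⁻¹ * g12 f p) := by
        field_simp
        rw [detg]
        linear_combination g11 f p * e2 - g12 f p * e1
      rw [a1, a2]
      module
    rw [Wsq, (smul_eq_zero.1 hn).resolve_left h2, inner_zero_left]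
  rw [h2] at e1 e2
  have hd' : g11 f p * g22 f p - g12 f p ^ 2 ≠ 0 := hd
  intro i
  fin_cases i
  · exact (mul_eq_zero.1 (show g 0 * (g11 f p * g22 f p - g12 f p ^ 2) = 0 by
      linear_combination g22 f p * e1 - g12 f p * e2)).resolve_right hd'
  · exact (mul_eq_zero.1 (show g 1 * (g11 f p * g22 f p - g12 f p ^ 2) = 0 by
      linear_combination g11 f p * e2 - g12 f p * e1)).resolve_right hd'
  · exact h2

end

end Vale.Agent.P205.WKB
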