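import Mathlib
import Vale.Agent.P205.Full.WKB.Variation

/-!
# P205: bounds of the approximant in point and parameters

With several frequency blocks the map costs `lam` per `x`-derivative plus, for each direction,
`eps * (M * lam) ^ a`.  A parameter derivative along directions of frequency at most `top` is of
order `eps / top`, and changes by a square of `eps * top` with the parameter.
-/

namespace Vale.Agent.P205.WKB

open scoped ContDiff RealInnerProductSpace Topology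
open Correction Profile Filter
open Vale.Agent.P205.Algebra

noncomputable section

namespace FreeData

variable {D : Step} {L : LoopData D} {κ : Type} [Fintype κ] (Φ : FreeData D κ)

omit [Fintype κ] in
/-- A slice of a smooth map. -/
lemma contDiff_slice {T E : Type} [NormedAddCommGroup T] [NormedSpace ℝ T] [NormedAddCommGroup E]
    [NormedSpace ℝ E] {G : T → R2 → E} (hG : ContDiff ℝ ∞ fun z : T × R2 => G z.1 z.2) (τ : T) :
    ContDiff ℝ ∞ (G τ) :=
  hG.comp (contDiff_const.prodMk contDiff_id)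

/-- The rescaling of parameters to normalised data. -/
def unitMap (M : κ → ℕ) (eps : κ → ℝ) : (κ → ℝ) →L[ℝ] (κ → ℝ) :=
  ContinuousLinearMap.pi fun j => (eps j * M j) • ContinuousLinearMap.proj j

@[simp] lemma unitMap_apply (M : κ → ℕ) (eps τ : κ → ℝ) (j : κ) :
    unitMap M eps τ j = eps j * M j * τ j := by
  simp [unitMap]

lemma norm_unitMap_le {M : κ → ℕ} {eps : κ → ℝ} (he : ∀ j, 0 ≤ eps j)
    (heM : ∀ j, eps j * M j ≤ 1) (τ : κ → ℝ) : ‖unitMap M eps τ‖ ≤ ‖τ‖ := by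
  refine (pi_norm_le_iff_of_nonneg (norm_nonneg _)).2 fun j => ?_
  rw [unitMap_apply, Real.norm_eq_abs, abs_mul,
    abs_of_nonneg (mul_nonneg (he j) (Nat.cast_nonneg _))]
  exact (mul_le_mul (heM j) (norm_le_pi_norm τ j) (abs_nonneg _) zero_le_one).trans_eq (one_mul _)

lemma H_unit (N : ℕ) (lam : ℝ) (i : Top κ) (eps τ : κ → ℝ) :
    Φ.H L N lam i.M eps τ = Φ.H L N lam i.M (unit i.M) (unitMap i.M eps τ) := by
  rw [H, H, Φ.data_unit i eps τ,
    show (fun j => eps j * (i.M j : ℝ) * τ j) = unitMap i.M eps τ from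
      funext fun j => (unitMap_apply _ _ _ j).symm]

/-- A top frequency for given frequencies. -/
def topOf (M : κ → ℕ) (hM : ∀ j, 1 ≤ M j) : Top κ where
  M := M
  top := 1 + ∑ j, M j
  one_le_top := Nat.le_add_right _ _
  one_le_M := hM
  M_le j := (Finset.single_le_sum (f := M) (fun j _ => Nat.zero_le _) (Finset.mem_univ j)).trans
    (Nat.le_add_left _ _)

@[simp] lemma topOf_M (M : κ → ℕ) (hM : ∀ j, 1 ≤ M j) : (topOf M hM).M = M := rfl

/-- The map is smooth in parameter and point. -/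
theorem contDiff_H (N : ℕ) (lam : ℝ) {M : κ → ℕ} (hM : ∀ j, 1 ≤ M j) (eps : κ → ℝ) :
    ContDiff ℝ ∞ fun z : (κ → ℝ) × R2 => Φ.H L N lam M eps z.1 z.2 := by
  have h := contDiff_approx_param (L := L) one_le_scale
    (fun (i : Top κ) (σ : κ → ℝ) => Φ.input i.M (unit i.M) σ) Φ.sep_unit (topOf M hM) N lam
  simp only [topOf_M] at h
  obtain ⟨G, hG⟩ : ∃ G : (κ → ℝ) × R2 → V4,
      G = fun z => approx L (Φ.data M (unit M) z.1) N lam z.2 := ⟨_, rfl⟩
  rw [← hG] at h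
  have e : (fun z : (κ → ℝ) × R2 => Φ.H L N lam M eps z.1 z.2) =
      G ∘ fun z => (unitMap M eps z.1, z.2) := by
    funext z
    have hu := Φ.H_unit (L := L) N lam (topOf M hM) eps z.1
    simp only [topOf_M] at hu
    rw [hu, hG]
    rfl
  rw [e]
  exact h.comp (((unitMap M eps).contDiff.comp contDiff_fst).prodMk contDiff_snd)

lemma contDiff_slice_H (N : ℕ) (lam : ℝ) {M : κ → ℕ} (hM : ∀ j, 1 ≤ M j) (eps τ : κ → ℝ) :
    ContDiff ℝ ∞ (Φ.H L N lam M eps τ) :=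
  contDiff_slice (G := Φ.H L N lam M eps) (Φ.contDiff_H N lam hM eps) τ

lemma H_silent {M M' : κ → ℕ} {eps τ : κ → ℝ} (h : ∀ j, τ j = 0 ∨ M j = M' j) (N : ℕ) (lam : ℝ) :
    Φ.H L N lam M eps τ = Φ.H L N lam M' eps τ := by
  rw [H, H, funext (Φ.data_silent (eps := eps) h)]

/-- The parameters of the directions in `s`. -/
def part (s : Finset κ) [DecidableEq κ] (τ : κ → ℝ) (j : κ) : ℝ := if j ∈ s then τ j else 0

variable [DecidableEq κ]

lemma norm_part_le (s : Finset κ) (τ : κ → ℝ) : ‖part s τ‖ ≤ ‖τ‖ := by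
  refine (pi_norm_le_iff_of_nonneg (norm_nonneg _)).2 fun j => ?_
  unfold part
  split_ifs
  · exact norm_le_pi_norm τ j
  · simp

/-- Adding the directions one at a time in increasing order of frequency. -/
lemma telescope {E : Type} [NormedAddCommGroup E] [NormedSpace ℝ E] (Ψ : (κ → ℝ) → R2 → E)
    {M : κ → ℕ} {τ : κ → ℝ} (hΨ : ∀ s : Finset κ, ContDiff ℝ ∞ (Ψ (part s τ)))
    {B : κ → ℝ} (a b : ℕ) (x : R2) (hB : ∀ (j : κ) (s : Finset κ), j ∉ s → (∀ l ∈ s, M l ≤ M j) →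
      ‖Generic.pd a b (fun y => Ψ (part (insert j s) τ) y - Ψ (part s τ) y) x‖ ≤ B j) :
    ‖Generic.pd a b (Ψ τ) x‖ ≤ ‖Generic.pd a b (Ψ 0) x‖ + ∑ j, B j := by
  suffices H : ∀ s : Finset κ,
      ‖Generic.pd a b (Ψ (part s τ)) x‖ ≤ ‖Generic.pd a b (Ψ 0) x‖ + ∑ j ∈ s, B j by
    have e : part Finset.univ τ = τ := funext fun j => if_pos (Finset.mem_univ j)
    simpa [e] using H Finset.univ
  intro s
  induction s using Finset.induction_on_max_value M with
  | empty =>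
    rw [show part ∅ τ = (0 : κ → ℝ) from funext fun j => if_neg (Finset.notMem_empty j)]
    simp
  | insert j s hj hmax ih =>
    rw [Finset.sum_insert hj]
    have h := hB j s hj hmax
    rw [← pd_sub_eq (hΨ _) (hΨ _)] at h
    have := norm_le_norm_add_norm_sub' (Generic.pd a b (Ψ (part (insert j s) τ)) x)
      (Generic.pd a b (Ψ (part s τ)) x)
    linarith

omit [DecidableEq κ] in
/-- The frequencies of the active directions below a top one. -/
lemma silent_top {M : κ → ℕ} (top : ℕ) {τ : κ → ℝ} (h : ∀ j, M j ≤ top ∨ τ j = 0) :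
    ∀ j, τ j = 0 ∨ M j = min (M j) top :=
  fun j => (h j).elim (fun h => Or.inr (min_eq_left h).symm) Or.inl

/-- The index of two parameters below a top frequency. -/
def ixOf {M : κ → ℕ} {eps : κ → ℝ} (top : ℕ) (hM : ∀ j, 1 ≤ M j) (he : ∀ j, 0 ≤ eps j)
    (heM : ∀ j, eps j * M j ≤ 1) (htop : 1 ≤ top) (τ τ' : κ → ℝ) (h : ‖τ‖ ≤ 8) (h' : ‖τ'‖ ≤ 8) :
    Ix κ where
  M j := min (M j) top
  top := top
  one_le_top := htop
  one_le_M j := le_min (hM j) htop
  M_le j := min_le_right _ _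
  eps := eps
  τ := τ
  τ' := τ'
  eps_nonneg := he
  eps_mul j := le_trans (mul_le_mul_of_nonneg_left
    (by exact_mod_cast min_le_left (M j) top) (he j)) (heM j)
  norm_le := h
  norm_le' := h'

/-- The data of a step in the parameter. -/
lemma step_ix {M : κ → ℕ} {eps τ : κ → ℝ} {j : κ} {s : Finset κ} (hM : ∀ l, 1 ≤ M l)
    (he : ∀ l, 0 ≤ eps l) (heM : ∀ l, eps l * M l ≤ 1) (hτ : ‖τ‖ ≤ 8) (hj : j ∉ s)
    (hmax : ∀ l ∈ s, M l ≤ M j) :
    ∃ i : Ix κ, i.top = M j ∧ gap i ≤ 8 * (eps j / M j) ∧ gap i * i.top ≤ 8 * eps j ∧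
      ∀ (N : ℕ) (lam : ℝ), Φ.H L N lam M eps (part (insert j s) τ) = Φ.H L N lam i.M i.eps i.τ' ∧
        Φ.H L N lam M eps (part s τ) = Φ.H L N lam i.M i.eps i.τ := by
  obtain ⟨i, hi⟩ : ∃ i, i = ixOf (M := M) (eps := eps) (M j) hM he heM (hM j) (part s τ)
      (part (insert j s) τ) ((norm_part_le _ _).trans hτ) ((norm_part_le _ _).trans hτ) := ⟨_, rfl⟩
  subst hi
  have hg : gap (ixOf (M := M) (eps := eps) (M j) hM he heM (hM j) (part s τ)
      (part (insert j s) τ) ((norm_part_le _ _).trans hτ) ((norm_part_le _ _).trans hτ)) =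
      eps j / M j * |τ j| := by
    rw [gap, Finset.sum_eq_single j]
    · simp [ixOf, part, hj]
    · intro l _ hl
      simp [ixOf, part, hl]
    · simp
  refine ⟨ixOf (M := M) (eps := eps) (M j) hM he heM (hM j) (part s τ)
    (part (insert j s) τ) ((norm_part_le _ _).trans hτ) ((norm_part_le _ _).trans hτ), rfl, ?_, ?_,
    fun N lam => ⟨?_, ?_⟩⟩
  · rw [hg, mul_comm (8 : ℝ)]
    exact mul_le_mul_of_nonneg_left ((norm_le_pi_norm τ j).trans hτ)
      (div_nonneg (he j) (Nat.cast_nonneg _))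
  · rw [hg]
    show eps j / M j * |τ j| * (M j : ℝ) ≤ _
    have : (M j : ℝ) ≠ 0 := by exact_mod_cast (show M j ≠ 0 by have := hM j; omega)
    rw [mul_comm, ← mul_assoc, mul_div_cancel₀ _ this, mul_comm (8 : ℝ)]
    exact mul_le_mul_of_nonneg_left ((norm_le_pi_norm τ j).trans hτ) (he j)
  · refine Φ.H_silent (silent_top (M j) fun l => ?_) N lam
    by_cases hl : l ∈ insert j s
    · refine Or.inl ?_
      rcases Finset.mem_insert.1 hl with rfl | hl
      · exact le_rfl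
      · exact hmax l hl
    · exact Or.inr (if_neg hl)
  · refine Φ.H_silent (silent_top (M j) fun l => ?_) N lam
    by_cases hl : l ∈ s
    · exact Or.inl (hmax l hl)
    · exact Or.inr (if_neg hl)

omit [DecidableEq κ] in
lemma H_zero (N : ℕ) (lam : ℝ) (M : κ → ℕ) (eps : κ → ℝ) :
    Φ.H L N lam M eps 0 = approx L (fun _ _ => 0) N lam := by
  rw [H, show Φ.data M eps 0 = fun _ _ => 0 from funext fun k => funext fun q => by simp [data]]

omit [DecidableEq κ] in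
/-- The series with zero data costs `lam` per derivative along `x`. -/
lemma zero_bound (N a b : ℕ) : ∃ C, 0 ≤ C ∧ ∀ lam : ℝ, 1 ≤ lam → ∀ x,
    ‖Generic.pd a b (approx L (fun _ _ => 0) N lam) x‖ ≤ C * lam ^ a := by
  have hb := bounded (L := L) (m := fun _ : Unit => (1 : ℝ)) (δ := fun _ => (0 : ℝ))
    (fun _ => le_rfl) (fun _ => input_zero) (fun _ => input_zero) fun _ => Pair.zero
  obtain ⟨C, hC0, hC⟩ := sum_pd (m := fun _ : Unit => (1 : ℝ)) (fun _ => le_rfl)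
    (Finset.range (N + 2)) (d := fun k => k) (K := 0) (fun k _ => Nat.zero_le k)
    (G := fun k _ => U L (fun _ _ => 0) k) (fun k _ => (hb k).1.left.fam) a b
  exact ⟨C, hC0, fun lam hlam x => (hC () lam hlam x).trans_eq (by simp)⟩

/-- The bound of the map. -/
theorem base_bound (N a b : ℕ) : ∃ C, 0 ≤ C ∧
    ∀ (M : κ → ℕ) (eps τ : κ → ℝ) (lam : ℝ), (∀ j, 1 ≤ M j) → (∀ j, 0 ≤ eps j) →
      (∀ j, eps j * M j ≤ 1) → ‖τ‖ ≤ 8 → 1 ≤ lam → ∀ x,
      ‖Generic.pd a b (Φ.H L N lam M eps τ) x‖ ≤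
        C * (lam ^ a + ∑ j, eps j / M j * (M j * lam) ^ a * (lam⁻¹) ^ Φ.k0) := by
  obtain ⟨C0, hC00, hC0⟩ := zero_bound (L := L) N a b
  obtain ⟨C, hC', hC⟩ := Φ.diff_bound (L := L) N a b
  refine ⟨C0 + 8 * C, by positivity, fun M eps τ lam hM he heM hτ hlam x => ?_⟩
  have hl : 0 ≤ lam := by linarith
  refine (telescope (Φ.H L N lam M eps) (fun s => Φ.contDiff_slice_H N lam hM eps _) (M := M)
    (B := fun j => 8 * C * (eps j / M j * (M j * lam) ^ a * (lam⁻¹) ^ Φ.k0)) a b x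
    fun j s hj hmax => ?_).trans ?_
  · obtain ⟨i, h1, h2, -, h3⟩ := Φ.step_ix (L := L) hM he heM hτ hj hmax
    rw [(h3 N lam).1, (h3 N lam).2]
    refine (hC i lam hlam x).trans ?_
    rw [h1, show 8 * C * (eps j / M j * (M j * lam) ^ a * (lam⁻¹) ^ Φ.k0) =
      C * (8 * (eps j / M j)) * (M j * lam) ^ a * (lam⁻¹) ^ Φ.k0 by ring]
    gcongr
  · rw [H_zero, ← Finset.mul_sum, mul_add]
    have hs : 0 ≤ ∑ j, eps j / M j * (M j * lam) ^ a * (lam⁻¹) ^ Φ.k0 :=
      Finset.sum_nonneg fun j _ => by have := he j; positivity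
    refine add_le_add ((hC0 lam hlam x).trans ?_) (mul_le_mul_of_nonneg_right (by linarith) hs)
    exact mul_le_mul_of_nonneg_right (by linarith) (pow_nonneg hl a)

omit [DecidableEq κ] in
lemma contDiff_met {F : R2 → V4} (hF : ContDiff ℝ ∞ F) : ContDiff ℝ ∞ (met F) := by
  have hd : ∀ v : R2, ContDiff ℝ ∞ fun p => fderiv ℝ F p v := fun v =>
    (hF.fderiv_right (m := ∞) le_rfl).clm_apply contDiff_const
  exact ((hd (1, 0)).inner ℝ (hd (1, 0))).prodMk
    (((hd (1, 0)).inner ℝ (hd (0, 1))).prodMk ((hd (0, 1)).inner ℝ (hd (0, 1))))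

/-- The error of the metric. -/
theorem defect_bound (N a b : ℕ) (hL : L.Twist) (hR : D.Exact) : ∃ C, 0 ≤ C ∧
    ∀ (M : κ → ℕ) (eps τ : κ → ℝ) (lam : ℝ), (∀ j, 1 ≤ M j) → (∀ j, 0 ≤ eps j) →
      (∀ j, eps j * M j ≤ 1) → ‖τ‖ ≤ 8 → 1 ≤ lam → ∀ x,
      ‖Generic.pd a b (fun p => met (Φ.H L N lam M eps τ) p - met D.f p - (D.a p ^ 2, 0, 0)) x‖ ≤
        C * ((lam⁻¹) ^ (N + 1) * (lam ^ a + ∑ j, eps j * (M j * lam) ^ a)) := by
  obtain ⟨C0, hC00, hC0⟩ := met_bound (L := L) (m := fun _ : Unit => (1 : ℝ))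
    (δ := fun _ => (0 : ℝ)) (fun _ => le_rfl) (fun _ => input_zero) (fun _ => input_zero)
    (fun _ => Pair.zero) hL hR N (a + b)
  have hz := bounded (L := L) (m := fun _ : Unit => (1 : ℝ)) (δ := fun _ => (0 : ℝ))
    (fun _ => le_rfl) (fun _ => input_zero) (fun _ => input_zero) fun _ => Pair.zero
  obtain ⟨C1, hC10, hC1⟩ := sum_pd (m := fun _ : Unit => (1 : ℝ)) (fun _ => le_rfl) (high N N)
    (d := fun x : ℕ × ℕ => x.1 + x.2) (K := N + 1) (fun x hx => (Finset.mem_filter.1 hx).2)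
    (G := fun x (_ : Unit) (q : R3) =>
      ((ip (Xtr L (fun _ _ => 0) N x.1) (Xtr L (fun _ _ => 0) N x.2) q,
      ip (Xtr L (fun _ _ => 0) N x.1) (Tc L (fun _ _ => 0) x.2) q,
      ip (Tc L (fun _ _ => 0) x.1) (Tc L (fun _ _ => 0) x.2) q) : Sym3))
    (fun x _ => by
      have hX := fun k => (Xtr_pair (L := L) (m := fun _ : Unit => (1 : ℝ))
        (δ := fun _ => (0 : ℝ)) (fun _ => le_rfl) (fun _ => input_zero) (fun _ => input_zero)
        (fun _ => Pair.zero) N k).left.fam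
      have hT := fun k => (Tc_pair (L := L) (m := fun _ : Unit => (1 : ℝ))
        (δ := fun _ => (0 : ℝ)) (fun _ => le_rfl) (fun _ => input_zero) (fun _ => input_zero)
        (fun _ => Pair.zero) k).left.fam
      have h := (((hX x.1).bilin (hX x.2) (innerSL ℝ)).clm
        (ContinuousLinearMap.inl ℝ ℝ (ℝ × ℝ))).add
        (((((hX x.1).bilin (hT x.2) (innerSL ℝ)).clm (ContinuousLinearMap.inl ℝ ℝ ℝ)).add
          (((hT x.1).bilin (hT x.2) (innerSL ℝ)).clm (ContinuousLinearMap.inr ℝ ℝ ℝ))).clm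
            (ContinuousLinearMap.inr ℝ ℝ (ℝ × ℝ)))
      convert h using 1
      funext i q
      simp [ip]
      exact ⟨rfl, rfl, rfl⟩) a b
  obtain ⟨C, hC', hC⟩ := Φ.met_diff_bound (L := L) N a b hL hR
  refine ⟨C1 + 8 * C, by positivity, fun M eps τ lam hM he heM hτ hlam x => ?_⟩
  have hl : 0 ≤ lam := by linarith
  have hda : ContDiff ℝ ∞ fun p : R2 => ((D.a p ^ 2, 0, 0) : Sym3) :=
    (D.a_smooth.1.pow 2).prodMk contDiff_const
  obtain ⟨Ψ, hΨ⟩ : ∃ Ψ : (κ → ℝ) → R2 → Sym3,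
      Ψ = fun σ p => met (Φ.H L N lam M eps σ) p - met D.f p - (D.a p ^ 2, 0, 0) := ⟨_, rfl⟩
  show ‖Generic.pd a b (fun p => met (Φ.H L N lam M eps τ) p - met D.f p - (D.a p ^ 2, 0, 0)) x‖ ≤ _
  rw [show (fun p => met (Φ.H L N lam M eps τ) p - met D.f p - (D.a p ^ 2, 0, 0)) = Ψ τ by rw [hΨ]]
  refine (telescope Ψ (fun s => ?_) (M := M)
    (B := fun j => 8 * C * ((lam⁻¹) ^ (N + 1) * (eps j * (M j * lam) ^ a))) a b x
    fun j s hj hmax => ?_).trans ?_
  · rw [hΨ]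
    exact ((contDiff_met (Φ.contDiff_slice_H N lam hM eps _)).sub
      (contDiff_met D.f_smooth.1)).sub hda
  · obtain ⟨i, h1, -, h2, h3⟩ := Φ.step_ix (L := L) hM he heM hτ hj hmax
    rw [hΨ]
    simp only [sub_sub_sub_cancel_right, (h3 N lam).1, (h3 N lam).2]
    refine (hC i lam hlam x).trans ?_
    rw [h1] at h2 ⊢
    rw [show 8 * C * ((lam⁻¹) ^ (N + 1) * (eps j * (M j * lam) ^ a)) =
      C * (8 * eps j) * (M j * lam) ^ a * (lam⁻¹) ^ (N + 1) by ring]
    gcongr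
  · have e : Ψ 0 = fun p => ∑ z ∈ high N N, (lam⁻¹) ^ (z.1 + z.2) •
        ((ip (Xtr L (fun _ _ => 0) N z.1) (Xtr L (fun _ _ => 0) N z.2) (p, lam * p.1),
          ip (Xtr L (fun _ _ => 0) N z.1) (Tc L (fun _ _ => 0) z.2) (p, lam * p.1),
          ip (Tc L (fun _ _ => 0) z.1) (Tc L (fun _ _ => 0) z.2) (p, lam * p.1)) : Sym3) := by
      funext p
      rw [hΨ]
      simp only [Φ.H_zero]
      rw [err_met hL input_zero N (show lam ≠ 0 by linarith)]
      simp [defect_zero hR (input_zero (D := D))]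
    rw [e, ← Finset.mul_sum, ← Finset.mul_sum, mul_add (lam⁻¹ ^ (N + 1))]
    have hs : 0 ≤ (lam⁻¹) ^ (N + 1) * ∑ j, eps j * (M j * lam) ^ a :=
      mul_nonneg (by positivity) (Finset.sum_nonneg fun j _ => by have := he j; positivity)
    rw [mul_add (C1 + 8 * C)]
    refine add_le_add ((hC1 () lam hlam x).trans ?_) (mul_le_mul_of_nonneg_right (by linarith) hs)
    simp only [one_mul]
    rw [mul_assoc, mul_comm (lam ^ a)]
    exact mul_le_mul_of_nonneg_right (by linarith) (by positivity)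

omit [DecidableEq κ] in
/-- The derivative along a line. -/
lemma line_deriv {E : Type} [NormedAddCommGroup E] [NormedSpace ℝ E] {G : (κ → ℝ) → R2 → E}
    (hG : ContDiff ℝ ∞ fun z : (κ → ℝ) × R2 => G z.1 z.2) (τ w : κ → ℝ) :
    ContDiff ℝ ∞ (fun z : ℝ × R2 => G (τ + z.1 • w) z.2) ∧ ∀ x,
      fderiv ℝ (fun z : ℝ × R2 => G (τ + z.1 • w) z.2) (0, x) (1, 0) =
        fderiv ℝ (fun z : (κ → ℝ) × R2 => G z.1 z.2) (τ, x) (w, 0) := by
  have hT : ∀ z : ℝ × R2, HasFDerivAt (fun z : ℝ × R2 => (τ + z.1 • w, z.2))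
      (((ContinuousLinearMap.fst ℝ ℝ R2).smulRight w).prod (ContinuousLinearMap.snd ℝ ℝ R2)) z :=
    fun z => ((hasFDerivAt_fst.smul_const w).const_add τ).prodMk hasFDerivAt_snd
  refine ⟨hG.comp ((contDiff_const.add (contDiff_fst.smul contDiff_const)).prodMk contDiff_snd),
    fun x => ?_⟩
  have h : HasFDerivAt (fun z : ℝ × R2 => G (τ + z.1 • w) z.2)
      ((fderiv ℝ (fun z : (κ → ℝ) × R2 => G z.1 z.2) (τ + (0 : ℝ) • w, x)).comp
        (((ContinuousLinearMap.fst ℝ ℝ R2).smulRight w).prod (ContinuousLinearMap.snd ℝ ℝ R2)))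
      (0, x) :=
    ((hG.differentiable (by simp)) _).hasFDerivAt.comp (0, x) (hT (0, x))
  rw [h.fderiv]
  simp

omit [DecidableEq κ] in
lemma contDiff_met_H (N : ℕ) (lam : ℝ) {M : κ → ℕ} (hM : ∀ j, 1 ≤ M j) (eps : κ → ℝ) :
    ContDiff ℝ ∞ fun z : (κ → ℝ) × R2 => met (Φ.H L N lam M eps z.1) z.2 := by
  have h := Φ.contDiff_H (L := L) N lam hM eps
  have hd : ∀ v : R2, ContDiff ℝ ∞ fun z : (κ → ℝ) × R2 =>
      fderiv ℝ (Φ.H L N lam M eps z.1) z.2 v := fun v => by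
    have e : (fun z : (κ → ℝ) × R2 => fderiv ℝ (Φ.H L N lam M eps z.1) z.2 v) =
        fun z => fderiv ℝ (fun z : (κ → ℝ) × R2 => Φ.H L N lam M eps z.1 z.2) z (0, v) :=
      funext fun z => by
        have h1 : HasFDerivAt (fun x : R2 => Φ.H L N lam M eps z.1 x)
            ((fderiv ℝ (fun w : (κ → ℝ) × R2 => Φ.H L N lam M eps w.1 w.2) (z.1, z.2)).comp
              (ContinuousLinearMap.inr ℝ (κ → ℝ) R2)) z.2 :=
          (h.differentiable (by simp) (z.1, z.2)).hasFDerivAt.comp z.2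
            (hasFDerivAt_prodMk_right z.1 z.2)
        show fderiv ℝ (fun x : R2 => Φ.H L N lam M eps z.1 x) z.2 v = _
        rw [h1.fderiv]
        rfl
    rw [e]
    exact (h.fderiv_right (m := ∞) le_rfl).clm_apply contDiff_const
  exact ((hd (1, 0)).inner ℝ (hd (1, 0))).prodMk
    (((hd (1, 0)).inner ℝ (hd (0, 1))).prodMk ((hd (0, 1)).inner ℝ (hd (0, 1))))

omit [DecidableEq κ] in
/-- A point of the line as an index. -/
lemma line_ix {M : κ → ℕ} {eps τ w : κ → ℝ} {top : ℕ} (hM : ∀ j, 1 ≤ M j) (he : ∀ j, 0 ≤ eps j)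
    (heM : ∀ j, eps j * M j ≤ 1) (hτ : ‖τ‖ ≤ 7) (hw : ‖w‖ ≤ 1) (htop : 1 ≤ top)
    (hact : ∀ j, M j ≤ top ∨ τ j = 0 ∧ w j = 0) {s : ℝ} (hs : |s| < 1) :
    ∃ i : Ix κ, i.top = top ∧ gap i = (∑ j, eps j / M j * |w j|) * |s| ∧
      ∀ (N : ℕ) (lam : ℝ), Φ.H L N lam M eps (τ + s • w) = Φ.H L N lam i.M i.eps i.τ' ∧
        Φ.H L N lam M eps τ = Φ.H L N lam i.M i.eps i.τ := by
  have hn : ‖τ + s • w‖ ≤ 8 := (norm_add_le _ _).trans (by
    rw [norm_smul, Real.norm_eq_abs]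
    nlinarith [abs_nonneg s, norm_nonneg w])
  obtain ⟨i, hi⟩ : ∃ i, i = ixOf (M := M) (eps := eps) top hM he heM htop τ (τ + s • w)
      (by linarith) hn := ⟨_, rfl⟩
  refine ⟨i, by rw [hi]; rfl, ?_, fun N lam => ⟨?_, ?_⟩⟩
  · rw [hi, gap, Finset.sum_mul]
    refine Finset.sum_congr rfl fun j _ => ?_
    simp only [ixOf, Pi.add_apply, Pi.smul_apply, smul_eq_mul, add_sub_cancel_left, abs_mul]
    rcases hact j with h | h
    · rw [min_eq_left h]; ring
    · simp [h.2]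
  · rw [hi]
    refine Φ.H_silent (silent_top top fun j => (hact j).imp id fun h => ?_) N lam
    simp [h.1, h.2]
  · rw [hi]
    exact Φ.H_silent (silent_top top fun j => (hact j).imp id fun h => h.1) N lam

omit [DecidableEq κ] in
/-- The derivative in the parameter. -/
theorem var_bound (N a b : ℕ) : ∃ C, 0 ≤ C ∧
    ∀ (M : κ → ℕ) (eps τ w : κ → ℝ) (top : ℕ) (lam : ℝ), (∀ j, 1 ≤ M j) → (∀ j, 0 ≤ eps j) →
      (∀ j, eps j * M j ≤ 1) → ‖τ‖ ≤ 7 → ‖w‖ ≤ 1 → 1 ≤ top →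
      (∀ j, M j ≤ top ∨ τ j = 0 ∧ w j = 0) → 1 ≤ lam → ∀ x,
      ‖Generic.pd a b (fun x => fderiv ℝ (fun z : (κ → ℝ) × R2 => Φ.H L N lam M eps z.1 z.2)
          (τ, x) (w, 0)) x‖ ≤
        C * (∑ j, eps j / M j * |w j|) * (top * lam) ^ a * (lam⁻¹) ^ Φ.k0 := by
  obtain ⟨C, hC0, hC⟩ := Φ.diff_bound (L := L) N a b
  refine ⟨C, hC0, fun M eps τ w top lam hM he heM hτ hw htop hact hlam x => ?_⟩
  have hl : 0 ≤ lam := by linarith
  have hS : 0 ≤ ∑ j, eps j / M j * |w j| :=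
    Finset.sum_nonneg fun j _ => by have := he j; positivity
  obtain ⟨h1, h2⟩ := line_deriv (G := Φ.H L N lam M eps) (Φ.contDiff_H N lam hM eps) τ w
  simp only [← h2]
  refine (deriv_of_sub (G := fun s : ℝ => Φ.H L N lam M eps (τ + s • w)) h1 a b 0 1 x
    (C := C * (∑ j, eps j / M j * |w j|) * (top * lam) ^ a * (lam⁻¹) ^ Φ.k0) (by positivity)
    fun s hs => ?_).trans_eq (by simp)
  rw [sub_zero, Real.norm_eq_abs] at hs ⊢
  obtain ⟨i, e1, e2, e3⟩ := Φ.line_ix (L := L) hM he heM hτ hw htop hact hs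
  simp only [zero_smul, add_zero, (e3 N lam).1, (e3 N lam).2]
  refine (hC i lam hlam x).trans_eq ?_
  rw [e1, e2]
  ring

omit [DecidableEq κ] in
/-- The derivative of the metric in the parameter. -/
theorem met_var_bound (N a b : ℕ) (hL : L.Twist) (hR : D.Exact) : ∃ C, 0 ≤ C ∧
    ∀ (M : κ → ℕ) (eps τ w : κ → ℝ) (top : ℕ) (lam : ℝ), (∀ j, 1 ≤ M j) → (∀ j, 0 ≤ eps j) →
      (∀ j, eps j * M j ≤ 1) → ‖τ‖ ≤ 7 → ‖w‖ ≤ 1 → 1 ≤ top →
      (∀ j, M j ≤ top ∨ τ j = 0 ∧ w j = 0) → 1 ≤ lam → ∀ x,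
      ‖Generic.pd a b (fun x => fderiv ℝ (fun z : (κ → ℝ) × R2 =>
          met (Φ.H L N lam M eps z.1) z.2) (τ, x) (w, 0)) x‖ ≤
        C * ((∑ j, eps j / M j * |w j|) * top) * (top * lam) ^ a * (lam⁻¹) ^ (N + 1) := by
  obtain ⟨C, hC0, hC⟩ := Φ.met_diff_bound (L := L) N a b hL hR
  refine ⟨C, hC0, fun M eps τ w top lam hM he heM hτ hw htop hact hlam x => ?_⟩
  have hl : 0 ≤ lam := by linarith
  have hS : 0 ≤ ∑ j, eps j / M j * |w j| :=
    Finset.sum_nonneg fun j _ => by have := he j; positivity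
  obtain ⟨h1, h2⟩ := line_deriv (G := fun σ => met (Φ.H L N lam M eps σ))
    (Φ.contDiff_met_H N lam hM eps) τ w
  simp only [← h2]
  refine (deriv_of_sub (G := fun s : ℝ => met (Φ.H L N lam M eps (τ + s • w))) h1 a b 0 1 x
    (C := C * ((∑ j, eps j / M j * |w j|) * top) * (top * lam) ^ a * (lam⁻¹) ^ (N + 1))
    (by positivity) fun s hs => ?_).trans_eq (by simp)
  rw [sub_zero, Real.norm_eq_abs] at hs ⊢
  obtain ⟨i, e1, e2, e3⟩ := Φ.line_ix (L := L) hM he heM hτ hw htop hact hs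
  simp only [zero_smul, add_zero, (e3 N lam).1, (e3 N lam).2]
  refine (hC i lam hlam x).trans_eq ?_
  rw [e1, e2]
  ring

end FreeData

end

end Vale.Agent.P205.WKB
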