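import Mathlib
import Vale.Agent.P205.Full.WKB.VarBounds
import Vale.Agent.P205.Full.WKB.RoundSpin

/-!
# P205: the approximant is close to the loop and nondegenerate

`F_y`, `F_yy` and `F` are close to those of `f`, `F_x` is close to the loop, so on a compact set
the determinant of the metric and `W` stay positive.
-/

namespace Vale.Agent.P205.WKB

open scoped ContDiff RealInnerProductSpace Topology
open Correction Profile Filter Set
open Vale.Agent.P205.Algebra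

noncomputable section

/-- The Gram determinant of two vectors. -/
def gramJ (z : V4 × V4 × V4) : ℝ := ⟪z.1, z.1⟫ * ⟪z.2.1, z.2.1⟫ - ⟪z.1, z.2.1⟫ ^ 2

/-- The part of the third vector orthogonal to the first two. -/
def perpJ (z : V4 × V4 × V4) : V4 :=
  z.2.2 - ⟪z.2.2, z.1⟫ • ((gramJ z)⁻¹ • (⟪z.2.1, z.2.1⟫ • z.1 - ⟪z.1, z.2.1⟫ • z.2.1))
    - ⟪z.2.2, z.2.1⟫ • ((gramJ z)⁻¹ • (⟪z.1, z.1⟫ • z.2.1 - ⟪z.1, z.2.1⟫ • z.1))

/-- Its squared length. -/
def normJ (z : V4 × V4 × V4) : ℝ := ⟪perpJ z, perpJ z⟫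

lemma detg_eq_gramJ (F : R2 → V4) (p : R2) : detg F p = gramJ (dx F p, dy F p, F22 F p) := rfl

lemma Wsq_eq_normJ (F : R2 → V4) (p : R2) :
    Wsq (fun _ => 1) F p = normJ (dx F p, dy F p, F22 F p) := by
  simp only [Wsq, normJ, n0, v1, v2, perpJ, rinv, g11, g12, g22, sub_self, add_zero, detg_eq_gramJ]

lemma contDiffAt_jets {z : V4 × V4 × V4} (hz : gramJ z ≠ 0) :
    ContinuousAt gramJ z ∧ ContinuousAt normJ z := by
  have h1 : Continuous gramJ := by unfold gramJ; fun_prop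
  refine ⟨h1.continuousAt, ?_⟩
  have hp : ContinuousAt perpJ z := by
    have hi : ContinuousAt (fun z => (gramJ z)⁻¹) z := h1.continuousAt.inv₀ hz
    unfold perpJ
    have hc1 : Continuous fun z : V4 × V4 × V4 => ⟪z.2.2, z.1⟫ := by fun_prop
    have hc2 : Continuous fun z : V4 × V4 × V4 => ⟪z.2.2, z.2.1⟫ := by fun_prop
    refine ((by fun_prop : Continuous fun z : V4 × V4 × V4 => z.2.2).continuousAt.sub ?_).sub ?_
    · have hv : Continuous fun z : V4 × V4 × V4 =>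
          ⟪z.2.1, z.2.1⟫ • z.1 - ⟪z.1, z.2.1⟫ • z.2.1 := by fun_prop
      exact hc1.continuousAt.smul (hi.smul hv.continuousAt)
    · have hv : Continuous fun z : V4 × V4 × V4 =>
          ⟪z.1, z.1⟫ • z.2.1 - ⟪z.1, z.2.1⟫ • z.1 := by fun_prop
      exact hc2.continuousAt.smul
        (hi.smul hv.continuousAt)
  exact hp.inner hp

lemma pos_of_indep {A B Y : V4} (h : LinearIndependent ℝ ![A, B, Y]) :
    0 < gramJ (A, B, Y) ∧ 0 < normJ (A, B, Y) := by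
  have hc : ∀ r s t : ℝ, r • A + s • B + t • Y = 0 → r = 0 ∧ s = 0 ∧ t = 0 := fun r s t h0 => by
    have := Fintype.linearIndependent_iff.1 h ![r, s, t] (by simpa [Fin.sum_univ_three] using h0)
    exact ⟨this 0, this 1, this 2⟩
  have hA : 0 < ⟪A, A⟫ := real_inner_self_pos.2 fun h0 =>
    one_ne_zero (hc 1 0 0 (by simp [h0])).1
  have hd : 0 < gramJ (A, B, Y) := by
    have e : ⟪⟪A, A⟫ • B - ⟪A, B⟫ • A, ⟪A, A⟫ • B - ⟪A, B⟫ • A⟫ =
        ⟪A, A⟫ * gramJ (A, B, Y) := by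
      simp only [gramJ, inner_sub_left, inner_sub_right, real_inner_smul_left,
        real_inner_smul_right, real_inner_comm B A]
      ring
    have hne : ⟪A, A⟫ • B - ⟪A, B⟫ • A ≠ 0 := fun h0 => hA.ne'
      (hc (-⟪A, B⟫) ⟪A, A⟫ 0 (by rw [← h0]; module)).2.1
    exact pos_of_mul_pos_right (e ▸ real_inner_self_pos.2 hne) hA.le
  refine ⟨hd, real_inner_self_pos.2 fun h0 => one_ne_zero (α := ℝ) ?_⟩
  obtain ⟨u, hu⟩ : ∃ u, u = (gramJ (A, B, Y))⁻¹ := ⟨_, rfl⟩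
  refine (hc (-(⟪Y, A⟫ * (u * ⟪B, B⟫)) + ⟪Y, B⟫ * (u * ⟪A, B⟫))
    (⟪Y, A⟫ * (u * ⟪A, B⟫) - ⟪Y, B⟫ * (u * ⟪A, A⟫)) 1 ?_).2.2
  rw [← h0, perpJ, ← hu]
  simp only
  module

variable {D : Step} {L : LoopData D}

/-- On the support set the jet of the loop is independent. -/
lemma indep_loop (hL : L.Twist) {p : R2} (hp : p ∈ D.K)
    (h2 : LinearIndependent ℝ ![dy D.f p, F22 D.f p]) (θ : ℝ) :
    LinearIndependent ℝ ![L.X0 (p, θ), dy D.f p, F22 D.f p] := by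
  refine Fintype.linearIndependent_iff.2 fun g hg => ?_
  rw [Fin.sum_univ_three] at hg
  simp only [Matrix.cons_val_zero, Matrix.cons_val_one, Matrix.cons_val] at hg
  have h0 : g 0 = 0 := by
    have := congrArg (fun v => ⟪v, L.Z (p, θ)⟫) hg
    simpa [inner_add_left, real_inner_smul_left, show ⟪L.X0 (p, θ), L.Z (p, θ)⟫ = 1 from
      L.X_Z p hp θ, L.T_Z p hp θ, hL.A_Z p hp θ] using this
  rw [h0, zero_smul, zero_add] at hg
  have := Fintype.linearIndependent_iff.1 h2 ![g 1, g 2] (by simpa [Fin.sum_univ_two] using hg)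
  intro i
  fin_cases i
  · exact h0
  · exact this 0
  · exact this 1

/-- The lower bound for jets near the loop. -/
theorem jets_near_loop (hL : L.Twist) {S : Set R2} (hS : IsCompact S)
    (h : ∀ p ∈ S, LinearIndependent ℝ ![dx D.f p, dy D.f p, F22 D.f p]) :
    ∃ c > 0, ∀ p ∈ S, ∀ θ : ℝ, ∀ z : V4 × V4 × V4,
      ‖z.1 - L.X0 (p, θ)‖ ≤ c → ‖z.2.1 - dy D.f p‖ ≤ c → ‖z.2.2 - F22 D.f p‖ ≤ c →
        c ≤ gramJ z ∧ c ≤ normJ z := by
  obtain ⟨J, hJ⟩ : ∃ J : R3 → V4 × V4 × V4,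
      J = fun q => (L.X0 q, dy D.f q.1, F22 D.f q.1) := ⟨_, rfl⟩
  have hJc : Continuous J := hJ ▸ (L.isProfile_X0.1.continuous.prodMk
    (((smooth2_dy D.f_smooth).1.continuous.comp continuous_fst).prodMk
      ((smooth2_dy (smooth2_dy D.f_smooth)).1.continuous.comp continuous_fst)))
  have hpos : ∀ p ∈ S, ∀ θ, 0 < gramJ (J (p, θ)) ∧ 0 < normJ (J (p, θ)) := fun p hp θ => by
    rw [hJ]
    refine pos_of_indep ?_
    by_cases hK : p ∈ D.K
    · refine indep_loop hL hK (Fintype.linearIndependent_iff.2 fun g hg => ?_) θ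
      have := Fintype.linearIndependent_iff.1 (h p hp) ![0, g 0, g 1]
        (by simpa [Fin.sum_univ_two, Fin.sum_univ_three] using hg)
      intro i
      fin_cases i
      · exact this 1
      · exact this 2
    · rw [show L.X0 (p, θ) = dx D.f p by simp [LoopData.X0, L.w_zero p hK]]
      exact h p hp
  obtain ⟨T, hT⟩ : ∃ T, T = J '' (S ×ˢ Icc (0 : ℝ) 1) := ⟨_, rfl⟩
  have hTc : IsCompact T := hT ▸ (hS.prod isCompact_Icc).image hJc
  rcases eq_empty_or_nonempty T with he | hne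
  · refine ⟨1, one_pos, fun p hp θ => absurd ?_ (Set.notMem_empty (J (p, 0)))⟩
    rw [← he, hT]
    exact ⟨(p, 0), ⟨hp, by simp⟩, rfl⟩
  have hTpos : ∀ z ∈ T, 0 < gramJ z ∧ 0 < normJ z := by
    rw [hT]; rintro _ ⟨⟨p, θ⟩, ⟨hp, -⟩, rfl⟩; exact hpos p hp θ
  obtain ⟨z0, hz0, hm⟩ := hTc.exists_isMinOn hne
    (f := fun z => min (gramJ z) (normJ z)) fun z hz =>
      ContinuousAt.continuousWithinAt (Filter.Tendsto.min (contDiffAt_jets (hTpos z hz).1.ne').1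
        (contDiffAt_jets (hTpos z hz).1.ne').2)
  obtain ⟨m, hm'⟩ : ∃ m, m = min (gramJ z0) (normJ z0) / 2 := ⟨_, rfl⟩
  have hm0 : 0 < m := by
    rw [hm']; have := hTpos z0 hz0; exact half_pos (lt_min this.1 this.2)
  obtain ⟨U, hU⟩ : ∃ U : Set (V4 × V4 × V4),
      U = {z | gramJ z ≠ 0 ∧ m < gramJ z ∧ m < normJ z} := ⟨_, rfl⟩
  have hUo : IsOpen U := by
    rw [isOpen_iff_mem_nhds]
    intro z hz
    rw [hU] at hz ⊢
    obtain ⟨h0, h1, h2⟩ := hz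
    obtain ⟨c1, c2⟩ := contDiffAt_jets h0
    filter_upwards [c1.eventually_ne h0, c1.eventually (Ioi_mem_nhds h1),
      c2.eventually (Ioi_mem_nhds h2)] with w a b c
    exact ⟨a, b, c⟩
  have hTU : T ⊆ U := fun z hz => by
    have a : min (gramJ z0) (normJ z0) ≤ min (gramJ z) (normJ z) := hm hz
    have b := hTpos z hz
    rw [hU]
    refine ⟨b.1.ne', ?_, ?_⟩ <;>
      linarith [min_le_left (gramJ z) (normJ z), min_le_right (gramJ z) (normJ z)]
  obtain ⟨d, hd, hdU⟩ := hTc.exists_cthickening_subset_open hUo hTU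
  refine ⟨min m d, lt_min hm0 hd, fun p hp θ z h1 h2 h3 => ?_⟩
  have hfr : L.X0 (p, Int.fract θ) = L.X0 (p, θ) := by
    have e := (phase_periodic L.isProfile_X0 p).sub_int_mul_eq (x := θ) ⌊θ⌋
    rw [mul_one] at e
    exact e
  have hmem : J (p, Int.fract θ) ∈ T := hT ▸
    ⟨(p, Int.fract θ), ⟨hp, ⟨Int.fract_nonneg θ, (Int.fract_lt_one θ).le⟩⟩, rfl⟩
  have hz : z ∈ U := hdU (Metric.mem_cthickening_of_dist_le z _ d T hmem (by
    rw [hJ, dist_eq_norm, Prod.norm_def, Prod.norm_def]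
    show max ‖z.1 - L.X0 (p, Int.fract θ)‖
      (max ‖z.2.1 - dy D.f p‖ ‖z.2.2 - F22 D.f p‖) ≤ d
    rw [hfr]
    have := min_le_right m d
    exact max_le (h1.trans this) (max_le (h2.trans this) (h3.trans this))))
  rw [hU] at hz
  exact ⟨(min_le_left _ _).trans hz.2.1.le, (min_le_left _ _).trans hz.2.2.le⟩

namespace FreeData

variable {κ : Type} [Fintype κ] [DecidableEq κ] (Φ : FreeData D κ)

/-- The map minus the series with zero data. -/
theorem sub_zero_bound (N a b : ℕ) : ∃ C, 0 ≤ C ∧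
    ∀ (M : κ → ℕ) (eps τ : κ → ℝ) (lam : ℝ), (∀ j, 1 ≤ M j) → (∀ j, 0 ≤ eps j) →
      (∀ j, eps j * M j ≤ 1) → ‖τ‖ ≤ 8 → 1 ≤ lam → ∀ x,
      ‖Generic.pd a b (fun y => Φ.H L N lam M eps τ y - approx L (fun _ _ => 0) N lam y) x‖ ≤
        C * ∑ j, eps j / M j * (M j * lam) ^ a * (lam⁻¹) ^ Φ.k0 := by
  obtain ⟨C, hC', hC⟩ := Φ.diff_bound (L := L) N a b
  refine ⟨8 * C, by positivity, fun M eps τ lam hM he heM hτ hlam x => ?_⟩
  have hl : 0 ≤ lam := by linarith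
  obtain ⟨G, hG⟩ : ∃ G, G = approx L (fun _ _ => 0) N lam := ⟨_, rfl⟩
  have hGs : ContDiff ℝ ∞ G := by
    rw [hG, ← Φ.H_zero N lam M eps]
    exact Φ.contDiff_slice_H N lam hM eps 0
  rw [← hG]
  refine (telescope (fun σ y => Φ.H L N lam M eps σ y - G y)
    (fun s => (Φ.contDiff_slice_H N lam hM eps _).sub hGs) (M := M) (τ := τ)
    (B := fun j => 8 * C * (eps j / M j * (M j * lam) ^ a * (lam⁻¹) ^ Φ.k0)) a b x
    fun j s hj hmax => ?_).trans_eq ?_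
  · obtain ⟨i, h1, h2, -, h3⟩ := Φ.step_ix (L := L) hM he heM hτ hj hmax
    simp only [sub_sub_sub_cancel_right, (h3 N lam).1, (h3 N lam).2]
    refine (hC i lam hlam x).trans ?_
    rw [h1, show 8 * C * (eps j / M j * (M j * lam) ^ a * (lam⁻¹) ^ Φ.k0) =
      C * (8 * (eps j / M j)) * (M j * lam) ^ a * (lam⁻¹) ^ Φ.k0 by ring]
    gcongr
  · have hz : (fun y => Φ.H L N lam M eps 0 y - G y) = fun _ => (0 : V4) := funext fun y => by
      rw [H_zero, hG, sub_self]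
    have hz0 : Generic.pd a b (fun _ : R2 => (0 : V4)) x = 0 := by
      have hx : Generic.dx (fun _ : R2 => (0 : V4)) = fun _ => 0 := by ext; simp [Generic.dx]
      have hy : Generic.dy (fun _ : R2 => (0 : V4)) = fun _ => 0 := by ext; simp [Generic.dy]
      simp [Generic.pd, Function.iterate_fixed hx, Function.iterate_fixed hy]
    rw [hz, hz0, norm_zero, zero_add, ← Finset.mul_sum]

omit [Fintype κ] [DecidableEq κ] in
/-- The series with zero data near the loop. -/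
lemma zero_close (N b : ℕ) : ∃ C, 0 ≤ C ∧ ∀ lam : ℝ, 1 ≤ lam → ∀ x,
    ‖Generic.pd 0 b (fun y => approx L (fun _ _ => 0) N lam y - D.f y) x‖ ≤ C * lam⁻¹ ∧
      ‖dx (approx L (fun _ _ => 0) N lam) x - L.X0 (x, lam * x.1)‖ ≤ C * lam⁻¹ := by
  have hb := bounded (L := L) (m := fun _ : Unit => (1 : ℝ)) (δ := fun _ => (0 : ℝ))
    (fun _ => le_rfl) (fun _ => input_zero) (fun _ => input_zero) fun _ => Pair.zero
  have hX := fun k => (Xtr_pair (L := L) (m := fun _ : Unit => (1 : ℝ))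
    (δ := fun _ => (0 : ℝ)) (fun _ => le_rfl) (fun _ => input_zero) (fun _ => input_zero)
    (fun _ => Pair.zero) N k).left.fam
  obtain ⟨C, hC0, hC⟩ := sum_pd (m := fun _ : Unit => (1 : ℝ)) (fun _ => le_rfl)
    (Finset.range (N + 1)) (d := fun k => k + 1) (K := 1) (fun k _ => Nat.le_add_left _ _)
    (G := fun k _ => U L (fun _ _ => 0) (k + 1)) (fun k _ => (hb (k + 1)).1.left.fam) 0 b
  obtain ⟨C', hC0', hC'⟩ := sum_pd (m := fun _ : Unit => (1 : ℝ)) (fun _ => le_rfl)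
    (Finset.range (N + 1)) (d := fun k => k + 1) (K := 1) (fun k _ => Nat.le_add_left _ _)
    (G := fun k _ => Xtr L (fun _ _ => 0) N (k + 1)) (fun k _ => hX (k + 1)) 0 0
  refine ⟨C + C', by positivity, fun lam hlam x => ⟨?_, ?_⟩⟩
  · have hl : (0 : ℝ) ≤ lam⁻¹ := inv_nonneg.2 (by linarith)
    rw [funext (approx_sub (L := L) (fun _ _ => 0) N lam)]
    refine (hC () lam hlam x).trans ?_
    rw [pow_zero, mul_one, pow_one]
    exact mul_le_mul_of_nonneg_right (by linarith) hl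
  · have hl : (0 : ℝ) ≤ lam⁻¹ := inv_nonneg.2 (by linarith)
    have e : dx (approx L (fun _ _ => 0) N lam) x - L.X0 (x, lam * x.1) =
        ∑ k ∈ Finset.range (N + 1), (lam⁻¹) ^ (k + 1) •
          Xtr L (fun _ _ => 0) N (k + 1) (x, lam * x.1) := by
      rw [dx_approx input_zero N (show lam ≠ 0 by linarith), Finset.sum_range_succ',
        pow_zero, one_smul, Xtr_zero]
      abel
    rw [e]
    refine (hC' () lam hlam x).trans ?_
    rw [pow_zero, mul_one, pow_one]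
    exact mul_le_mul_of_nonneg_right (by linarith) (inv_nonneg.2 (by linarith))

/-- The jets which matter for nondegeneracy stay near those of the loop. -/
theorem close_loop (N : ℕ) : ∃ C, 0 ≤ C ∧
    ∀ (M : κ → ℕ) (eps τ : κ → ℝ) (lam : ℝ), (∀ j, 1 ≤ M j) → (∀ j, 0 ≤ eps j) →
      (∀ j, eps j * M j ≤ 1) → ‖τ‖ ≤ 8 → 1 ≤ lam → ∀ x,
      ‖Φ.H L N lam M eps τ x - D.f x‖ ≤ C * (lam⁻¹ + ∑ j, eps j) ∧
      ‖dx (Φ.H L N lam M eps τ) x - L.X0 (x, lam * x.1)‖ ≤ C * (lam⁻¹ + ∑ j, eps j) ∧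
      ‖dy (Φ.H L N lam M eps τ) x - dy D.f x‖ ≤ C * (lam⁻¹ + ∑ j, eps j) ∧
      ‖F22 (Φ.H L N lam M eps τ) x - F22 D.f x‖ ≤ C * (lam⁻¹ + ∑ j, eps j) := by
  obtain ⟨A0, a0, hA0⟩ := Φ.sub_zero_bound (L := L) N 0 0
  obtain ⟨A1, a1, hA1⟩ := Φ.sub_zero_bound (L := L) N 1 0
  obtain ⟨A2, a2, hA2⟩ := Φ.sub_zero_bound (L := L) N 0 1
  obtain ⟨A3, a3, hA3⟩ := Φ.sub_zero_bound (L := L) N 0 2
  obtain ⟨B0, b0, hB0⟩ := zero_close (L := L) N 0
  obtain ⟨B1, b1, hB1⟩ := zero_close (L := L) N 1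
  obtain ⟨B2, b2, hB2⟩ := zero_close (L := L) N 2
  refine ⟨A0 + A1 + A2 + A3 + B0 + B1 + B2, by positivity,
    fun M eps τ lam hM he heM hτ hlam x => ?_⟩
  obtain ⟨R, hR⟩ : ∃ R, R = lam⁻¹ + ∑ j, eps j := ⟨_, rfl⟩
  rw [← hR]
  have hl : (0 : ℝ) < lam := by linarith
  have hi : lam⁻¹ ≤ 1 := inv_le_one_of_one_le₀ hlam
  have he0 : 0 ≤ ∑ j, eps j := Finset.sum_nonneg fun j _ => he j
  have hR1 : lam⁻¹ ≤ R := by linarith
  have hsum : ∀ a, a ≤ 1 → ∑ j, eps j / M j * (M j * lam) ^ a * (lam⁻¹) ^ Φ.k0 ≤ R := fun a ha => by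
    refine le_trans (Finset.sum_le_sum fun j _ => ?_) (show ∑ j, eps j ≤ R by
      linarith [inv_nonneg.2 hl.le])
    have hMj : (1 : ℝ) ≤ M j := by exact_mod_cast hM j
    have hk : (lam⁻¹) ^ Φ.k0 ≤ lam⁻¹ :=
      pow_le_of_le_one (inv_nonneg.2 hl.le) hi (by have := Φ.one_le; omega)
    have := he j
    interval_cases a
    · rw [pow_zero, mul_one]
      exact (mul_le_mul (div_le_self (he j) hMj) (hk.trans hi) (by positivity) (he j)).trans_eq
        (mul_one _)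
    · rw [pow_one]
      refine (mul_le_mul_of_nonneg_left hk (by positivity)).trans_eq ?_
      field_simp
  obtain ⟨G, hG⟩ : ∃ G, G = approx L (fun _ _ => 0) N lam := ⟨_, rfl⟩
  obtain ⟨F, hF⟩ : ∃ F, F = Φ.H L N lam M eps τ := ⟨_, rfl⟩
  have hGs : ContDiff ℝ ∞ G := by
    rw [hG, ← Φ.H_zero N lam M eps]
    exact Φ.contDiff_slice_H N lam hM eps 0
  have hFs : ContDiff ℝ ∞ F := hF ▸ Φ.contDiff_slice_H N lam hM eps τ
  have hf := D.f_smooth.1
  have tri : ∀ b, b ≤ 2 → ∀ {A B : ℝ}, 0 ≤ A → 0 ≤ B →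
      ‖Generic.pd 0 b (fun y => F y - G y) x‖ ≤
        A * ∑ j, eps j / M j * (M j * lam) ^ 0 * (lam⁻¹) ^ Φ.k0 →
      ‖Generic.pd 0 b (fun y => G y - D.f y) x‖ ≤ B * lam⁻¹ →
      ‖Generic.pd 0 b F x - Generic.pd 0 b D.f x‖ ≤ (A + B) * R := by
    intro b _ A B hA hB h1 h2
    rw [← pd_sub_eq hFs hGs] at h1
    rw [← pd_sub_eq hGs hf] at h2
    refine (norm_sub_le_norm_sub_add_norm_sub _ (Generic.pd 0 b G x) _).trans ?_
    have := mul_le_mul_of_nonneg_left (hsum 0 zero_le_one) hA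
    have := mul_le_mul_of_nonneg_left hR1 hB
    linarith
  have hR0 : 0 ≤ R := (inv_nonneg.2 hl.le).trans hR1
  refine ⟨?_, ?_, ?_, ?_⟩
  · refine le_trans ?_ (mul_le_mul_of_nonneg_right (show A0 + B0 ≤ _ by linarith) hR0)
    exact hF ▸ tri 0 (by norm_num) a0 b0 (hF ▸ hG ▸ hA0 M eps τ lam hM he heM hτ hlam x)
      (hG ▸ (hB0 lam hlam x).1)
  · refine le_trans ?_ (mul_le_mul_of_nonneg_right (show A1 + B0 ≤ _ by linarith) hR0)
    have h1 := hA1 M eps τ lam hM he heM hτ hlam x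
    rw [← hF, ← hG, ← pd_sub_eq hFs hGs] at h1
    have h2 := (hB0 lam hlam x).2
    rw [← hG] at h2
    rw [← hF]
    refine (norm_sub_le_norm_sub_add_norm_sub _ (dx G x) _).trans ?_
    have e1 : ‖dx F x - dx G x‖ ≤ A1 * ∑ j, eps j / M j * (M j * lam) ^ 1 * (lam⁻¹) ^ Φ.k0 := h1
    have := mul_le_mul_of_nonneg_left (hsum 1 le_rfl) a1
    have := mul_le_mul_of_nonneg_left hR1 b0
    linarith
  · refine le_trans ?_ (mul_le_mul_of_nonneg_right (show A2 + B1 ≤ _ by linarith) hR0)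
    exact hF ▸ tri 1 (by norm_num) a2 b1 (hF ▸ hG ▸ hA2 M eps τ lam hM he heM hτ hlam x)
      (hG ▸ (hB1 lam hlam x).1)
  · refine le_trans ?_ (mul_le_mul_of_nonneg_right (show A3 + B2 ≤ _ by linarith) hR0)
    exact hF ▸ tri 2 le_rfl a3 b2 (hF ▸ hG ▸ hA3 M eps τ lam hM he heM hτ hlam x)
      (hG ▸ (hB2 lam hlam x).1)

/-- The determinant and `W` are bounded below on a compact set. -/
theorem nondeg (hL : L.Twist) (N : ℕ) {S : Set R2} (hS : IsCompact S)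
    (h : ∀ p ∈ S, LinearIndependent ℝ ![dx D.f p, dy D.f p, F22 D.f p]) :
    ∃ c > 0, ∀ (M : κ → ℕ) (eps τ : κ → ℝ) (lam : ℝ), (∀ j, 1 ≤ M j) → (∀ j, 0 ≤ eps j) →
      (∀ j, eps j * M j ≤ 1) → ‖τ‖ ≤ 8 → 1 ≤ lam → lam⁻¹ + ∑ j, eps j ≤ c → ∀ p ∈ S,
        c ≤ detg (Φ.H L N lam M eps τ) p ∧ c ≤ Wsq (fun _ => 1) (Φ.H L N lam M eps τ) p := by
  obtain ⟨C, hC0, hC⟩ := Φ.close_loop (L := L) N
  obtain ⟨c, hc, hJ⟩ := jets_near_loop hL hS h
  refine ⟨c / (C + 1), by positivity, fun M eps τ lam hM he heM hτ hlam hsmall p hp => ?_⟩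
  obtain ⟨-, h1, h2, h3⟩ := hC M eps τ lam hM he heM hτ hlam p
  have hb : C * (lam⁻¹ + ∑ j, eps j) ≤ c := by
    refine (mul_le_mul_of_nonneg_left hsmall hC0).trans ?_
    rw [mul_div, div_le_iff₀ (by linarith)]
    nlinarith
  obtain ⟨g1, g2⟩ := hJ p hp (lam * p.1)
    (dx (Φ.H L N lam M eps τ) p, dy (Φ.H L N lam M eps τ) p, F22 (Φ.H L N lam M eps τ) p)
    (h1.trans hb) (h2.trans hb) (h3.trans hb)
  have hcc : c / (C + 1) ≤ c := div_le_self hc.le (by linarith)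
  rw [detg_eq_gramJ, Wsq_eq_normJ]
  exact ⟨hcc.trans g1, hcc.trans g2⟩

end FreeData

end

end Vale.Agent.P205.WKB
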