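import Mathlib
import Vale.Agent.P205.Full.WKB.VarBounds

/-!
# P205: the leading term of the variation of `F_x`

Along `x` the parameter derivative is the data times the free normal, up to one factor of the top
frequency or of the phase frequency.
-/

namespace Vale.Agent.P205.WKB

open scoped ContDiff RealInnerProductSpace Topology
open Correction Profile Filter intervalIntegral
open Vale.Agent.P205.Algebra

noncomputable section

namespace FreeData

variable {D : Step} {L : LoopData D} {κ : Type} [Fintype κ] (Φ : FreeData D κ)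

/-- The leading variation of the phase derivative at the order of the data. -/
def mainW (L : LoopData D) (M : κ → ℕ) (eps v : κ → ℝ) (q : R3) : V4 :=
  (∑ j, eps j * v j * freq (M j) (dPhase (Φ.A j)) q) • L.e q

lemma data_dif (M : κ → ℕ) (eps τ τ' : κ → ℝ) (q : R3) :
    Φ.data M eps τ' Φ.k0 q - Φ.data M eps τ Φ.k0 q =
      ∑ j, eps j * (τ' j - τ j) * freq (M j) (dPhase (Φ.A j)) q := by
  simp only [data, if_true, ← Finset.sum_sub_distrib]
  exact Finset.sum_congr rfl fun j _ => by ring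

/-- At the order of the data only the means oscillate less. -/
lemma W_dif (hk0 : 2 ≤ Φ.k0) : ∃ B : Ix κ → R3 → V4, Fam (fun i : Ix κ => scale i.toTop) B ∧
    ∀ i q, W L (Φ.data i.M i.eps i.τ') Φ.k0 q - W L (Φ.data i.M i.eps i.τ) Φ.k0 q -
      Φ.mainW L i.M i.eps (i.τ' - i.τ) q = gap i • B i q := by
  have hm : ∀ i : Ix κ, 1 ≤ scale i.toTop := fun i => one_le_scale _
  have hT : ∀ l, Tiny (fun i : Ix κ => scale i.toTop) gap fun i => WKB.meanP fun q =>
      Φ.data i.M i.eps i.τ' Φ.k0 q * L.h l q - Φ.data i.M i.eps i.τ Φ.k0 q * L.h l q := fun l =>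
    ((Φ.pair Φ.k0).mul (Pair.const_prof hm (L.h_prof l))).dif.meanP hm
  choose B hB eB using hT
  refine ⟨_, (Fam.sum Finset.univ fun l _ =>
    (Fam.fixed hm (L.φ_prof l)).mul (hB l)).smul (Fam.fixed hm L.e_prof), fun i q => ?_⟩
  obtain ⟨n, hn⟩ : ∃ n, Φ.k0 = n + 1 := ⟨Φ.k0 - 1, by omega⟩
  have hu : ∀ j ≤ n, U L (Φ.data i.M i.eps i.τ') j = U L (Φ.data i.M i.eps i.τ) j ∧
      W L (Φ.data i.M i.eps i.τ') j = W L (Φ.data i.M i.eps i.τ) j := fun j hj =>
    congr_data (L := L) j fun l hl => Φ.data_congr _ _ _ _ _ _ (by omega)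
  obtain ⟨e1, e2, e3⟩ := cond_congr L (s := term L (Φ.data i.M i.eps i.τ'))
    (t := term L (Φ.data i.M i.eps i.τ)) (fun j hj => (hu j hj).2) fun j hj => (hu j hj).1
  have h1 : W L (Φ.data i.M i.eps i.τ') Φ.k0 = _ :=
    (congrArg (W L _) hn).trans (W_succ L (Φ.data i.M i.eps i.τ') (show 1 ≤ n by omega))
  have h2 : W L (Φ.data i.M i.eps i.τ) Φ.k0 = _ :=
    (congrArg (W L _) hn).trans (W_succ L (Φ.data i.M i.eps i.τ) (show 1 ≤ n by omega))
  rw [h1, h2, e1, e2, e3, ← hn]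
  obtain ⟨σ, hσ⟩ : ∃ σ, σ = L.forced (alpha L (term L (Φ.data i.M i.eps i.τ)) n)
      (beta L (term L (Φ.data i.M i.eps i.τ)) n) (gamma L (term L (Φ.data i.M i.eps i.τ)) n) :=
    ⟨_, rfl⟩
  have hσc : Continuous σ := by
    rw [hσ]
    exact (cond (Φ.input i.M i.eps i.τ) (show 1 ≤ n by omega)).forced_prof.1.continuous
  have key : ∀ l, WKB.meanP (fun q => σ q * L.g l q + Φ.data i.M i.eps i.τ' Φ.k0 q * L.h l q) q -
      WKB.meanP (fun q => σ q * L.g l q + Φ.data i.M i.eps i.τ Φ.k0 q * L.h l q) q =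
      gap i • B l i q := fun l => by
    rw [← eB l i q]
    simp only [WKB.meanP]
    have hg : Continuous fun q => σ q * L.g l q := hσc.mul (L.g_prof l).1.continuous
    have hd : ∀ τ, Continuous fun q => Φ.data i.M i.eps τ Φ.k0 q * L.h l q := fun τ =>
      (Φ.isProfile_data _ _ τ _).1.continuous.mul (L.h_prof l).1.continuous
    rw [mean_add hg (hd _), mean_add hg (hd _), mean_sub (hd _) (hd _)]
    abel
  have hfree : L.free σ (Φ.data i.M i.eps i.τ' Φ.k0) q - L.free σ (Φ.data i.M i.eps i.τ Φ.k0) q =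
      (∑ j, i.eps j * (i.τ' - i.τ) j * freq (i.M j) (dPhase (Φ.A j)) q) +
        gap i * ∑ l, L.φ l q * B l i q := by
    simp only [LoopData.free, Pi.sub_apply]
    rw [← Φ.data_dif, Finset.mul_sum]
    have : ∀ l, gap i * (L.φ l q * B l i q) = L.φ l q *
        (WKB.meanP (fun q => σ q * L.g l q + Φ.data i.M i.eps i.τ' Φ.k0 q * L.h l q) q -
        WKB.meanP (fun q => σ q * L.g l q + Φ.data i.M i.eps i.τ Φ.k0 q * L.h l q) q) := fun l => by
      rw [key, smul_eq_mul]; ring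
    simp only [this, mul_sub, Finset.sum_sub_distrib]
    ring
  simp only [LoopData.sol, ← hσ, mainW]
  rw [show ∀ (X Y : V4) (r r' s : ℝ) (e : V4),
    X + (Y + r • e) - (X + (Y + r' • e)) - s • e = (r - r' - s) • e from fun X Y r r' s e => by module,
    hfree, add_sub_cancel_left, smul_smul]

/-- The leading term of the difference of `F_x`. -/
theorem dx_diff_bound (N a b : ℕ) (hk0 : 2 ≤ Φ.k0) (hN : Φ.k0 ≤ N + 1) :
    ∃ C, 0 ≤ C ∧ ∀ (i : Ix κ) (lam : ℝ), 1 ≤ lam → ∀ x,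
      ‖Generic.pd a b (fun p => dx (Φ.H L N lam i.M i.eps i.τ') p
          - dx (Φ.H L N lam i.M i.eps i.τ) p
          - (lam⁻¹) ^ (Φ.k0 - 1) • Φ.mainW L i.M i.eps (i.τ' - i.τ) (p, lam * p.1)) x‖
        ≤ C * (gap i * (i.top + lam)) * (i.top * lam) ^ a * (lam⁻¹) ^ Φ.k0 := by
  classical
  have hm : ∀ i : Ix κ, 1 ≤ scale i.toTop := fun i => one_le_scale _
  have hc := fun i : Ix κ => Φ.input i.M i.eps i.τ
  have hc' := fun i : Ix κ => Φ.input i.M i.eps i.τ'
  choose Q hQ eQ using fun k => (Xtr_pair (L := L) hm hc hc' Φ.pair N k).dif.fam hm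
  obtain ⟨B, hB, eB⟩ := Φ.W_dif (L := L) hk0
  obtain ⟨C1, hC10, hC1⟩ := sum_pd hm ((Finset.range (N + 2)).filter fun k => Φ.k0 ≤ k)
    (d := fun k => k) (K := Φ.k0) (fun k hk => (Finset.mem_filter.1 hk).2) (G := Q)
    (fun k _ => hQ k) a b
  obtain ⟨C2, hC20, hC2⟩ := hB.osc_pd hm a b
  refine ⟨C1 + C2, by positivity, fun i lam hlam x => ?_⟩
  have hl : lam ≠ 0 := by linarith
  obtain ⟨s, hs⟩ : ∃ s : R2 → V4, s = fun p => ∑ k ∈ (Finset.range (N + 2)).filter
    (fun k => Φ.k0 ≤ k), (lam⁻¹) ^ k • Q k i (p, lam * p.1) := ⟨_, rfl⟩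
  have hss : ContDiff ℝ ∞ s := hs ▸ ContDiff.sum fun k _ =>
    (contDiff_along ((hQ k).smooth i) lam).const_smul _
  have hBs : ContDiff ℝ ∞ (along (B i) lam) := contDiff_along (hB.smooth i) lam
  have e : (fun p => dx (Φ.H L N lam i.M i.eps i.τ') p - dx (Φ.H L N lam i.M i.eps i.τ) p
      - (lam⁻¹) ^ (Φ.k0 - 1) • Φ.mainW L i.M i.eps (i.τ' - i.τ) (p, lam * p.1)) =
      fun p => (gap i * scale i.toTop) • s p +
        (gap i * (lam⁻¹) ^ (Φ.k0 - 1)) • along (B i) lam p := funext fun p => by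
    rw [H, H, dx_approx (hc' i) N hl, dx_approx (hc i) N hl, ← Finset.sum_sub_distrib,
      ← Finset.sum_filter_add_sum_filter_not (Finset.range (N + 2)) (fun k => Φ.k0 ≤ k), hs,
      Finset.smul_sum, add_sub_assoc]
    congr 1
    · refine Finset.sum_congr rfl fun k _ => ?_
      rw [← smul_sub, smul_comm (gap i * scale i.toTop)]
      exact congrArg _ (eQ k i _)
    · rw [Finset.sum_eq_single_of_mem (Φ.k0 - 1) (Finset.mem_filter.2
        ⟨Finset.mem_range.2 (by omega), by omega⟩) fun k hk hne => ?_]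
      · rw [← smul_sub, ← smul_sub, mul_comm (gap i), mul_smul]
        refine congrArg _ ?_
        rw [Xtr, Xtr, if_pos (by omega), if_pos (by omega)]
        show (W L _ (Φ.k0 - 1 + 1) _ + px (U L _ (Φ.k0 - 1)) _) -
          (W L _ (Φ.k0 - 1 + 1) _ + px (U L _ (Φ.k0 - 1)) _) - _ = _
        rw [(congr_data (L := L) (Φ.k0 - 1) fun l hl =>
          Φ.data_congr i.M i.eps i.τ' i.M i.eps i.τ (by omega)).1, add_sub_add_right_eq_sub,
          show Φ.k0 - 1 + 1 = Φ.k0 by omega]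
        exact eB i _
      · have hk' := (Finset.mem_filter.1 hk).2
        rw [← smul_sub]
        have hu := fun j (hj : j < Φ.k0) => congr_data (L := L) (c := Φ.data i.M i.eps i.τ')
          (c' := Φ.data i.M i.eps i.τ) j fun l hl =>
          Φ.data_congr i.M i.eps i.τ' i.M i.eps i.τ (show l < Φ.k0 by omega)
        rw [Xtr, Xtr, if_pos (by omega), if_pos (by omega)]
        show _ • ((W L _ (k + 1) _ + px (U L _ k) _) - (W L _ (k + 1) _ + px (U L _ k) _)) = _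
        rw [(hu k (by omega)).1, (hu (k + 1) (by omega)).2, sub_self, smul_zero]
  rw [e, show (fun p => (gap i * scale i.toTop) • s p +
      (gap i * (lam⁻¹) ^ (Φ.k0 - 1)) • along (B i) lam p) =
    (fun p => (gap i * scale i.toTop) • s p) +
      (fun p => (gap i * (lam⁻¹) ^ (Φ.k0 - 1)) • along (B i) lam p) from rfl,
    Generic.pd_add isOpen_univ (hss.const_smul _).contDiffOn (hBs.const_smul _).contDiffOn a b
      (Set.mem_univ x), Pi.add_apply]
  refine (norm_add_le _ _).trans ?_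
  rw [pd_smul _ hss, pd_smul _ hBs, norm_smul, norm_smul, Real.norm_eq_abs, Real.norm_eq_abs]
  have hg := gap_nonneg i
  have hs0 : 0 ≤ scale i.toTop := by linarith [hm i]
  have hl0 : 0 ≤ lam := by linarith
  rw [abs_of_nonneg (mul_nonneg hg hs0), abs_of_nonneg (mul_nonneg hg (by positivity))]
  have t1 := mul_le_mul_of_nonneg_left (hs ▸ hC1 i lam hlam x) (mul_nonneg hg hs0)
  have t2 := mul_le_mul_of_nonneg_left (hC2 i lam hlam x)
    (mul_nonneg hg (pow_nonneg (inv_nonneg.2 hl0) (Φ.k0 - 1)))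
  refine (add_le_add t1 t2).trans ?_
  obtain ⟨P, hP⟩ : ∃ P, P = gap i * ((i.top : ℝ) * lam) ^ a * (lam⁻¹) ^ Φ.k0 := ⟨_, rfl⟩
  have hP0 : 0 ≤ P := by rw [hP]; positivity
  have h1 : (lam⁻¹) ^ (Φ.k0 - 1) = lam * (lam⁻¹) ^ Φ.k0 := by
    conv_rhs => rw [show Φ.k0 = (Φ.k0 - 1) + 1 by omega, pow_succ', ← mul_assoc,
      mul_inv_cancel₀ hl, one_mul]
  calc gap i * scale i.toTop * (C1 * (scale i.toTop * lam) ^ a * (lam⁻¹) ^ Φ.k0) +
        gap i * (lam⁻¹) ^ (Φ.k0 - 1) * (C2 * (scale i.toTop * lam) ^ a)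
      = C1 * (i.top * P) + C2 * (lam * P) := by simp only [scale, h1, hP]; ring
    _ ≤ (C1 + C2) * ((i.top + lam) * P) := by
        have : 0 ≤ (i.top : ℝ) := Nat.cast_nonneg _
        nlinarith [mul_nonneg hC10 (mul_nonneg hl0 hP0), mul_nonneg hC20 (mul_nonneg this hP0)]
    _ = _ := by rw [hP]; ring

lemma contDiff_mainW (L : LoopData D) (M : κ → ℕ) (eps v : κ → ℝ) (lam : ℝ) :
    ContDiff ℝ ∞ fun p : R2 => Φ.mainW L M eps v (p, lam * p.1) :=
  ((ContDiff.sum fun j _ => contDiff_const.mul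
    (isProfile_freq (isProfile_dPhase (Φ.A_prof j)) (M j)).1).smul L.e_prof.1).comp
    (contDiff_id.prodMk (contDiff_const.mul contDiff_fst))

/-- The leading term of the `x` derivative of the parameter derivative. -/
theorem lead_bound [DecidableEq κ] (N a b : ℕ) (hk0 : 2 ≤ Φ.k0) (hN : Φ.k0 ≤ N + 1) :
    ∃ C, 0 ≤ C ∧
    ∀ (M : κ → ℕ) (eps τ w : κ → ℝ) (top : ℕ) (lam : ℝ), (∀ j, 1 ≤ M j) → (∀ j, 0 ≤ eps j) →
      (∀ j, eps j * M j ≤ 1) → ‖τ‖ ≤ 7 → ‖w‖ ≤ 1 → 1 ≤ top →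
      (∀ j, M j ≤ top ∨ τ j = 0 ∧ w j = 0) → 1 ≤ lam → ∀ x,
      ‖Generic.pd a b (fun y => Generic.dx (fun y =>
          fderiv ℝ (fun z : (κ → ℝ) × R2 => Φ.H L N lam M eps z.1 z.2) (τ, y) (w, 0)) y
          - (lam⁻¹) ^ (Φ.k0 - 1) • Φ.mainW L M eps w (y, lam * y.1)) x‖ ≤
        C * ((∑ j, eps j / M j * |w j|) * (top + lam)) * (top * lam) ^ a * (lam⁻¹) ^ Φ.k0 := by
  obtain ⟨C, hC0, hC⟩ := Φ.dx_diff_bound (L := L) N a b hk0 hN
  refine ⟨C, hC0, fun M eps τ w top lam hM he heM hτ hw htop hact hlam x => ?_⟩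
  have hl : 0 ≤ lam := by linarith
  have hS : 0 ≤ ∑ j, eps j / M j * |w j| :=
    Finset.sum_nonneg fun j _ => by have := he j; positivity
  obtain ⟨h1, h2⟩ := line_deriv (G := Φ.H L N lam M eps) (Φ.contDiff_H N lam hM eps) τ w
  obtain ⟨K, hK⟩ : ∃ K : ℝ × R2 → V4, K = fun z => Φ.H L N lam M eps (τ + z.1 • w) z.2 := ⟨_, rfl⟩
  rw [← hK] at h1
  obtain ⟨m, hm⟩ : ∃ m : R2 → V4,
      m = fun y => (lam⁻¹) ^ (Φ.k0 - 1) • Φ.mainW L M eps w (y, lam * y.1) := ⟨_, rfl⟩
  have hms : ContDiff ℝ ∞ m := hm ▸ (Φ.contDiff_mainW L M eps w lam).const_smul _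
  obtain ⟨G, hG⟩ : ∃ G : ℝ → R2 → V4,
      G = fun s y => ptl ((0 : ℝ), ((1 : ℝ), (0 : ℝ))) K (s, y) - s • m y := ⟨_, rfl⟩
  have hGs : ContDiff ℝ ∞ fun z : ℝ × R2 => G z.1 z.2 := by
    rw [hG]
    exact (contDiff_ptl h1).sub (contDiff_fst.smul (hms.comp contDiff_snd))
  have hslice : ∀ s y, Generic.dx (fun y => K (s, y)) y = ptl ((0 : ℝ), ((1 : ℝ), (0 : ℝ))) K (s, y) :=
    fun s y => (pd_slice h1 1 0 s y :)
  have hder : ∀ y, fderiv ℝ (fun z : ℝ × R2 => G z.1 z.2) (0, y) (1, 0) =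
      Generic.dx (fun y => fderiv ℝ (fun z : (κ → ℝ) × R2 => Φ.H L N lam M eps z.1 z.2)
        (τ, y) (w, 0)) y - m y := fun y => by
    have hZ : (fun y => fderiv ℝ (fun z : (κ → ℝ) × R2 => Φ.H L N lam M eps z.1 z.2) (τ, y) (w, 0))
        = fun y => ptl ((1 : ℝ), (0 : R2)) K (0, y) := by
      funext y; rw [← h2 y, hK]; rfl
    rw [hZ, show Generic.dx (fun y => ptl ((1 : ℝ), (0 : R2)) K (0, y)) y =
      ptl ((0 : ℝ), ((1 : ℝ), (0 : ℝ))) (ptl ((1 : ℝ), (0 : R2)) K) (0, y) from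
        (pd_slice (contDiff_ptl h1) 1 0 (0 : ℝ) y :), ptl_comm h1, hG]
    have hs : HasFDerivAt (fun z : ℝ × R2 => z.1 • m z.2)
        ((0 : ℝ) • (fderiv ℝ m y).comp (ContinuousLinearMap.snd ℝ ℝ R2) +
          (ContinuousLinearMap.fst ℝ ℝ R2).smulRight (m y)) ((0 : ℝ), y) :=
      (hasFDerivAt_fst (𝕜 := ℝ) (p := ((0 : ℝ), y))).smul ((hms.differentiable (by simp) y).hasFDerivAt.comp ((0 : ℝ), y) hasFDerivAt_snd)
    rw [fderiv_fun_sub ((contDiff_ptl h1).differentiable (by simp) _) hs.differentiableAt,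
      _root_.sub_apply, hs.fderiv]
    simp [ptl]
  rw [show (fun y => Generic.dx (fun y =>
      fderiv ℝ (fun z : (κ → ℝ) × R2 => Φ.H L N lam M eps z.1 z.2) (τ, y) (w, 0)) y
      - (lam⁻¹) ^ (Φ.k0 - 1) • Φ.mainW L M eps w (y, lam * y.1)) =
    fun y => fderiv ℝ (fun z : ℝ × R2 => G z.1 z.2) (0, y) (1, 0) from
      funext fun y => by rw [hder, hm]]
  refine (deriv_of_sub hGs a b 0 1 x (C := C * ((∑ j, eps j / M j * |w j|) * (top + lam)) *
    (top * lam) ^ a * (lam⁻¹) ^ Φ.k0) (by positivity) fun s hs => ?_).trans_eq (by simp)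
  rw [sub_zero, Real.norm_eq_abs] at hs ⊢
  have hn : ‖τ + s • w‖ ≤ 8 := (norm_add_le _ _).trans (by
    rw [norm_smul, Real.norm_eq_abs]
    nlinarith [abs_nonneg s, norm_nonneg w])
  obtain ⟨i, hi⟩ : ∃ i, i = ixOf (M := M) (eps := eps) top hM he heM htop τ (τ + s • w)
      (by linarith) hn := ⟨_, rfl⟩
  have e1 : gap i = (∑ j, eps j / M j * |w j|) * |s| := by
    rw [hi, gap, Finset.sum_mul]
    refine Finset.sum_congr rfl fun j _ => ?_
    simp only [ixOf, Pi.add_apply, Pi.smul_apply, smul_eq_mul, add_sub_cancel_left, abs_mul]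
    rcases hact j with h | h
    · rw [min_eq_left h]; ring
    · simp [h.2]
  have e : (fun y => G s y - G 0 y) = fun p => dx (Φ.H L N lam i.M i.eps i.τ') p -
      dx (Φ.H L N lam i.M i.eps i.τ) p -
      (lam⁻¹) ^ (Φ.k0 - 1) • Φ.mainW L i.M i.eps (i.τ' - i.τ) (p, lam * p.1) := by
    funext y
    have hH1 : Φ.H L N lam i.M i.eps i.τ' = fun y => K (s, y) := by
      rw [hi, hK]
      exact (Φ.H_silent (M := M) (silent_top top (τ := τ + s • w) fun j => (hact j).imp id fun h =>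
        show (τ + s • w) j = 0 by simp [h.1, h.2]) N lam).symm
    have hH0 : Φ.H L N lam i.M i.eps i.τ = fun y => K (0, y) := by
      rw [hi, hK]
      refine (Φ.H_silent (M := M) (silent_top top (τ := τ) fun j => (hact j).imp id fun h =>
        h.1) N lam).symm.trans (funext fun y => ?_)
      exact (congrFun (congrArg (Φ.H L N lam M eps)
        (show τ + (0 : ℝ) • w = τ by simp)) y).symm
    have hW : Φ.mainW L i.M i.eps (i.τ' - i.τ) (y, lam * y.1) =
        s • Φ.mainW L M eps w (y, lam * y.1) := by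
      rw [mainW, mainW, smul_smul, Finset.mul_sum]
      refine congrArg (· • L.e (y, lam * y.1)) (Finset.sum_congr rfl fun j _ => ?_)
      rw [hi]
      simp only [ixOf, Pi.sub_apply, Pi.add_apply, Pi.smul_apply, smul_eq_mul, add_sub_cancel_left]
      rcases hact j with h | h
      · rw [min_eq_left h]; ring
      · simp [h.2]
    show _ = Generic.dx (Φ.H L N lam i.M i.eps i.τ') y - Generic.dx (Φ.H L N lam i.M i.eps i.τ) y - _
    rw [hH1, hH0, hslice, hslice, hW, hG, hm]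
    simp only
    rw [smul_comm s]
    simp only [zero_smul, sub_zero]
    abel
  rw [e]
  refine (hC i lam hlam x).trans_eq ?_
  rw [e1, show (i.top : ℝ) = top by rw [hi]; rfl]
  ring

end FreeData

end

end Vale.Agent.P205.WKB
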