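import Mathlib
import Vale.Agent.P205.Full.WKB.VarBounds

/-!
# P205: the change of the parameter derivative with the parameter

In normalised parameters all derivatives in the parameters are bounded at the top frequency, so
the parameter derivative changes by a square of `eps * top`.
-/

namespace Vale.Agent.P205.WKB

open scoped ContDiff Topology
open Correction Profile Filter
open Vale.Agent.P205.Algebra

noncomputable section

/-- The derivative of a smooth function is Lipschitz on a ball. -/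
lemma fderiv_lip {T : Type} [NormedAddCommGroup T] [NormedSpace ℝ T] [FiniteDimensional ℝ T]
    {φ : T → ℝ} (hφ : ContDiff ℝ ∞ φ) (r : ℝ) : ∃ K, 0 ≤ K ∧ ∀ x y, ‖x‖ ≤ r → ‖y‖ ≤ r →
      ∀ u, |fderiv ℝ φ y u - fderiv ℝ φ x u| ≤ K * ‖y - x‖ * ‖u‖ := by
  have h1 : ContDiff ℝ ∞ (fderiv ℝ φ) := hφ.fderiv_right (m := ∞) le_rfl
  obtain ⟨K, hK⟩ := (isCompact_closedBall (0 : T) r).exists_bound_of_continuousOn
    ((h1.continuous_fderiv (by simp)).continuousOn)
  refine ⟨max K 0, le_max_right _ _, fun x y hx hy u => ?_⟩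
  have h2 := (convex_closedBall (0 : T) r).norm_image_sub_le_of_norm_fderiv_le
    (fun z _ => (h1.differentiable (by simp)) z) (fun z hz => (hK z hz).trans (le_max_left K 0))
    (mem_closedBall_zero_iff.2 hx) (mem_closedBall_zero_iff.2 hy)
  refine le_trans (le_of_eq ?_) ((ContinuousLinearMap.le_opNorm _ u).trans
    (mul_le_mul_of_nonneg_right h2 (norm_nonneg u)))
  rw [Real.norm_eq_abs, _root_.sub_apply]

namespace FreeData

variable {D : Step} {L : LoopData D} {κ : Type} [Fintype κ] (Φ : FreeData D κ)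

/-- The coefficients in normalised parameters, constant below the order of the data. -/
lemma unit_decomp (k : ℕ) : ∃ (n : ℕ) (φ : Fin n → (κ → ℝ) → ℝ) (Q : Fin n → Top κ → R3 → V4),
    (∀ l, ContDiff ℝ ∞ (φ l)) ∧ (∀ l, Fam scale (Q l)) ∧
      (∀ i σ q, U L (Φ.data i.M (unit i.M) σ) k q = ∑ l, φ l σ • Q l i q) ∧
      (k < Φ.k0 → ∀ l σ, φ l σ = φ l 0) := by
  obtain ⟨n, φ, Q, hφ, hQ, e⟩ := ((separated (L := L) one_le_scale
    (fun (i : Top κ) (σ : κ → ℝ) => Φ.input i.M (unit i.M) σ) Φ.sep_unit k).1).exists_sum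
  by_cases hk : k < Φ.k0
  · refine ⟨n, fun l _ => φ l 0, Q, fun l => contDiff_const, fun l => (hQ l).fam,
      fun i σ q => ?_, fun _ _ _ => rfl⟩
    rw [← e i 0 q, (congr_data (L := L) k fun j hj =>
      Φ.data_congr i.M (unit i.M) σ i.M (unit i.M) 0 (by omega)).1]
  · exact ⟨n, φ, Q, hφ, fun l => (hQ l).fam, e, fun h => absurd h hk⟩

/-- The parameter derivative moves by the product of the normalised sizes. -/
theorem var_lip (N a b : ℕ) : ∃ C, 0 ≤ C ∧
    ∀ (M : κ → ℕ) (eps τ τ' w : κ → ℝ) (top : ℕ) (lam : ℝ), (∀ j, 1 ≤ M j) → (∀ j, 0 ≤ eps j) →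
      (∀ j, eps j * M j ≤ 1) → ‖τ‖ ≤ 8 → ‖τ'‖ ≤ 8 → 1 ≤ top →
      (∀ j, M j ≤ top ∨ τ j = 0 ∧ τ' j = 0 ∧ w j = 0) → 1 ≤ lam → ∀ x,
      ‖Generic.pd a b (fun x =>
          fderiv ℝ (fun z : (κ → ℝ) × R2 => Φ.H L N lam M eps z.1 z.2) (τ', x) (w, 0) -
          fderiv ℝ (fun z : (κ → ℝ) × R2 => Φ.H L N lam M eps z.1 z.2) (τ, x) (w, 0)) x‖ ≤
        C * ‖unitMap M eps (τ' - τ)‖ * ‖unitMap M eps w‖ * (top * lam) ^ a * (lam⁻¹) ^ Φ.k0 := by
  classical
  choose n φ Q hφ hQ eU hlow using Φ.unit_decomp (L := L)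
  choose K hK0 hK using fun k l => fderiv_lip (hφ k l) 8
  choose B hB0 hB using fun k l => (hQ k l).osc_pd one_le_scale a b
  refine ⟨∑ k ∈ Finset.range (N + 2), ∑ l, K k l * B k l, Finset.sum_nonneg fun k _ =>
    Finset.sum_nonneg fun l _ => mul_nonneg (hK0 k l) (hB0 k l),
    fun M eps τ τ' w top lam hM he heM hτ hτ' htop hact hlam x => ?_⟩
  obtain ⟨i, hi⟩ : ∃ i : Top κ, i = ⟨fun j => min (M j) top, top, htop,
      fun j => le_min (hM j) htop, fun j => min_le_right _ _⟩ := ⟨_, rfl⟩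
  have hiM : ∀ j, i.M j = min (M j) top := fun j => by rw [hi]
  have hmap : ∀ v : κ → ℝ, (∀ j, M j ≤ top ∨ v j = 0) → unitMap i.M eps v = unitMap M eps v :=
    fun v hv => funext fun j => by
      rcases hv j with h | h
      · simp [hiM, min_eq_left h]
      · simp [h]
  have hline : ∀ σ : κ → ℝ, ‖σ‖ ≤ 8 → (∀ j, M j ≤ top ∨ σ j = 0) → ∀ y,
      fderiv ℝ (fun z : (κ → ℝ) × R2 => Φ.H L N lam M eps z.1 z.2) (σ, y) (w, 0) =
        ∑ k ∈ Finset.range (N + 2), ∑ l, ((lam⁻¹) ^ k *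
          fderiv ℝ (φ k l) (unitMap M eps σ) (unitMap M eps w)) • along (Q k l i) lam y := by
    intro σ _ hσ y
    obtain ⟨h1, h2⟩ := line_deriv (G := Φ.H L N lam M eps) (Φ.contDiff_H N lam hM eps) σ w
    have hw : ∀ j, M j ≤ top ∨ w j = 0 := fun j => (hact j).imp id fun h => h.2.2
    have he' : ∀ s : ℝ, Φ.H L N lam M eps (σ + s • w) y = ∑ k ∈ Finset.range (N + 2), ∑ l,
        ((lam⁻¹) ^ k * φ k l (unitMap M eps σ + s • unitMap M eps w)) • along (Q k l i) lam y :=
      fun s => by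
        rw [Φ.H_silent (M' := i.M) (fun j => ?_) N lam, Φ.H_unit N lam i eps, H, approx]
        · refine Finset.sum_congr rfl fun k _ => ?_
          rw [eU, Finset.smul_sum]
          refine Finset.sum_congr rfl fun l _ => ?_
          rw [smul_smul, map_add, map_smul, hmap σ hσ, hmap w hw]
          rfl
        · rw [hiM]
          rcases hσ j, hw j with ⟨h | h, h' | h'⟩
          · exact Or.inr (min_eq_left h).symm
          · exact Or.inr (min_eq_left h).symm
          · exact Or.inr (min_eq_left h').symm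
          · exact Or.inl (by simp [h, h'])
    have hd : HasDerivAt (fun s : ℝ => ∑ k ∈ Finset.range (N + 2), ∑ l,
        ((lam⁻¹) ^ k * φ k l (unitMap M eps σ + s • unitMap M eps w)) • along (Q k l i) lam y)
        (∑ k ∈ Finset.range (N + 2), ∑ l, ((lam⁻¹) ^ k *
          fderiv ℝ (φ k l) (unitMap M eps σ) (unitMap M eps w)) • along (Q k l i) lam y) 0 := by
      refine HasDerivAt.fun_sum fun k _ => HasDerivAt.fun_sum fun l _ => ?_
      refine HasDerivAt.smul_const (HasDerivAt.const_mul _ ?_) _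
      have hl : HasDerivAt (fun s : ℝ => unitMap M eps σ + s • unitMap M eps w)
          (unitMap M eps w) 0 := by
        simpa using ((hasDerivAt_id (0 : ℝ)).smul_const (unitMap M eps w)).const_add
          (unitMap M eps σ)
      have hf := ((hφ k l).differentiable (by simp) (unitMap M eps σ + (0 : ℝ) • unitMap M eps w))
      simpa [Function.comp_def] using hf.hasFDerivAt.comp_hasDerivAt (0 : ℝ) hl
    obtain ⟨G', hG'⟩ : ∃ G' : ℝ × R2 → V4,
        G' = fun z => Φ.H L N lam M eps (σ + z.1 • w) z.2 := ⟨_, rfl⟩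
    rw [← hG'] at h1
    have hg0 : HasDerivAt (fun s : ℝ => G' (s, y)) (fderiv ℝ G' (0, y) (1, 0)) 0 :=
      ((h1.differentiable (by simp) (0, y)).hasFDerivAt).comp_hasDerivAt (0 : ℝ)
        ((hasDerivAt_id (0 : ℝ)).prodMk (hasDerivAt_const (0 : ℝ) y))
    have hg : HasDerivAt (fun s : ℝ => Φ.H L N lam M eps (σ + s • w) y)
        (fderiv ℝ (fun z : ℝ × R2 => Φ.H L N lam M eps (σ + z.1 • w) z.2) (0, y) (1, 0)) 0 := by
      rw [hG'] at hg0
      exact hg0
    rw [← h2 y]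
    rw [funext he'] at hg
    exact hg.unique hd
  have hτa : ∀ j, M j ≤ top ∨ τ j = 0 := fun j => (hact j).imp id fun h => h.1
  have hτa' : ∀ j, M j ≤ top ∨ τ' j = 0 := fun j => (hact j).imp id fun h => h.2.1
  obtain ⟨c, hc⟩ : ∃ c : (k : ℕ) → Fin (n k) → ℝ, c = fun k l => (lam⁻¹) ^ k *
      (fderiv ℝ (φ k l) (unitMap M eps τ') (unitMap M eps w) -
        fderiv ℝ (φ k l) (unitMap M eps τ) (unitMap M eps w)) := ⟨_, rfl⟩
  have e : (fun x => fderiv ℝ (fun z : (κ → ℝ) × R2 => Φ.H L N lam M eps z.1 z.2) (τ', x) (w, 0) -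
      fderiv ℝ (fun z : (κ → ℝ) × R2 => Φ.H L N lam M eps z.1 z.2) (τ, x) (w, 0)) =
      fun y => ∑ k ∈ Finset.range (N + 2), ∑ l, c k l • along (Q k l i) lam y := funext fun y => by
    rw [hline τ' hτ' hτa', hline τ hτ hτa, ← Finset.sum_sub_distrib]
    refine Finset.sum_congr rfl fun k _ => ?_
    rw [← Finset.sum_sub_distrib]
    exact Finset.sum_congr rfl fun l _ => by rw [← sub_smul, hc, ← mul_sub]
  have hs : ∀ k l, ContDiff ℝ ∞ (along (Q k l i) lam) := fun k l =>
    contDiff_along ((hQ k l).smooth i) lam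
  obtain ⟨P, hP⟩ : ∃ P, P = ‖unitMap M eps (τ' - τ)‖ * ‖unitMap M eps w‖ *
      ((top : ℝ) * lam) ^ a * (lam⁻¹) ^ Φ.k0 := ⟨_, rfl⟩
  have hl : 0 ≤ lam := by linarith
  have hP0 : 0 ≤ P := hP ▸ by positivity
  rw [e, pd_sum _ (g := fun k y => ∑ l, c k l • along (Q k l i) lam y)
    (fun k _ => ContDiff.sum fun l _ => (hs k l).const_smul _) a b x]
  refine (norm_sum_le _ _).trans ((Finset.sum_le_sum fun k _ => ?_).trans_eq
    (b := ∑ k ∈ Finset.range (N + 2), ∑ l, K k l * B k l * P) ?_)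
  · rw [pd_sum _ (g := fun l y => c k l • along (Q k l i) lam y)
      (fun l _ => (hs k l).const_smul _) a b x]
    refine (norm_sum_le _ _).trans (Finset.sum_le_sum fun l _ => ?_)
    rw [pd_smul _ (hs k l), norm_smul, Real.norm_eq_abs]
    have hb : ‖Generic.pd a b (along (Q k l i) lam) x‖ ≤ B k l * ((top : ℝ) * lam) ^ a := by
      have := hB k l i lam hlam x
      rwa [show scale i = (top : ℝ) by rw [hi]; rfl] at this
    by_cases hk : k < Φ.k0
    · have : φ k l = fun _ => φ k l 0 := funext fun σ => hlow k hk l σ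
      rw [hc]
      simp only
      rw [this]
      simp only [fderiv_fun_const, Pi.zero_apply, ContinuousLinearMap.zero_apply, sub_self,
        mul_zero, abs_zero, zero_mul]
      exact mul_nonneg (mul_nonneg (hK0 k l) (hB0 k l)) hP0
    have hn : ∀ σ : κ → ℝ, ‖σ‖ ≤ 8 → ‖unitMap M eps σ‖ ≤ 8 := fun σ h =>
      (norm_unitMap_le he heM σ).trans h
    have hd := hK k l _ _ (hn τ hτ) (hn τ' hτ') (unitMap M eps w)
    rw [← map_sub] at hd
    have h1 : (lam⁻¹) ^ k ≤ (lam⁻¹) ^ Φ.k0 := pow_le_pow_of_le_one (inv_nonneg.2 hl)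
      (inv_le_one_of_one_le₀ hlam) (by omega)
    calc |c k l| * ‖Generic.pd a b (along (Q k l i) lam) x‖
        ≤ ((lam⁻¹) ^ Φ.k0 * (K k l * ‖unitMap M eps (τ' - τ)‖ * ‖unitMap M eps w‖)) *
            (B k l * ((top : ℝ) * lam) ^ a) := by
          refine mul_le_mul ?_ hb (norm_nonneg _) ?_
          · rw [hc, abs_mul, abs_of_nonneg (pow_nonneg (inv_nonneg.2 hl) k)]
            exact mul_le_mul h1 hd (abs_nonneg _) (by positivity)
          · have := hK0 k l; positivity
      _ = K k l * B k l * P := by rw [hP]; ring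
  · rw [hP, Finset.sum_mul, Finset.sum_mul, Finset.sum_mul, Finset.sum_mul]
    refine Finset.sum_congr rfl fun k _ => ?_
    rw [Finset.sum_mul, Finset.sum_mul, Finset.sum_mul, Finset.sum_mul]
    exact Finset.sum_congr rfl fun l _ => by ring

end FreeData

end

end Vale.Agent.P205.WKB
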