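import Mathlib
import Vale.Agent.P205.Full.WKB.NonDeg

/-!
# P205: the series with zero data near the loop, and the pairing with the free normal

Every derivative of `approx - f` and of `F_x - X0` costs `lam` per `x` derivative and gains one
`lam⁻¹`; the normal of the loop pairs positively with the free normal.
-/

namespace Vale.Agent.P205.WKB

open scoped ContDiff RealInnerProductSpace Topology
open Correction Profile Filter Set
open Vale.Agent.P205.Algebra

noncomputable section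

/-- The series with zero data is near the loop in every derivative. -/
theorem zero_near {D : Step} {L : LoopData D} (N a b : ℕ) : ∃ C, 0 ≤ C ∧
    ∀ lam : ℝ, 1 ≤ lam → ∀ x,
      ‖Generic.pd a b (fun y => approx L (fun _ _ => 0) N lam y - D.f y) x‖ ≤
        C * lam ^ a * lam⁻¹ ∧
      ‖Generic.pd a b (fun y => dx (approx L (fun _ _ => 0) N lam) y -
        L.X0 (y, lam * y.1)) x‖ ≤ C * lam ^ a * lam⁻¹ := by
  have hb := bounded (L := L) (m := fun _ : Unit => (1 : ℝ)) (δ := fun _ => (0 : ℝ))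
    (fun _ => le_rfl) (fun _ => input_zero) (fun _ => input_zero) fun _ => Pair.zero
  have hX := fun k => (Xtr_pair (L := L) (m := fun _ : Unit => (1 : ℝ))
    (δ := fun _ => (0 : ℝ)) (fun _ => le_rfl) (fun _ => input_zero) (fun _ => input_zero)
    (fun _ => Pair.zero) N k).left.fam
  obtain ⟨C, hC0, hC⟩ := sum_pd (m := fun _ : Unit => (1 : ℝ)) (fun _ => le_rfl)
    (Finset.range (N + 1)) (d := fun k => k + 1) (K := 1) (fun k _ => Nat.le_add_left _ _)
    (G := fun k _ => U L (fun _ _ => 0) (k + 1)) (fun k _ => (hb (k + 1)).1.left.fam) a b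
  obtain ⟨C', hC0', hC'⟩ := sum_pd (m := fun _ : Unit => (1 : ℝ)) (fun _ => le_rfl)
    (Finset.range (N + 1)) (d := fun k => k + 1) (K := 1) (fun k _ => Nat.le_add_left _ _)
    (G := fun k _ => Xtr L (fun _ _ => 0) N (k + 1)) (fun k _ => hX (k + 1)) a b
  refine ⟨C + C', by positivity, fun lam hlam x => ?_⟩
  have hl : (0 : ℝ) ≤ lam ^ a * lam⁻¹ :=
    mul_nonneg (pow_nonneg (by linarith) a) (inv_nonneg.2 (by linarith))
  constructor
  · rw [funext (approx_sub (L := L) (fun _ _ => 0) N lam)]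
    refine (hC () lam hlam x).trans ?_
    rw [one_mul, pow_one, mul_assoc, mul_assoc]
    exact mul_le_mul_of_nonneg_right (by linarith) hl
  · rw [show (fun y => dx (approx L (fun _ _ => 0) N lam) y - L.X0 (y, lam * y.1)) =
        fun y => ∑ k ∈ Finset.range (N + 1), (lam⁻¹) ^ (k + 1) •
          Xtr L (fun _ _ => 0) N (k + 1) (y, lam * y.1) from funext fun y => by
      rw [dx_approx input_zero N (show lam ≠ 0 by linarith), Finset.sum_range_succ',
        pow_zero, one_smul, Xtr_zero]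
      abel]
    refine (hC' () lam hlam x).trans ?_
    rw [one_mul, pow_one, mul_assoc, mul_assoc]
    exact mul_le_mul_of_nonneg_right (by linarith) hl

/-- Where the jet of `f` is independent in the support, the normal of the loop pairs positively with
the free normal. -/
theorem pair_pos (R : Round) {S : Set R2} (hS : IsCompact S) (hSK : S ⊆ R.D.K)
    (h : ∀ p ∈ S, LinearIndependent ℝ ![dx R.D.f p, dy R.D.f p, F22 R.D.f p]) :
    ∃ c > 0, ∀ p ∈ S, ∀ θ : ℝ, c ≤
      ⟪cross4 (R.spin.loop.X0 (p, θ)) (dy R.D.f p) (F22 R.D.f p), R.spin.loop.e (p, θ)⟫ := by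
  obtain ⟨g, hg⟩ : ∃ g : R3 → ℝ, ∀ q, g q =
      ⟪cross4 (R.spin.loop.X0 q) (dy R.D.f q.1) (F22 R.D.f q.1), R.spin.loop.e q⟫ :=
    ⟨_, fun _ => rfl⟩
  have hge : ∀ q, q.1 ∈ R.D.K → g q = ⟪cross4 (dy R.D.f q.1) (F22 R.D.f q.1) (R.spin.loop.X0 q),
      cross4 (dy R.D.f q.1) (F22 R.D.f q.1) (R.spin.loop.X0 q)⟫ := fun q hq => by
    have e1 : R.spin.loop.e q =
        cross4 (dy R.D.f q.1) (F22 R.D.f q.1) (R.spin.loop.X0 q) :=
      (cross4_add_smul _ _ _ _ _).symm
    have e2 : ∀ X T A : V4, cross4 X T A = cross4 T A X := fun X T A => by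
      ext i
      fin_cases i <;> simp [cross4] <;> ring
    rw [hg, e1, e2]
  have hpos : ∀ q : R3, q.1 ∈ S → 0 < g q := fun q hq => by
    have h2 : LinearIndependent ℝ ![dy R.D.f q.1, F22 R.D.f q.1] :=
      Fintype.linearIndependent_iff.2 fun c hc i => by
        have := Fintype.linearIndependent_iff.1 (h _ hq) ![0, c 0, c 1]
          (by simpa [Fin.sum_univ_two, Fin.sum_univ_three] using hc)
        fin_cases i
        exacts [this 1, this 2]
    have hi := indep_loop R.spin.loop_twist (hSK hq) h2 q.2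
    have hc := Fintype.linearIndependent_iff.1 hi
    obtain ⟨d1, d2⟩ := pos_of_indep hi
    rw [hge q (hSK hq), cross4_gram]
    obtain ⟨X, T, A, hX, hT, hA⟩ : ∃ X T A, X = R.spin.loop.X0 q ∧ T = dy R.D.f q.1 ∧
      A = F22 R.D.f q.1 := ⟨_, _, _, rfl, rfl, rfl⟩
    have d1' : 0 < gramJ (X, T, A) := by rw [hX, hT, hA]; exact d1
    have d2' : 0 < normJ (X, T, A) := by rw [hX, hT, hA]; exact d2
    rw [← hX, ← hT, ← hA]
    have e : ⟪perpJ (X, T, A), perpJ (X, T, A)⟫ * gramJ (X, T, A) =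
        ⟪T, T⟫ * (⟪A, A⟫ * ⟪X, X⟫ - ⟪A, X⟫ ^ 2) - ⟪T, A⟫ * (⟪T, A⟫ * ⟪X, X⟫ - ⟪A, X⟫ * ⟪T, X⟫)
          + ⟪T, X⟫ * (⟪T, A⟫ * ⟪A, X⟫ - ⟪A, A⟫ * ⟪T, X⟫) := by
      obtain ⟨G, hG⟩ : ∃ G, G = gramJ (X, T, A) := ⟨_, rfl⟩
      have hG0 : G ≠ 0 := hG ▸ d1'.ne'
      have hGe : G = ⟪X, X⟫ * ⟪T, T⟫ - ⟪X, T⟫ ^ 2 := hG
      rw [perpJ, ← hG]
      simp only [inner_sub_left, inner_sub_right, real_inner_smul_left, real_inner_smul_right,
        real_inner_comm X A, real_inner_comm T A, real_inner_comm X T]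
      field_simp
      rw [hGe]
      ring
    rw [← e]
    exact mul_pos d2' d1'
  have hgc : Continuous g := by
    rw [funext hg]
    have hT : Continuous fun q : R3 => dy R.D.f q.1 :=
      (smooth2_dy R.D.f_smooth).1.continuous.comp continuous_fst
    have hA : Continuous fun q : R3 => F22 R.D.f q.1 :=
      (smooth2_dy (smooth2_dy R.D.f_smooth)).1.continuous.comp continuous_fst
    exact ((contDiff_cross4 (u := fun x : V4 × V4 × V4 => x.1) (v := fun x => x.2.1)
      (w := fun x => x.2.2) (by fun_prop) (by fun_prop) (by fun_prop)).continuous.comp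
        (R.spin.loop.isProfile_X0.1.continuous.prodMk (hT.prodMk hA))).inner
      R.spin.loop.e_prof.1.continuous
  rcases eq_empty_or_nonempty S with he | hne
  · exact ⟨1, one_pos, fun p hp => absurd hp (by simp [he])⟩
  obtain ⟨q0, hq0, hm⟩ := (hS.prod isCompact_Icc).exists_isMinOn
    (hne.prod (nonempty_Icc.2 (zero_le_one' ℝ))) hgc.continuousOn
  refine ⟨g q0, hpos q0 hq0.1, fun p hp θ => ?_⟩
  have h1 : g q0 ≤ g (p, Int.fract θ) :=
    hm ⟨hp, ⟨Int.fract_nonneg θ, (Int.fract_lt_one θ).le⟩⟩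
  have hper : ∀ {E : Type} [NormedAddCommGroup E] [NormedSpace ℝ E] {P : R3 → E}, IsProfile P →
      P (p, Int.fract θ) = P (p, θ) := fun {E} _ _ {P} hP => by
    have e := (phase_periodic hP p).sub_int_mul_eq (x := θ) ⌊θ⌋
    rw [mul_one] at e
    exact e
  rw [← hper R.spin.loop.isProfile_X0, ← hper R.spin.loop.e_prof]
  exact h1.trans_eq (hg _)

end

end Vale.Agent.P205.WKB
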