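import Mathlib
import Vale.Agent.P205.Full.WKB.Series
import Vale.Agent.P205.Full.WKB.SpinLoop

/-!
# P205: the hybrid recursion

Phase and kernel direction are the first coordinate.  Only the scalar equation
`ε_xx * (B - ε_yy) + ε_xy ^ 2 = 0` for the error `ε` of the induced metric is solved: at each order
it prescribes the `xx` coefficient.  Its mean goes into a normal term `y • N`, its mean-free part
into the component of `W` along `f_x + a • u`; a skew rotation of `f_x + a • u` fixes the mean of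
`W` without dividing by the amplitude.
-/

namespace Vale.Agent.P205.WKB

open scoped ContDiff RealInnerProductSpace
open Correction Profile intervalIntegral
open Vale.Agent.P205.Algebra

noncomputable section

/-- The data of a hybrid step. -/
structure Hybrid where
  /-- the map -/
  f : R2 → V4
  /-- the amplitude -/
  a : R2 → ℝ
  /-- the coefficient of `dy²` in the rank one field -/
  B : R2 → ℝ
  /-- the cutoff -/
  η : R2 → ℝ
  /-- the loop divided by the amplitude -/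
  u : R3 → V4
  /-- normal vector with `⟪f_xx, N⟫ = 1` -/
  N : R2 → V4
  /-- the support set -/
  K : Set R2
  f_smooth : Smooth2 f
  a_smooth : Smooth2 a
  B_smooth : Smooth2 B
  η_smooth : Smooth2 η
  N_smooth : Smooth2 N
  u_prof : IsProfile u
  K_closed : IsClosed K
  η_le : ∀ p, η p ≤ 1
  η_one : ∀ p ∈ K, η p = 1
  a_zero : ∀ p ∉ K, a p = 0
  B_nonneg : ∀ p, 0 ≤ B p
  B_pos : ∀ p, η p = 1 → 0 < B p
  u_mean : ∀ p, mean u p = 0
  T_u : ∀ p ∈ K, ∀ θ, ⟪dy f p, u (p, θ)⟫ = 0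
  circle : ∀ p ∈ K, ∀ θ,
    ⟪dx f p + a p • u (p, θ), dx f p + a p • u (p, θ)⟫ = ⟪dx f p, dx f p⟫ + a p ^ 2
  fx_ne : ∀ p, η p = 1 → dx f p ≠ 0
  nondeg : ∀ p, η p = 1 → ∃ θ, ∀ r : ℝ, u (p, θ) ≠ r • dx f p
  N_fx : ∀ p ∈ K, ⟪dx f p, N p⟫ = 0
  N_fxx : ∀ p ∈ K, ⟪dx (dx f) p, N p⟫ = 1

namespace Hybrid

variable (H : Hybrid)

/-- The regularised denominator. -/
def den (x : R2 → ℝ) (p : R2) : ℝ := x p + (1 - H.η p)

lemma den_pos {x : R2 → ℝ} (hx : ∀ p, 0 ≤ x p) (h1 : ∀ p, H.η p = 1 → 0 < x p) (p : R2) :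
    0 < H.den x p := by
  unfold den
  rcases (H.η_le p).lt_or_eq with h | h
  · linarith [hx p]
  · linarith [h1 p h]

lemma smooth2_rinv {x : R2 → ℝ} (hx : Smooth2 x) (hpos : ∀ p, 0 < H.den x p) :
    Smooth2 (rinv H.η x) :=
  ⟨(hx.1.add (contDiff_const.sub H.η_smooth.1)).inv fun p => (hpos p).ne',
    fun p => by simp only [rinv, hx.2.1, H.η_smooth.2.1],
    fun p => by simp only [rinv, hx.2.2, H.η_smooth.2.2]⟩

lemma rinv_one {x : R2 → ℝ} {p : R2} (hp : H.η p = 1) : rinv H.η x p = (x p)⁻¹ := by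
  simp [rinv, hp]

/-- The squared length of `f_x + a • u`. -/
def rad (p : R2) : ℝ := ⟪dx H.f p, dx H.f p⟫ + H.a p * H.a p

lemma smooth2_rad : Smooth2 H.rad :=
  (smooth2_inner (smooth2_dx H.f_smooth) (smooth2_dx H.f_smooth)).add
    (H.a_smooth.bilin H.a_smooth (ContinuousLinearMap.mul ℝ ℝ))

lemma rad_pos {p : R2} (hp : H.η p = 1) : 0 < H.rad p :=
  add_pos_of_pos_of_nonneg (real_inner_self_pos.2 (H.fx_ne p hp)) (mul_self_nonneg _)

lemma smooth2_irad : Smooth2 (rinv H.η H.rad) :=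
  H.smooth2_rinv H.smooth2_rad (H.den_pos
    (fun _ => add_nonneg real_inner_self_nonneg (mul_self_nonneg _)) fun _ => H.rad_pos)

lemma smooth2_iB : Smooth2 (rinv H.η H.B) :=
  H.smooth2_rinv H.B_smooth (H.den_pos H.B_nonneg H.B_pos)

/-- `f_x + a • u`. -/
def X0 (q : R3) : V4 := dx H.f q.1 + H.a q.1 • H.u q

lemma isProfile_X0 : IsProfile H.X0 :=
  isProfile_add (isProfile_lift (smooth2_dx H.f_smooth))
    (isProfile_bilin (isProfile_lift H.a_smooth) H.u_prof (ContinuousLinearMap.lsmul ℝ ℝ))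

/-- The positive operator of the mean fix. -/
def op (p : R2) : V4 →L[ℝ] V4 :=
  (⟪dx H.f p, dx H.f p⟫ + mean (fun q => ⟪H.u q, H.u q⟫) p + (1 - H.η p)) •
      ContinuousLinearMap.id ℝ V4
    - rk (dx H.f p) - mean (fun q => rk (H.u q)) p

/-- Its inverse. -/
def opInv (p : R2) : V4 →L[ℝ] V4 := (H.op p).inverse

lemma isProfile_rk_u : IsProfile fun q => rk (H.u q) :=
  ⟨contDiff_rk H.u_prof.1, fun z => ⟨congrArg rk (H.u_prof.2 z).1,
    congrArg rk (H.u_prof.2 z).2.1, congrArg rk (H.u_prof.2 z).2.2⟩⟩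

lemma smooth2_op : Smooth2 H.op :=
  (((((smooth2_inner (smooth2_dx H.f_smooth) (smooth2_dx H.f_smooth)).add
    (smooth2_mean (isProfile_ip H.u_prof H.u_prof))).add
      ((smooth2_const (1 : ℝ)).sub H.η_smooth)).bilin
        (smooth2_const (ContinuousLinearMap.id ℝ V4)) (ContinuousLinearMap.lsmul ℝ ℝ)).sub
    (smooth2_rk (smooth2_dx H.f_smooth))).sub (smooth2_mean H.isProfile_rk_u)

lemma inner_cov (p : R2) (y : V4) :
    ⟪mean (fun q => rk (H.u q)) p y, y⟫ = mean (fun q => ⟪H.u q, y⟫ * ⟪H.u q, y⟫) p := by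
  have h := ((innerSL ℝ).flip y ∘L ContinuousLinearMap.apply ℝ V4 y).intervalIntegral_comp_comm
    (μ := MeasureTheory.volume) (intervalIntegrable_phase H.isProfile_rk_u.1.continuous p 0 1)
  refine Eq.trans ?_ (h.symm.trans (intervalIntegral.integral_congr fun t _ => ?_))
  · rfl
  · show ⟪rk (H.u (p, t)) y, y⟫ = _
    rw [rk_apply, real_inner_smul_left]

lemma gap_nonneg (b y : V4) : 0 ≤ ⟪b, b⟫ * ⟪y, y⟫ - ⟪b, y⟫ * ⟪b, y⟫ := by
  linarith [real_inner_mul_inner_self_le b y]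

lemma gap_eq (b y : V4) (h : ⟪b, b⟫ * ⟪y, y⟫ - ⟪b, y⟫ * ⟪b, y⟫ = 0) :
    ⟪b, b⟫ • y = ⟪b, y⟫ • b := by
  refine sub_eq_zero.1 (inner_self_eq_zero (𝕜 := ℝ).1 ?_)
  simp only [inner_sub_left, inner_sub_right, real_inner_smul_left, real_inner_smul_right,
    real_inner_comm b y]
  linear_combination ⟪b, b⟫ * h

lemma op_ker (p : R2) (y : V4) (h : H.op p y = 0) : y = 0 := by
  have cu : Continuous H.u := H.u_prof.1.continuous
  have c1 : Continuous fun q => ⟪H.u q, H.u q⟫ * ⟪y, y⟫ := (cu.inner cu).mul continuous_const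
  have c2 : Continuous fun q => ⟪H.u q, y⟫ * ⟪H.u q, y⟫ :=
    (cu.inner continuous_const).mul (cu.inner continuous_const)
  have h0 : ⟪H.op p y, y⟫ = (⟪dx H.f p, dx H.f p⟫ * ⟪y, y⟫ - ⟪dx H.f p, y⟫ * ⟪dx H.f p, y⟫)
      + mean (fun q => ⟪H.u q, H.u q⟫ * ⟪y, y⟫ - ⟪H.u q, y⟫ * ⟪H.u q, y⟫) p
      + (1 - H.η p) * ⟪y, y⟫ := by
    rw [mean_sub c1 c2, ← inner_cov]
    simp only [op, _root_.sub_apply, _root_.smul_apply, ContinuousLinearMap.id_apply, rk_apply,
      inner_sub_left, real_inner_smul_left]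
    rw [show mean (fun q => ⟪H.u q, H.u q⟫ * ⟪y, y⟫) p =
      mean (fun q => ⟪H.u q, H.u q⟫) p * ⟪y, y⟫ from intervalIntegral.integral_mul_const _ _]
    ring
  rw [h, inner_zero_left] at h0
  have n1 := gap_nonneg (dx H.f p) y
  have n2 : 0 ≤ mean (fun q => ⟪H.u q, H.u q⟫ * ⟪y, y⟫ - ⟪H.u q, y⟫ * ⟪H.u q, y⟫) p :=
    intervalIntegral.integral_nonneg zero_le_one fun t _ => gap_nonneg _ y
  have n3 : 0 ≤ (1 - H.η p) * ⟪y, y⟫ :=
    mul_nonneg (by linarith [H.η_le p]) real_inner_self_nonneg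
  rcases (H.η_le p).lt_or_eq with hη | hη
  · have : (1 - H.η p) * ⟪y, y⟫ = 0 := by linarith
    exact inner_self_eq_zero.1 ((mul_eq_zero.1 this).resolve_left (by linarith))
  have e1 := gap_eq (dx H.f p) y (by linarith)
  have hm : mean (fun q => ⟪H.u q, H.u q⟫ * ⟪y, y⟫ - ⟪H.u q, y⟫ * ⟪H.u q, y⟫) p = 0 := by
    linarith
  obtain ⟨θ, hθ⟩ := H.nondeg p hη
  by_contra hy
  have hper : Function.Periodic (fun t => H.u (p, t)) 1 := phase_periodic H.u_prof p
  obtain ⟨t, ht, e⟩ := hper.exists_mem_Ico₀ one_pos θ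
  have hz : ⟪H.u (p, t), H.u (p, t)⟫ * ⟪y, y⟫ - ⟪H.u (p, t), y⟫ * ⟪H.u (p, t), y⟫ = 0 := by
    by_contra hne
    exact absurd hm (intervalIntegral.integral_pos one_pos
      ((c1.sub c2).comp (Continuous.prodMk_right p)).continuousOn (fun s _ => gap_nonneg _ y)
      ⟨t, ⟨ht.1, ht.2.le⟩, lt_of_le_of_ne (gap_nonneg _ y) (Ne.symm hne)⟩).ne'
  have e2 := gap_eq y (H.u (p, t)) (by
    rw [real_inner_comm (H.u (p, t)) y, mul_comm ⟪y, y⟫]; exact hz)
  have hyy : (⟪y, y⟫ : ℝ) ≠ 0 := (real_inner_self_pos.2 hy).ne'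
  have hff : (⟪dx H.f p, dx H.f p⟫ : ℝ) ≠ 0 := (real_inner_self_pos.2 (H.fx_ne p hη)).ne'
  refine hθ (⟪y, H.u (p, t)⟫ / ⟪y, y⟫ * (⟪dx H.f p, y⟫ / ⟪dx H.f p, dx H.f p⟫)) ?_
  have e1' : y = (⟪dx H.f p, y⟫ / ⟪dx H.f p, dx H.f p⟫) • dx H.f p := by
    rw [div_eq_inv_mul, mul_smul, ← e1, smul_smul, inv_mul_cancel₀ hff, one_smul]
  rw [show H.u (p, θ) = H.u (p, t) from e, mul_smul, ← e1', div_eq_inv_mul, mul_smul, ← e2,
    smul_smul, inv_mul_cancel₀ hyy, one_smul]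

/-- The operator as an equivalence. -/
def opEquiv (p : R2) : V4 ≃L[ℝ] V4 :=
  (LinearEquiv.ofInjectiveEndo (H.op p : V4 →ₗ[ℝ] V4)
    (LinearMap.ker_eq_bot.1 (LinearMap.ker_eq_bot'.2 (H.op_ker p)))).toContinuousLinearEquiv

lemma opEquiv_coe (p : R2) : (H.opEquiv p : V4 →L[ℝ] V4) = H.op p := rfl

lemma smooth2_opInv : Smooth2 H.opInv :=
  ⟨contDiff_iff_contDiffAt.2 fun p => ContDiffAt.comp p
      (H.opEquiv_coe p ▸ contDiffAt_map_inverse (H.opEquiv p)) H.smooth2_op.1.contDiffAt,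
    fun p => congrArg ContinuousLinearMap.inverse (H.smooth2_op.2.1 p),
    fun p => congrArg ContinuousLinearMap.inverse (H.smooth2_op.2.2 p)⟩

lemma op_opInv (p : R2) (v : V4) : H.op p (H.opInv p v) = v := by
  rw [opInv, ← H.opEquiv_coe p, ContinuousLinearMap.inverse_equiv]
  exact (H.opEquiv p).apply_symm_apply v

/-- The moment of `σ` that the rotation cancels. -/
def moment (σ : R3 → ℝ) (p : R2) : V4 :=
  rinv H.η H.rad p • mean (fun q => σ q • H.u q) p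

/-- The rotation vector. -/
def rot (σ : R3 → ℝ) (p : R2) : V4 := H.opInv p (H.moment σ p)

/-- The solution of the pointwise condition with mean zero. -/
def sol (σ : R3 → ℝ) (q : R3) : V4 :=
  (σ q * rinv H.η H.rad q.1) • H.X0 q
    - (⟪H.a q.1 • dx H.f q.1 + H.u q, H.X0 q⟫ • H.rot σ q.1
      - ⟪H.rot σ q.1, H.X0 q⟫ • (H.a q.1 • dx H.f q.1 + H.u q))

lemma isProfile_sol {σ : R3 → ℝ} (hσ : IsProfile σ) : IsProfile (H.sol σ) := by
  have hm : Smooth2 (H.rot σ) := H.smooth2_opInv.bilin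
    (smooth2_smul H.smooth2_irad (smooth2_mean (isProfile_bilin hσ H.u_prof
      (ContinuousLinearMap.lsmul ℝ ℝ)))) (ContinuousLinearMap.id ℝ (V4 →L[ℝ] V4))
  have hb : IsProfile fun q : R3 => H.a q.1 • dx H.f q.1 + H.u q :=
    isProfile_add (isProfile_lift (smooth2_smul H.a_smooth (smooth2_dx H.f_smooth))) H.u_prof
  have h1 := isProfile_bilin (isProfile_bilin hσ (isProfile_lift H.smooth2_irad)
    (ContinuousLinearMap.mul ℝ ℝ)) H.isProfile_X0 (ContinuousLinearMap.lsmul ℝ ℝ)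
  have h2 := isProfile_bilin (isProfile_ip hb H.isProfile_X0) (isProfile_lift hm)
    (ContinuousLinearMap.lsmul ℝ ℝ)
  have h3 := isProfile_bilin (isProfile_ip (isProfile_lift hm) H.isProfile_X0) hb
    (ContinuousLinearMap.lsmul ℝ ℝ)
  have h := isProfile_add h1 (isProfile_comp (isProfile_add h2 (isProfile_comp h3 contDiff_neg))
    contDiff_neg)
  convert h using 1
  funext q
  simp [sol, ip, lift, sub_eq_add_neg]

lemma sol_zero {σ : R3 → ℝ} {p : R2} (hσ : ∀ θ, σ (p, θ) = 0) (θ : ℝ) : H.sol σ (p, θ) = 0 := by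
  have h : H.rot σ p = 0 := by simp [rot, moment, mean, hσ]
  simp [sol, h, hσ θ]

lemma sol_X0 {σ : R3 → ℝ} (h0 : ∀ p ∉ H.K, ∀ θ, σ (p, θ) = 0) (p : R2) (θ : ℝ) :
    ⟪H.X0 (p, θ), H.sol σ (p, θ)⟫ = σ (p, θ) := by
  by_cases hp : p ∈ H.K
  swap
  · rw [H.sol_zero (h0 p hp), inner_zero_right, h0 p hp]
  have hr : ⟪H.X0 (p, θ), H.X0 (p, θ)⟫ = H.rad p := by
    rw [X0, H.circle p hp θ, rad, sq]
  simp only [sol, inner_sub_right, real_inner_smul_right, hr, H.rinv_one (H.η_one p hp)]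
  rw [real_inner_comm (H.X0 (p, θ)) (H.rot σ p),
    real_inner_comm (H.X0 (p, θ)) (H.a p • dx H.f p + H.u (p, θ)), mul_assoc,
    inv_mul_cancel₀ (H.rad_pos (H.η_one p hp)).ne']
  ring

lemma mean_sol {σ : R3 → ℝ} (hσ : IsProfile σ) (h0 : ∀ p ∉ H.K, ∀ θ, σ (p, θ) = 0)
    (hm : ∀ p, mean σ p = 0) (p : R2) : mean (H.sol σ) p = 0 := by
  by_cases hp : p ∈ H.K
  swap
  · simp [mean, H.sol_zero (h0 p hp)]
  have hη := H.η_one p hp
  have cu : Continuous H.u := H.u_prof.1.continuous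
  obtain ⟨F, hF⟩ : ∃ F, F = dx H.f p := ⟨_, rfl⟩
  obtain ⟨y, hy⟩ : ∃ y, y = H.rot σ p := ⟨_, rfl⟩
  obtain ⟨a, ha⟩ : ∃ a, a = H.a p := ⟨_, rfl⟩
  obtain ⟨r, hr⟩ : ∃ r, r = rinv H.η H.rad p := ⟨_, rfl⟩
  have hM := H.op_opInv p (H.moment σ p)
  rw [← rot, ← hy] at hM
  simp only [op, hη, sub_self, add_zero, _root_.sub_apply, _root_.smul_apply,
    ContinuousLinearMap.id_apply, rk_apply, ← hF] at hM
  have cs : Continuous fun q => σ q • H.u q := hσ.1.continuous.smul cu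
  have cr : Continuous fun q => rk (H.u q) y :=
    (contDiff_rk H.u_prof.1).continuous.clm_apply continuous_const
  rw [mean_congr (Q := fun q => (r • (σ q • F) + (r * a) • (σ q • H.u q)) -
      ((a • (⟪F, F⟫ • y - ⟪y, F⟫ • F) + (a * a) • (⟪F, H.u q⟫ • y - ⟪y, H.u q⟫ • F))
        + ((⟪H.u q, F⟫ • y - ⟪y, F⟫ • H.u q)
          + a • (⟪H.u q, H.u q⟫ • y - rk (H.u q) y)))) fun θ => by
    simp only [sol, X0, ← hF, ← hy, ← ha, ← hr, rk_apply, inner_add_left, inner_add_right,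
      real_inner_smul_left, real_inner_smul_right, real_inner_comm (H.u (p, θ)) y]
    module]
  have cF : Continuous fun q => σ q • F := hσ.1.continuous.smul continuous_const
  have k1 : Continuous fun q : R3 => ⟪F, H.u q⟫ := continuous_const.inner cu
  have k2 : Continuous fun q : R3 => ⟪y, H.u q⟫ := continuous_const.inner cu
  have k3 : Continuous fun q : R3 => ⟪H.u q, F⟫ := cu.inner continuous_const
  have k4 : Continuous fun q : R3 => ⟪H.u q, H.u q⟫ := cu.inner cu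
  have d1 : Continuous fun q : R3 => r • (σ q • F) + (r * a) • (σ q • H.u q) :=
    (cF.const_smul r).add (cs.const_smul (r * a))
  have d2 : Continuous fun q : R3 => ⟪F, H.u q⟫ • y - ⟪y, H.u q⟫ • F :=
    (k1.smul continuous_const).sub (k2.smul continuous_const)
  have d3 : Continuous fun q : R3 => ⟪H.u q, F⟫ • y - ⟪y, F⟫ • H.u q :=
    (k3.smul continuous_const).sub (cu.const_smul ⟪y, F⟫)
  have d4 : Continuous fun q : R3 => ⟪H.u q, H.u q⟫ • y - rk (H.u q) y :=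
    (k4.smul continuous_const).sub cr
  have e5 : Continuous fun q : R3 => a • (⟪F, F⟫ • y - ⟪y, F⟫ • F)
      + (a * a) • (⟪F, H.u q⟫ • y - ⟪y, H.u q⟫ • F) := continuous_const.add (d2.const_smul (a * a))
  have e6 : Continuous fun q : R3 => (⟪H.u q, F⟫ • y - ⟪y, F⟫ • H.u q)
      + a • (⟪H.u q, H.u q⟫ • y - rk (H.u q) y) := d3.add (d4.const_smul a)
  have si : ∀ v : V4, mean (fun q => ⟪H.u q, v⟫) p = 0 := fun v => by
    rw [Spin.mean_inner_left cu, H.u_mean, inner_zero_left]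
  have si' : ∀ v : V4, mean (fun q => ⟪v, H.u q⟫) p = 0 := fun v => by
    rw [mean_congr (Q := fun q => ⟪H.u q, v⟫) fun θ => real_inner_comm _ _, si]
  have sG : mean (fun q => rk (H.u q) y) p = mean (fun q => rk (H.u q)) p y :=
    mean_clm H.isProfile_rk_u.1.continuous (ContinuousLinearMap.apply ℝ V4 y) p
  rw [mean_sub d1 (show Continuous fun q : R3 =>
      (a • (⟪F, F⟫ • y - ⟪y, F⟫ • F) + (a * a) • (⟪F, H.u q⟫ • y - ⟪y, H.u q⟫ • F))
        + ((⟪H.u q, F⟫ • y - ⟪y, F⟫ • H.u q)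
          + a • (⟪H.u q, H.u q⟫ • y - rk (H.u q) y)) from e5.add e6),
    mean_add e5 e6,
    mean_add (P := fun _ : R3 => a • (⟪F, F⟫ • y - ⟪y, F⟫ • F))
      (Q := fun q => (a * a) • (⟪F, H.u q⟫ • y - ⟪y, H.u q⟫ • F))
      continuous_const (d2.const_smul (a * a)),
    mean_const (fun _ => a • (⟪F, F⟫ • y - ⟪y, F⟫ • F)),
    mean_add (P := fun q => r • (σ q • F)) (Q := fun q => (r * a) • (σ q • H.u q))
      (cF.const_smul r) (cs.const_smul (r * a)),
    mean_add (Q := fun q => a • (⟪H.u q, H.u q⟫ • y - rk (H.u q) y)) d3 (d4.const_smul a),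
    mean_smul, mean_smul, mean_smul, mean_smul,
    mean_sub (P := fun q => ⟪F, H.u q⟫ • y) (Q := fun q => ⟪y, H.u q⟫ • F)
      (k1.smul continuous_const) (k2.smul continuous_const),
    mean_sub (P := fun q => ⟪H.u q, F⟫ • y) (Q := fun q => ⟪y, F⟫ • H.u q)
      (k3.smul continuous_const) (cu.const_smul ⟪y, F⟫),
    mean_sub (P := fun q => ⟪H.u q, H.u q⟫ • y) (Q := fun q => rk (H.u q) y)
      (k4.smul continuous_const) cr,
    mean_smul_fst (fun _ => F), mean_smul_fst (fun _ => y), mean_smul_fst (fun _ => F),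
    mean_smul_fst (fun _ => y), mean_smul_fst (fun _ => y), mean_smul, sG, si, si', si', hm,
    H.u_mean]
  have hv : H.moment σ p = r • mean (fun q => σ q • H.u q) p := by rw [moment, hr]
  rw [hv, real_inner_comm y F] at hM
  linear_combination (norm := module) -a • hM

end Hybrid

end

end Vale.Agent.P205.WKB
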