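import Mathlib
import Vale.Agent.P205.Full.WKB.Hybrid

/-!
# P205: the hybrid series and its error

`H.approx N lam` solves the scalar equation `ε_xx * (B - ε_yy) + ε_xy ^ 2 = 0` up to terms of order
above `N`; the three components of the error are of positive order.
-/

namespace Vale.Agent.P205.WKB

open scoped ContDiff RealInnerProductSpace
open Correction Profile intervalIntegral
open Vale.Agent.P205.Algebra

noncomputable section

/-- One more order. -/
lemma Known.succ {D : Step} {s : ℕ → Term} {k : ℕ} (ih : Known (D := D) s k)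
    (hu : IsProfile (s k).u) (hd : dPhase (s k).u = (s k).w)
    (hz : 1 ≤ k → ∀ p ∉ D.K, ∀ θ, (s k).u (p, θ) = 0) (hw : IsProfile (s (k + 1)).w)
    (hm : ∀ p, mean (s (k + 1)).w p = 0) (hwz : ∀ p ∉ D.K, ∀ θ, (s (k + 1)).w (p, θ) = 0) :
    Known (D := D) s (k + 1) := by
  refine ⟨fun i hi => ?_, fun i hi => ?_, fun i hi => ?_, fun i h1 hi => ?_, fun i hi => ?_,
    fun i hi => ?_⟩
  · rcases (Nat.lt_succ_iff.1 hi).lt_or_eq with h | rfl
    · exact ih.u_prof i h
    · exact hu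
  · rcases hi.lt_or_eq with h | rfl
    · exact ih.w_prof i (Nat.lt_succ_iff.1 h)
    · exact hw
  · rcases hi.lt_or_eq with h | rfl
    · exact ih.mean_w i (Nat.lt_succ_iff.1 h)
    · exact hm
  · rcases (Nat.lt_succ_iff.1 hi).lt_or_eq with h | rfl
    · exact ih.u_zero i h1 h
    · exact hz h1
  · rcases hi.lt_or_eq with h | rfl
    · exact ih.w_zero i (Nat.lt_succ_iff.1 h)
    · exact hwz
  · rcases (Nat.lt_succ_iff.1 hi).lt_or_eq with h | rfl
    · exact ih.dphase i h
    · exact hd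

/-- The coefficient of order `k` of the product of two series. -/
def conv (P Q : ℕ → R3 → V4) (k : ℕ) (q : R3) : ℝ :=
  ∑ i ∈ Finset.range (k + 1), ip (P i) (Q (k - i)) q

/-- The same for two series cut after order `N + 1`. -/
def cconv (N : ℕ) (P Q : ℕ → R3 → V4) (k : ℕ) (q : R3) : ℝ :=
  ∑ x ∈ (Finset.range (N + 2) ×ˢ Finset.range (N + 2)).filter (fun x => x.1 + x.2 = k),
    ip (P x.1) (Q x.2) q

lemma cconv_eq {N k : ℕ} (hk : k ≤ N + 1) (P Q : ℕ → R3 → V4) (q : R3) :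
    cconv N P Q k q = conv P Q k q := by
  refine Finset.sum_bij' (fun x _ => x.1) (fun i _ => (i, k - i)) ?_ ?_ ?_ ?_ ?_
  all_goals intro x hx
  all_goals simp only [Finset.mem_filter, Finset.mem_product, Finset.mem_range] at hx ⊢
  all_goals try omega
  · exact Prod.ext rfl (by show k - x.1 = x.2; omega)
  · rw [show k - x.1 = x.2 by omega]

lemma inner_series (N : ℕ) (r : ℝ) (P Q : ℕ → R3 → V4) (q : R3) :
    ⟪∑ i ∈ Finset.range (N + 2), r ^ i • P i q, ∑ j ∈ Finset.range (N + 2), r ^ j • Q j q⟫ =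
      ⟪P 0 q, Q 0 q⟫ + ∑ k ∈ Finset.range (2 * N + 2), r ^ (k + 1) * cconv N P Q (k + 1) q := by
  have h0 : ⟪∑ i ∈ Finset.range (N + 2), r ^ i • P i q, ∑ j ∈ Finset.range (N + 2), r ^ j • Q j q⟫ =
      ∑ k ∈ Finset.range (2 * N + 3), r ^ k * cconv N P Q k q := by
    rw [sum_inner]
    simp only [inner_sum, real_inner_smul_left, real_inner_smul_right]
    rw [← Finset.sum_product', ← Finset.sum_fiberwise_of_maps_to
      (g := fun x : ℕ × ℕ => x.1 + x.2) (t := Finset.range (2 * N + 3)) (fun x hx => by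
        simp only [Finset.mem_product, Finset.mem_range] at hx ⊢; omega)]
    refine Finset.sum_congr rfl fun k _ => ?_
    rw [cconv, Finset.mul_sum]
    refine Finset.sum_congr rfl fun x hx => ?_
    rw [← (Finset.mem_filter.1 hx).2, pow_add, ip]
    ring
  rw [h0, Finset.sum_range_succ', pow_zero, one_mul, add_comm,
    cconv_eq (Nat.zero_le _)]
  simp [conv, ip]

lemma cconv_prof {N : ℕ} {P Q : ℕ → R3 → V4} (hP : ∀ i, IsProfile (P i))
    (hQ : ∀ i, IsProfile (Q i)) (k : ℕ) : IsProfile (cconv N P Q k) :=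
  isProfile_sum _ fun x _ => isProfile_ip (hP x.1) (hQ x.2)

namespace Hybrid

variable (H : Hybrid)

/-- The step underlying a hybrid step. -/
def step : Step where
  f := H.f
  a := H.a
  K := H.K
  R := fun _ _ => 0
  f_smooth := H.f_smooth
  a_smooth := H.a_smooth
  K_closed := H.K_closed
  a_zero := H.a_zero
  R_ok _ _ := ⟨⟨contDiff_const, fun _ => rfl, fun _ => rfl⟩, fun _ _ => rfl⟩
  R_linear _ _ _ _ _ := funext fun _ => by simp
  R_bound n := ⟨0, 0, fun h _ B _ p => by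
    rw [iteratedFDeriv_fun_zero]
    simp⟩

/-- The prescribed `xx` coefficient of order `k`. -/
def src (s : ℕ → Term) (k : ℕ) (q : R3) : ℝ :=
  rinv H.η H.B q.1 * ∑ i ∈ Finset.Ico 1 k,
    (conv (Xco s) (Xco s) i q * conv (Tco s) (Tco s) (k - i) q
      - conv (Xco s) (Tco s) i q * conv (Xco s) (Tco s) (k - i) q)

/-- The size of the normal term of order `k`. -/
def ymean (s : ℕ → Term) (k : ℕ) (p : R2) : ℝ :=
  (1 / 2) * mean (fun q =>
    2 * ip H.X0 (px (prim (s k).w)) q + Qsum (Xco s) (Xco s) k q - H.src s k q) p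

/-- The coefficient of order `k`. -/
def nextU (s : ℕ → Term) (k : ℕ) (q : R3) : V4 :=
  prim (s k).w q + H.ymean s k q.1 • H.N q.1

/-- The prescribed component of `W` of order `k + 1`. -/
def sigma (s : ℕ → Term) (k : ℕ) (q : R3) : ℝ :=
  (1 / 2) * H.src s k q - ip H.X0 (px (s k).u) q - (1 / 2) * Qsum (Xco s) (Xco s) k q

/-- The terms known after `k` steps. -/
def seq : ℕ → ℕ → Term
  | 0 => fun i => if i = 0 then ⟨lift H.f, fun _ => 0⟩
      else ⟨fun _ => 0, if i = 1 then fun q => H.a q.1 • H.u q else 0⟩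
  | k + 1 => fun i =>
      if i = k + 1 + 1 then
        ⟨fun _ => 0, H.sol (H.sigma
          (fun j => if j = k + 1 then ⟨H.nextU (seq k) (k + 1), (seq k (k + 1)).w⟩ else seq k j)
          (k + 1))⟩
      else if i = k + 1 then ⟨H.nextU (seq k) (k + 1), (seq k (k + 1)).w⟩ else seq k i

/-- The coefficient of order `k`. -/
def U (k : ℕ) : R3 → V4 := (H.seq k k).u

/-- Its phase derivative. -/
def W (k : ℕ) : R3 → V4 := (H.seq k k).w

/-- All terms. -/
def term (k : ℕ) : Term := ⟨H.U k, H.W k⟩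

lemma seq_stable {i k : ℕ} (h : i ≤ k) : H.seq k i = H.seq i i := by
  induction k, h using Nat.le_induction with
  | base => rfl
  | succ k h ih =>
    rw [seq]
    simp only [show i ≠ k + 1 + 1 by omega, show i ≠ k + 1 by omega, if_false, ih]

lemma seq_succ_w (k : ℕ) : (H.seq k (k + 1)).w = H.W (k + 1) := by
  rw [W, seq]
  simp

lemma seq_w {i k : ℕ} (h : i ≤ k + 1) : (H.seq k i).w = H.W i := by
  rcases h.lt_or_eq with h | h
  · rw [H.seq_stable (Nat.lt_succ_iff.1 h), W]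
  · rw [h, seq_succ_w]

lemma seq_u {i k : ℕ} (h : i ≤ k) : (H.seq k i).u = H.U i := by rw [H.seq_stable h, U]

lemma W_one : H.W 1 = fun q => H.a q.1 • H.u q := by rw [← seq_succ_w]; rfl

variable {H} {s t : ℕ → Term}

lemma src_congr {k : ℕ} (hw : ∀ i ≤ k, (s i).w = (t i).w) (hu : ∀ i < k, (s i).u = (t i).u) :
    H.src s k = H.src t k ∧ Qsum (Xco s) (Xco s) k = Qsum (Xco t) (Xco t) k := by
  have hX : ∀ i, i < k → Xco s i = Xco t i := fun i hi => funext fun q => by
    simp only [Xco, hw (i + 1) (by omega), hu i hi]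
  have hT : ∀ i, i < k → Tco s i = Tco t i := fun i hi => by simp only [Tco, hu i hi]
  have hc : ∀ P Q P' Q' : ℕ → R3 → V4, (∀ i, i < k → P i = P' i) → (∀ i, i < k → Q i = Q' i) →
      ∀ j, j < k → conv P Q j = conv P' Q' j := fun P Q P' Q' hP hQ j hj => funext fun q =>
    Finset.sum_congr rfl fun i hi => by
      have h := Finset.mem_range.1 hi
      rw [hP i (by omega), hQ (j - i) (by omega)]
  refine ⟨funext fun q => congrArg _ (Finset.sum_congr rfl fun i hi => ?_), funext fun q =>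
    Finset.sum_congr rfl fun i hi => ?_⟩
  all_goals obtain ⟨h1, h2⟩ := Finset.mem_Ico.1 hi
  · rw [hc _ _ _ _ hX hX i h2, hc _ _ _ _ hT hT (k - i) (by omega), hc _ _ _ _ hX hT i h2,
      hc _ _ _ _ hX hT (k - i) (by omega)]
  · rw [hX i h2, hX (k - i) (by omega)]

variable (H)

lemma U_succ (k : ℕ) : H.U (k + 1) = H.nextU H.term (k + 1) := by
  rw [U, seq]
  simp only [show k + 1 ≠ k + 1 + 1 by omega, if_false, if_true]
  obtain ⟨h1, h2⟩ := src_congr (H := H) (s := H.seq k) (t := H.term) (k := k + 1)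
    (fun i hi => H.seq_w hi) fun i hi => H.seq_u (Nat.lt_succ_iff.1 hi)
  funext q
  simp only [nextU, ymean, h1, h2, H.seq_w (le_refl (k + 1)), term]

lemma W_succ {k : ℕ} (hk : 1 ≤ k) : H.W (k + 1) = H.sol (H.sigma H.term k) := by
  obtain ⟨j, rfl⟩ : ∃ j, k = j + 1 := ⟨k - 1, by omega⟩
  rw [← seq_succ_w, seq]
  simp only [if_true]
  obtain ⟨s, hs⟩ : ∃ s, s = fun i => if i = j + 1 then
    (⟨H.nextU (H.seq j) (j + 1), (H.seq j (j + 1)).w⟩ : Term) else H.seq j i := ⟨_, rfl⟩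
  rw [← hs]
  have hw : ∀ i ≤ j + 1, (s i).w = (H.term i).w := fun i hi => by
    simp only [hs]
    split_ifs with h
    · subst h; exact H.seq_w le_rfl
    · exact H.seq_w hi
  have hu : ∀ i ≤ j + 1, (s i).u = (H.term i).u := fun i hi => by
    rcases hi.lt_or_eq with h | h
    · simp only [hs, show i ≠ j + 1 by omega, if_false]
      exact H.seq_u (Nat.lt_succ_iff.1 h)
    · subst h
      show _ = H.U (j + 1)
      rw [U, seq]
      simp [hs]
  obtain ⟨h1, h2⟩ := src_congr (H := H) hw fun i hi => hu i hi.le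
  congr 1
  funext q
  simp only [sigma, h1, h2, hu _ le_rfl]

variable {H} {k : ℕ} (hs : Known (D := H.step) s k)
include hs

lemma isProfile_src : IsProfile (H.src s k) := by
  have hX : ∀ i < k, IsProfile (Xco s i) := fun _ hi => hs.Xco_prof hi
  have hT : ∀ i < k, IsProfile (Tco s i) := fun _ hi => hs.Tco_prof hi
  have hc : ∀ {P Q : ℕ → R3 → V4}, (∀ i < k, IsProfile (P i)) → (∀ i < k, IsProfile (Q i)) →
      ∀ j < k, IsProfile (conv P Q j) := fun hP hQ j hj => isProfile_sum _ fun i hi => by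
    have h := Finset.mem_range.1 hi
    exact isProfile_ip (hP i (by omega)) (hQ (j - i) (by omega))
  refine isProfile_bilin (isProfile_lift H.smooth2_iB) (isProfile_sum _ fun i hi => ?_)
    (ContinuousLinearMap.mul ℝ ℝ)
  obtain ⟨h1, h2⟩ := Finset.mem_Ico.1 hi
  have h3 : k - i < k := by omega
  simpa [← sub_eq_add_neg] using isProfile_add
    (isProfile_bilin (hc hX hX i h2) (hc hT hT (k - i) h3) (ContinuousLinearMap.mul ℝ ℝ))
    (isProfile_comp (isProfile_bilin (hc hX hT i h2) (hc hX hT (k - i) h3)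
      (ContinuousLinearMap.mul ℝ ℝ)) contDiff_neg)

lemma conv_zero {p : R2} (hp : p ∉ H.K) (θ : ℝ) {j : ℕ} (h1 : 1 ≤ j) (hj : j < k) :
    conv (Xco s) (Xco s) j (p, θ) = 0 ∧ conv (Xco s) (Tco s) j (p, θ) = 0 := by
  constructor <;> refine Finset.sum_eq_zero fun i hi => ?_
  all_goals have h := Finset.mem_range.1 hi
  all_goals rcases Nat.eq_zero_or_pos i with rfl | hi0
  · rw [ip, Nat.sub_zero, hs.Xco_zero h1 hj hp θ, inner_zero_right]
  · rw [ip, hs.Xco_zero hi0 (by omega) hp θ, inner_zero_left]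
  · rw [ip, Nat.sub_zero, hs.Tco_zero h1 hj hp θ, inner_zero_right]
  · rw [ip, hs.Xco_zero hi0 (by omega) hp θ, inner_zero_left]

lemma src_zero {p : R2} (hp : p ∉ H.K) (θ : ℝ) : H.src s k (p, θ) = 0 := by
  rw [src, Finset.sum_eq_zero fun i hi => ?_, mul_zero]
  obtain ⟨h1, h2⟩ := Finset.mem_Ico.1 hi
  obtain ⟨e1, e2⟩ := conv_zero hs hp θ h1 h2
  rw [e1, e2]
  ring

lemma smooth2_ymean : Smooth2 (H.ymean s k) := by
  have h1 := isProfile_comp (isProfile_ip H.isProfile_X0 (isProfile_pd hs.prim_prof (1, 0)))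
    (contDiff_const.mul contDiff_id : ContDiff ℝ ∞ fun y : ℝ => 2 * y)
  have h := smooth2_mean (isProfile_add (isProfile_add h1
    (Qsum_prof (fun _ hi => hs.Xco_prof hi) (fun _ hi => hs.Xco_prof hi)))
    (isProfile_comp (isProfile_src hs) contDiff_neg))
  rw [show H.ymean s k = fun x => (1 / 2 : ℝ) • mean (fun q =>
      2 * ip H.X0 (pd (1, 0) (prim (s k).w)) q + Qsum (Xco s) (Xco s) k q + -H.src s k q) x from
    funext fun x => by simp [ymean, mean, ip, px, sub_eq_add_neg]]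
  exact h.const_smul (1 / 2 : ℝ)

lemma ymean_zero {p : R2} (hp : p ∉ H.K) : H.ymean s k p = 0 := by
  have e : ∀ θ, pd (1, 0) (prim (s k).w) (p, θ) = 0 := fun θ =>
    pd_zero_off (D := H.step) (fun p hp θ => hs.prim_zero hp θ) _ hp θ
  have z : ∀ θ, 2 * ip H.X0 (px (prim (s k).w)) (p, θ) + Qsum (Xco s) (Xco s) k (p, θ)
      - H.src s k (p, θ) = 0 := fun θ => by
    rw [ip, px, e, inner_zero_right, Qsum_zero fun i h1 hi => hs.Xco_zero h1 hi hp θ,
      src_zero hs hp]
    ring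
  simp [ymean, mean, z]

variable (hu : (s k).u = H.nextU s k)
include hu

lemma top_prof : IsProfile (s k).u := by
  rw [hu]
  exact isProfile_add hs.prim_prof (isProfile_lift (smooth2_smul (smooth2_ymean hs) H.N_smooth))

lemma top_zero {p : R2} (hp : p ∉ H.K) (θ : ℝ) : (s k).u (p, θ) = 0 := by
  rw [hu, nextU, hs.prim_zero hp, ymean_zero hs hp, zero_smul, add_zero]

lemma top_dphase : dPhase (s k).u = (s k).w := by
  have hy := smooth2_smul (smooth2_ymean hs) H.N_smooth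
  rw [hu, show H.nextU s k = fun q => prim (s k).w q + lift (fun p => H.ymean s k p • H.N p) q
      from rfl, dPhase_add hs.prim_prof.1 (isProfile_lift hy).1,
    show dPhase (lift (fun p => H.ymean s k p • H.N p)) = fun _ => 0 from
      dPhase_fst (hy.1.differentiable (by simp))]
  funext q
  rw [add_zero, dPhase_prim (hs.w_prof k le_rfl).1]

lemma sigma_prof : IsProfile (H.sigma s k) := by
  have h1 := isProfile_comp (isProfile_src hs)
    (contDiff_const.mul contDiff_id : ContDiff ℝ ∞ fun y : ℝ => (1 / 2) * y)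
  have h2 := isProfile_comp (isProfile_ip H.isProfile_X0 (isProfile_pd (top_prof hs hu) (1, 0)))
    contDiff_neg
  have h3 := isProfile_comp (Qsum_prof (fun _ hi => hs.Xco_prof hi) (fun _ hi => hs.Xco_prof hi))
    (contDiff_const.mul contDiff_id : ContDiff ℝ ∞ fun y : ℝ => (-(1 / 2)) * y)
  rw [show H.sigma s k = fun q => (1 / 2) * H.src s k q + -ip H.X0 (pd (1, 0) (s k).u) q +
      -(1 / 2) * Qsum (Xco s) (Xco s) k q from funext fun q => by simp only [sigma, px]; ring]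
  exact isProfile_add (isProfile_add h1 h2) h3

lemma sigma_zero {p : R2} (hp : p ∉ H.K) (θ : ℝ) : H.sigma s k (p, θ) = 0 := by
  rw [sigma, src_zero hs hp, ip, px,
    pd_zero_off (D := H.step) (fun p hp θ => top_zero hs hu hp θ) _ hp, inner_zero_right,
    Qsum_zero fun i h1 hi => hs.Xco_zero h1 hi hp θ]
  simp

lemma mean_sigma (p : R2) : mean (H.sigma s k) p = 0 := by
  have hy := smooth2_ymean hs
  obtain ⟨V, hV⟩ : ∃ V : R2 → V4, V = fun p => H.ymean s k p • H.N p := ⟨_, rfl⟩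
  have hVs : Smooth2 V := hV ▸ smooth2_smul hy H.N_smooth
  have hz : (fun p => ⟪dx H.f p, V p⟫) = fun _ => (0 : ℝ) := funext fun p => by
    rw [hV, real_inner_smul_right]
    by_cases hp : p ∈ H.K
    · rw [H.N_fx p hp, mul_zero]
    · rw [ymean_zero hs hp, zero_mul]
  have hxV : ⟪dx H.f p, dx V p⟫ = -H.ymean s k p := by
    have hd := ((innerSL ℝ).hasFDerivAt_of_bilinear
      ((smooth2_dx H.f_smooth).1.differentiable (by simp) p).hasFDerivAt
      (hVs.1.differentiable (by simp) p).hasFDerivAt)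
    have h0 : HasFDerivAt (fun p => ⟪dx H.f p, V p⟫) (0 : R2 →L[ℝ] ℝ) p := by
      rw [hz]; exact hasFDerivAt_const _ _
    have h := congrArg (fun T : R2 →L[ℝ] ℝ => T (1, 0)) (h0.unique hd)
    have h' : (0 : ℝ) = ⟪dx H.f p, dx V p⟫ + ⟪dx (dx H.f) p, V p⟫ := h
    rw [hV, real_inner_smul_right] at h'
    rw [← hV] at h'
    by_cases hp : p ∈ H.K
    · rw [H.N_fxx p hp, mul_one] at h'
      linarith
    · rw [ymean_zero hs hp, zero_mul] at h'
      rw [ymean_zero hs hp]
      linarith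
  have c1 : Continuous fun q => 2 * ip H.X0 (px (prim (s k).w)) q + Qsum (Xco s) (Xco s) k q
      - H.src s k q :=
    ((continuous_const.mul (isProfile_ip H.isProfile_X0
      (isProfile_pd hs.prim_prof _)).1.continuous).add
      (Qsum_prof (fun _ hi => hs.Xco_prof hi) (fun _ hi => hs.Xco_prof hi)).1.continuous).sub
      (isProfile_src hs).1.continuous
  have cu : Continuous H.u := H.u_prof.1.continuous
  have c2 : Continuous fun q : R3 => ⟪H.u q, dx V q.1⟫ :=
    cu.inner ((smooth2_dx hVs).1.continuous.comp continuous_fst)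
  have c3 : Continuous fun q : R3 => ⟪dx H.f q.1, dx V q.1⟫ :=
    (smooth2_inner (smooth2_dx H.f_smooth) (smooth2_dx hVs)).1.continuous.comp continuous_fst
  have hpd : ∀ q, pd (1, 0) (s k).u q = pd (1, 0) (prim (s k).w) q + dx V q.1 := fun q => by
    rw [hu, show H.nextU s k = fun q => prim (s k).w q + lift V q by rw [hV]; rfl,
      pd_add hs.prim_prof.1 (isProfile_lift hVs).1, pd_lift (hVs.1.differentiable (by simp))]
    rfl
  rw [mean_congr (Q := fun q => (-(1 / 2)) * (2 * ip H.X0 (px (prim (s k).w)) q +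
      Qsum (Xco s) (Xco s) k q - H.src s k q) - (⟪dx H.f q.1, dx V q.1⟫ +
        H.a q.1 * ⟪H.u q, dx V q.1⟫)) fun θ => ?_,
    mean_sub (show Continuous fun q : R3 => (-(1 / 2 : ℝ)) * (2 * ip H.X0 (px (prim (s k).w)) q +
      Qsum (Xco s) (Xco s) k q - H.src s k q) from continuous_const.mul c1) (show Continuous fun q : R3 => ⟪dx H.f q.1, dx V q.1⟫ +
      H.a q.1 * ⟪H.u q, dx V q.1⟫ from
        c3.add ((H.a_smooth.1.continuous.comp continuous_fst).mul c2)),
    mean_const_mul, mean_add c3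
      (show Continuous fun q : R3 => H.a q.1 * ⟪H.u q, dx V q.1⟫ from
        (H.a_smooth.1.continuous.comp continuous_fst).mul c2),
    mean_const (fun p => ⟪dx H.f p, dx V p⟫), mean_mul_fst,
    mean_congr (P := fun q => ⟪H.u q, dx V q.1⟫) (Q := fun q => ⟪H.u q, dx V p⟫) fun θ => rfl,
    Spin.mean_inner_left cu, H.u_mean, inner_zero_left, hxV, ymean]
  · ring
  · simp only [sigma, ip, px, hpd, X0, inner_add_right, inner_add_left, real_inner_smul_left]
    ring

omit hs hu in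
/-- Every order is known. -/
theorem known (H : Hybrid) (k : ℕ) : Known (D := H.step) H.term k := by
  have hz : IsProfile fun _ : R3 => (0 : V4) := ⟨contDiff_const, fun _ => ⟨rfl, rfl, rfl⟩⟩
  induction k with
  | zero =>
    refine ⟨fun i hi => absurd hi (by omega), fun i hi => ?_, fun i hi p => ?_,
      fun i _ hi => absurd hi (by omega), fun i hi => ?_, fun i hi => absurd hi (by omega)⟩
    all_goals obtain rfl : i = 0 := by omega
    · exact hz
    · simp [term, W, seq, mean]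
    · exact fun _ _ _ => rfl
  | succ k ih =>
    rcases Nat.eq_zero_or_pos k with rfl | hk
    · refine ih.succ (isProfile_lift H.f_smooth)
        (dPhase_fst (H.f_smooth.1.differentiable (by simp))) (fun h => absurd h (by omega)) ?_ ?_ ?_
      all_goals simp only [term, zero_add, W_one]
      · exact isProfile_bilin (isProfile_lift H.a_smooth) H.u_prof (ContinuousLinearMap.lsmul ℝ ℝ)
      · intro p
        rw [mean_congr (Q := fun q => H.a p • H.u q) fun θ => rfl, mean_smul, H.u_mean, smul_zero]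
      · exact fun p hp θ => by simp [H.a_zero p hp]
    · obtain ⟨j, rfl⟩ : ∃ j, k = j + 1 := ⟨k - 1, by omega⟩
      have hu := H.U_succ j
      refine ih.succ (top_prof ih hu) (top_dphase ih hu) (fun _ p hp θ => top_zero ih hu hp θ) ?_ ?_ ?_
      all_goals simp only [term, H.W_succ (by omega : 1 ≤ j + 1)]
      · exact H.isProfile_sol (sigma_prof ih hu)
      · exact H.mean_sol (sigma_prof ih hu) (fun p hp θ => sigma_zero ih hu hp θ)
          (mean_sigma ih hu)
      · exact fun p hp θ => H.sol_zero (fun t => sigma_zero ih hu hp t) θ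

omit hs hu

variable (H)

lemma U_prof (k : ℕ) : IsProfile (H.U k) :=
  (H.known (k + 1)).u_prof k (Nat.lt_succ_self k)

lemma W_prof (k : ℕ) : IsProfile (H.W k) := (H.known k).w_prof k le_rfl

lemma U_support {k : ℕ} (hk : 1 ≤ k) {p : R2} (hp : p ∉ H.K) (θ : ℝ) : H.U k (p, θ) = 0 :=
  (H.known (k + 1)).u_zero k hk (Nat.lt_succ_self k) p hp θ

lemma dPhase_U (k : ℕ) : dPhase (H.U k) = H.W k :=
  (H.known (k + 1)).dphase k (Nat.lt_succ_self k)

/-- The `xx` coefficient is the prescribed one. -/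
theorem order_xx {k : ℕ} (hk : 1 ≤ k) (q : R3) :
    conv (Xco H.term) (Xco H.term) k q = H.src H.term k q := by
  obtain ⟨p, θ⟩ := q
  obtain ⟨j, rfl⟩ : ∃ j, k = j + 1 := ⟨k - 1, by omega⟩
  have h0 : Xco H.term 0 = H.X0 := funext fun q => by
    show H.W 1 q + px (lift H.f) q = _
    rw [W_one, px, pd_lift (H.f_smooth.1.differentiable (by simp)), add_comm]
    rfl
  have hw : ⟪H.X0 (p, θ), H.W (j + 1 + 1) (p, θ)⟫ = H.sigma H.term (j + 1) (p, θ) := by
    rw [H.W_succ (by omega)]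
    exact H.sol_X0 (fun p hp θ => sigma_zero (H.known (j + 1)) (H.U_succ j) hp θ) p θ
  rw [conv]
  simp only [ip]
  rw [sum_split _ _ hk, h0, real_inner_comm (H.X0 (p, θ)) (Xco H.term (j + 1) (p, θ))]
  show ⟪_, H.W (j + 1 + 1) (p, θ) + _⟫ + ⟪_, H.W (j + 1 + 1) (p, θ) + _⟫ + _ = _
  rw [inner_add_right, hw, sigma, ip]
  simp only [term]
  ring!

/-- The truncated series. -/
def approx (N : ℕ) (lam : ℝ) (p : R2) : V4 :=
  ∑ k ∈ Finset.range (N + 2), (lam⁻¹) ^ k • H.U k (p, lam * p.1)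

/-- The coefficients of the `x` derivative of the truncated series. -/
def Xt (N k : ℕ) : R3 → V4 := if k ≤ N then Xco H.term k else px (H.U k)

lemma Xt_prof (N k : ℕ) : IsProfile (H.Xt N k) := by
  rw [Xt]
  split_ifs
  · exact isProfile_add (H.W_prof (k + 1)) (isProfile_pd (H.U_prof k) _)
  · exact isProfile_pd (H.U_prof k) _

lemma Tt_prof (k : ℕ) : IsProfile (Tco H.term k) := isProfile_pd (H.U_prof k) _

lemma fderiv_approx (N : ℕ) (lam : ℝ) (p e : R2) :
    fderiv ℝ (H.approx N lam) p e = ∑ k ∈ Finset.range (N + 2), (lam⁻¹) ^ k •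
      (pd e (H.U k) (p, lam * p.1) + (lam * e.1) • H.W k (p, lam * p.1)) := by
  have hd : ∀ k, DifferentiableAt ℝ (fun p : R2 => H.U k (p, lam * p.1)) p := fun k =>
    (((H.U_prof k).1.comp (contDiff_id.prodMk (contDiff_const.mul contDiff_fst))).differentiable
      (by simp)).differentiableAt
  rw [show H.approx N lam = fun p : R2 =>
      ∑ k ∈ Finset.range (N + 2), (lam⁻¹) ^ k • H.U k (p, lam * p.1) from rfl,
    fderiv_fun_sum fun k _ => (hd k).fun_const_smul _, _root_.sum_apply]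
  refine Finset.sum_congr rfl fun k _ => ?_
  rw [fderiv_fun_const_smul (hd k), _root_.smul_apply, fderiv_phase (H.U_prof k).1, dPhase_U]

lemma dx_approx (N : ℕ) {lam : ℝ} (hlam : lam ≠ 0) (p : R2) :
    dx (H.approx N lam) p =
      ∑ k ∈ Finset.range (N + 2), (lam⁻¹) ^ k • H.Xt N k (p, lam * p.1) := by
  show fderiv ℝ _ p (1, 0) = _
  rw [fderiv_approx]
  simp only [smul_add, Finset.sum_add_distrib, smul_smul]
  rw [Finset.sum_range_succ' (fun k => ((lam⁻¹) ^ k * (lam * 1)) • H.W k (p, lam * p.1)),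
    show H.W 0 = fun _ => 0 from rfl, smul_zero, add_zero, Finset.sum_range_succ
      (fun k => (lam⁻¹) ^ k • H.Xt N k (p, lam * p.1)), Finset.sum_range_succ (fun k => (lam⁻¹) ^ k •
      pd (1, 0) (H.U k) (p, lam * p.1))]
  have e : ∀ k ∈ Finset.range (N + 1), (lam⁻¹) ^ k • H.Xt N k (p, lam * p.1) =
      (lam⁻¹) ^ k • pd (1, 0) (H.U k) (p, lam * p.1) +
        ((lam⁻¹) ^ (k + 1) * (lam * 1)) • H.W (k + 1) (p, lam * p.1) := fun k hk => by
    rw [Xt, if_pos (Nat.lt_succ_iff.1 (Finset.mem_range.1 hk)), pow_succ, mul_one, mul_assoc,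
      inv_mul_cancel₀ hlam, mul_one, ← smul_add, add_comm]
    rfl
  rw [Finset.sum_congr rfl e, Finset.sum_add_distrib, Xt, if_neg (by omega)]
  show _ + _ + _ = _ + (lam⁻¹) ^ (N + 1) • pd (1, 0) (H.U (N + 1)) _
  abel

lemma dy_approx (N : ℕ) (lam : ℝ) (p : R2) :
    dy (H.approx N lam) p =
      ∑ k ∈ Finset.range (N + 2), (lam⁻¹) ^ k • Tco H.term k (p, lam * p.1) := by
  show fderiv ℝ _ p (0, 1) = _
  rw [fderiv_approx]
  simp only [mul_zero, zero_smul, add_zero]
  rfl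

/-- The second derivative along the phase. -/
lemma dx_dx_approx (N : ℕ) {lam : ℝ} (hlam : lam ≠ 0) (p : R2) :
    dx (dx (H.approx N lam)) p = ∑ k ∈ Finset.range (N + 2), (lam⁻¹) ^ k •
      (px (H.Xt N k) (p, lam * p.1) + lam • dPhase (H.Xt N k) (p, lam * p.1)) := by
  have hd : ∀ k, DifferentiableAt ℝ (fun p : R2 => H.Xt N k (p, lam * p.1)) p := fun k =>
    (((H.Xt_prof N k).1.comp (contDiff_id.prodMk (contDiff_const.mul contDiff_fst))).differentiable
      (by simp)).differentiableAt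
  show fderiv ℝ (dx (H.approx N lam)) p (1, 0) = _
  rw [funext (H.dx_approx N hlam), fderiv_fun_sum fun k _ => (hd k).fun_const_smul _,
    _root_.sum_apply]
  refine Finset.sum_congr rfl fun k _ => ?_
  rw [fderiv_fun_const_smul (hd k), _root_.smul_apply, fderiv_phase (H.Xt_prof N k).1, mul_one]
  rfl

/-- The `xx` error. -/
def exx (N : ℕ) (lam : ℝ) (p : R2) : ℝ :=
  ⟪dx (H.approx N lam) p, dx (H.approx N lam) p⟫ - ⟪dx H.f p, dx H.f p⟫ - H.a p ^ 2

/-- The `xy` error. -/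
def exy (N : ℕ) (lam : ℝ) (p : R2) : ℝ :=
  ⟪dx (H.approx N lam) p, dy (H.approx N lam) p⟫ - ⟪dx H.f p, dy H.f p⟫

/-- The `yy` error. -/
def eyy (N : ℕ) (lam : ℝ) (p : R2) : ℝ :=
  ⟪dy (H.approx N lam) p, dy (H.approx N lam) p⟫ - ⟪dy H.f p, dy H.f p⟫

lemma Tt_zero : Tco H.term 0 = lift (dy H.f) := funext fun q =>
  pd_lift (H.f_smooth.1.differentiable (by simp)) _ q

lemma Xt_zero (N : ℕ) : H.Xt N 0 = H.X0 := by
  rw [Xt, if_pos (Nat.zero_le _)]
  funext q
  show H.W 1 q + px (lift H.f) q = _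
  rw [W_one, px, pd_lift (H.f_smooth.1.differentiable (by simp)), add_comm]
  rfl

lemma exx_eq (N : ℕ) {lam : ℝ} (hlam : lam ≠ 0) (p : R2) :
    H.exx N lam p = ∑ k ∈ Finset.range (2 * N + 2),
      (lam⁻¹) ^ (k + 1) * cconv N (H.Xt N) (H.Xt N) (k + 1) (p, lam * p.1) := by
  have h0 : ⟪H.X0 (p, lam * p.1), H.X0 (p, lam * p.1)⟫ =
      ⟪dx H.f p, dx H.f p⟫ + H.a p ^ 2 := by
    by_cases hp : p ∈ H.K
    · exact H.circle p hp _
    · simp [X0, H.a_zero p hp]
  rw [exx, dx_approx H N hlam, inner_series, Xt_zero, h0]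
  ring

lemma exy_eq (N : ℕ) {lam : ℝ} (hlam : lam ≠ 0) (p : R2) :
    H.exy N lam p = ∑ k ∈ Finset.range (2 * N + 2),
      (lam⁻¹) ^ (k + 1) * cconv N (H.Xt N) (Tco H.term) (k + 1) (p, lam * p.1) := by
  have h0 : ⟪H.X0 (p, lam * p.1), dy H.f p⟫ = ⟪dx H.f p, dy H.f p⟫ := by
    rw [X0, inner_add_left, real_inner_smul_left,
      real_inner_comm (dy H.f p) (H.u (p, lam * p.1))]
    by_cases hp : p ∈ H.K
    · rw [H.T_u p hp, mul_zero, add_zero]
    · simp [H.a_zero p hp]
  rw [exy, dx_approx H N hlam, dy_approx, inner_series, Xt_zero, Tt_zero, lift, h0]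
  ring

lemma eyy_eq (N : ℕ) (lam : ℝ) (p : R2) :
    H.eyy N lam p = ∑ k ∈ Finset.range (2 * N + 2),
      (lam⁻¹) ^ (k + 1) * cconv N (Tco H.term) (Tco H.term) (k + 1) (p, lam * p.1) := by
  rw [eyy, dy_approx, inner_series, Tt_zero, lift]
  ring

/-- The coefficient of the scalar equation. -/
def detCo (N k : ℕ) (q : R3) : ℝ :=
  (if k < 2 * N + 2 then lift H.B q * cconv N (H.Xt N) (H.Xt N) (k + 1) q else 0) +
    ∑ x ∈ (Finset.range (2 * N + 2) ×ˢ Finset.range (2 * N + 2)).filter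
        (fun x => x.1 + x.2 + 1 = k),
      (cconv N (H.Xt N) (Tco H.term) (x.1 + 1) q * cconv N (H.Xt N) (Tco H.term) (x.2 + 1) q
        - cconv N (H.Xt N) (H.Xt N) (x.1 + 1) q
          * cconv N (Tco H.term) (Tco H.term) (x.2 + 1) q)

lemma detCo_prof (N k : ℕ) : IsProfile (H.detCo N k) := by
  have hX := H.Xt_prof N
  have hT := H.Tt_prof
  have mulp : ∀ {P Q : R3 → ℝ}, IsProfile P → IsProfile Q → IsProfile fun q => P q * Q q :=
    fun hP hQ => isProfile_bilin hP hQ (ContinuousLinearMap.mul ℝ ℝ)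
  refine isProfile_add ?_ (isProfile_sum _ fun x _ => ?_)
  · split_ifs
    · exact mulp (isProfile_lift H.B_smooth) (cconv_prof hX hX _)
    · exact ⟨contDiff_const, fun _ => ⟨rfl, rfl, rfl⟩⟩
  · simpa [← sub_eq_add_neg] using isProfile_add
      (mulp (cconv_prof (N := N) hX hT (x.1 + 1)) (cconv_prof (N := N) hX hT (x.2 + 1)))
      (isProfile_comp (mulp (cconv_prof (N := N) hX hX (x.1 + 1))
        (cconv_prof (N := N) hT hT (x.2 + 1))) contDiff_neg)

lemma detCo_zero {N k : ℕ} (hk : k < N) (q : R3) : H.detCo N k q = 0 := by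
  have hcX : ∀ j ≤ N, cconv N (H.Xt N) (H.Xt N) j q = conv (Xco H.term) (Xco H.term) j q :=
    fun j hj => by
      rw [cconv_eq (by omega)]
      refine Finset.sum_congr rfl fun i hi => ?_
      have h := Finset.mem_range.1 hi
      rw [Xt, Xt, if_pos (by omega), if_pos (by omega)]
  have hcT : ∀ j ≤ N, cconv N (H.Xt N) (Tco H.term) j q = conv (Xco H.term) (Tco H.term) j q :=
    fun j hj => by
      rw [cconv_eq (by omega)]
      refine Finset.sum_congr rfl fun i hi => ?_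
      have h := Finset.mem_range.1 hi
      rw [Xt, if_pos (by omega)]
  have hsum : ∑ x ∈ (Finset.range (2 * N + 2) ×ˢ Finset.range (2 * N + 2)).filter
        (fun x => x.1 + x.2 + 1 = k),
      (cconv N (H.Xt N) (Tco H.term) (x.1 + 1) q * cconv N (H.Xt N) (Tco H.term) (x.2 + 1) q
        - cconv N (H.Xt N) (H.Xt N) (x.1 + 1) q
          * cconv N (Tco H.term) (Tco H.term) (x.2 + 1) q) =
      -∑ i ∈ Finset.Ico 1 (k + 1),
        (conv (Xco H.term) (Xco H.term) i q * conv (Tco H.term) (Tco H.term) (k + 1 - i) q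
          - conv (Xco H.term) (Tco H.term) i q * conv (Xco H.term) (Tco H.term) (k + 1 - i) q) := by
    rw [← Finset.sum_neg_distrib]
    refine Finset.sum_bij' (fun x _ => x.1 + 1) (fun i _ => (i - 1, k - i)) ?_ ?_ ?_ ?_ ?_
    all_goals intro x hx
    all_goals simp only [Finset.mem_filter, Finset.mem_product, Finset.mem_range,
      Finset.mem_Ico] at hx ⊢
    all_goals try omega
    · exact Prod.ext (by show x.1 + 1 - 1 = x.1; omega) (by show k - (x.1 + 1) = x.2; omega)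
    · rw [hcT _ (by omega), hcT _ (by omega), hcX _ (by omega), cconv_eq (by omega),
        show k + 1 - (x.1 + 1) = x.2 + 1 by omega]
      ring
  rw [detCo, if_pos (by omega), hsum, hcX _ (by omega), order_xx H (by omega), src, lift]
  obtain ⟨p, θ⟩ := q
  by_cases hp : p ∈ H.K
  · have hB := (H.B_pos p (H.η_one p hp)).ne'
    rw [H.rinv_one (H.η_one p hp), ← mul_assoc, mul_inv_cancel₀ hB]
    ring
  · rw [Finset.sum_eq_zero fun i hi => ?_]
    · ring
    · obtain ⟨h1, h2⟩ := Finset.mem_Ico.1 hi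
      obtain ⟨e1, e2⟩ := conv_zero (H.known (k + 1)) hp θ h1 h2
      rw [e1, e2]
      ring

/-- The scalar equation as a series of orders above `N`. -/
theorem det_eq (N : ℕ) {lam : ℝ} (hlam : lam ≠ 0) (p : R2) :
    H.exx N lam p * (H.B p - H.eyy N lam p) + H.exy N lam p * H.exy N lam p =
      ∑ k ∈ Finset.Ico N (2 * (2 * N + 2)), (lam⁻¹) ^ (k + 1) * H.detCo N k (p, lam * p.1) := by
  classical
  obtain ⟨M, hM⟩ : ∃ M, M = 2 * N + 2 := ⟨_, rfl⟩
  obtain ⟨r, hr⟩ : ∃ r, r = lam⁻¹ := ⟨_, rfl⟩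
  obtain ⟨q, hq⟩ : ∃ q : R3, q = (p, lam * p.1) := ⟨_, rfl⟩
  rw [H.exx_eq N hlam, H.exy_eq N hlam, H.eyy_eq N, ← hM, ← hr, ← hq]
  have hsplit : ∑ k ∈ Finset.range (2 * M), r ^ (k + 1) * H.detCo N k q =
      ∑ k ∈ Finset.Ico N (2 * M), r ^ (k + 1) * H.detCo N k q := by
    rw [← Finset.sum_range_add_sum_Ico (fun k => r ^ (k + 1) * H.detCo N k q)
      (show N ≤ 2 * M by omega), Finset.sum_eq_zero fun k hk => by
        rw [H.detCo_zero (Finset.mem_range.1 hk), mul_zero], zero_add]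
  rw [← hsplit]
  obtain ⟨ξ, hξ⟩ : ∃ ξ : ℕ → ℝ,
      ξ = fun k => r ^ (k + 1) * cconv N (H.Xt N) (H.Xt N) (k + 1) q := ⟨_, rfl⟩
  obtain ⟨e, he⟩ : ∃ e : ℕ → ℝ,
      e = fun k => r ^ (k + 1) * cconv N (H.Xt N) (Tco H.term) (k + 1) q := ⟨_, rfl⟩
  obtain ⟨ζ, hζ⟩ : ∃ ζ : ℕ → ℝ,
      ζ = fun k => r ^ (k + 1) * cconv N (Tco H.term) (Tco H.term) (k + 1) q := ⟨_, rfl⟩
  have h1 : ∀ k, r ^ (k + 1) * H.detCo N k q = (if k < M then H.B p * ξ k else 0) +
      ∑ x ∈ (Finset.range M ×ˢ Finset.range M).filter (fun x => x.1 + x.2 + 1 = k),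
        (e x.1 * e x.2 - ξ x.1 * ζ x.2) := fun k => by
    rw [detCo, ← hM, mul_add, Finset.mul_sum]
    congr 1
    · rw [show lift H.B q = H.B p by rw [hq]; rfl]
      split_ifs
      · rw [hξ]; ring
      · exact mul_zero _
    · refine Finset.sum_congr rfl fun x hx => ?_
      rw [he, hξ, hζ, ← (Finset.mem_filter.1 hx).2,
        show x.1 + x.2 + 1 + 1 = (x.1 + 1) + (x.2 + 1) by omega, pow_add]
      ring
  have h2 : (Finset.range (2 * M)).filter (fun k => k < M) = Finset.range M := by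
    ext k; simp only [Finset.mem_filter, Finset.mem_range]; omega
  rw [Finset.sum_congr rfl fun k _ => h1 k, Finset.sum_add_distrib, ← Finset.sum_filter, h2,
    Finset.sum_fiberwise_of_maps_to (g := fun x : ℕ × ℕ => x.1 + x.2 + 1) (fun x hx => by
      simp only [Finset.mem_product, Finset.mem_range] at hx ⊢; omega),
    Finset.sum_sub_distrib]
  have p1 : ∀ u v : ℕ → ℝ, ∑ x ∈ Finset.range M ×ˢ Finset.range M, u x.1 * v x.2 =
      (∑ i ∈ Finset.range M, u i) * ∑ j ∈ Finset.range M, v j := fun u v => by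
    rw [Finset.sum_mul_sum, Finset.sum_product]
  rw [p1, p1, ← Finset.mul_sum]
  simp only [hξ, he, hζ]
  ring

/-- The scalar equation holds up to `O (lam ^ (-(N + 1)))`. -/
theorem det_bound (N n : ℕ) :
    ∃ C, 0 ≤ C ∧ ∀ lam : ℝ, 1 ≤ lam → ∀ p,
      ‖iteratedFDeriv ℝ n (fun p =>
        H.exx N lam p * (H.B p - H.eyy N lam p) + H.exy N lam p * H.exy N lam p) p‖
        ≤ C * lam ^ n * (lam⁻¹) ^ (N + 1) := by
  obtain ⟨C, hC0, hC⟩ := sum_bound (m := fun _ : Unit => (1 : ℝ)) (fun _ => le_rfl)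
    (Finset.Ico N (2 * (2 * N + 2))) (d := fun k => k + 1) (K := N + 1)
    (fun k hk => by have := (Finset.mem_Ico.1 hk).1; omega)
    (G := fun k _ => H.detCo N k) (fun k _ => Fam.fixed (fun _ => le_rfl) (H.detCo_prof N k)) n
  refine ⟨C, hC0, fun lam hlam p => ?_⟩
  rw [funext (H.det_eq N (show lam ≠ 0 by linarith))]
  simpa [smul_eq_mul] using hC () lam hlam p

/-- Each error component is of positive order. -/
theorem err_bound (N n : ℕ) :
    ∃ C, 0 ≤ C ∧ ∀ lam : ℝ, 1 ≤ lam → ∀ p,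
      ‖iteratedFDeriv ℝ n (fun p => ((H.exx N lam p, H.exy N lam p, H.eyy N lam p) : Sym3)) p‖
        ≤ C * lam ^ n * lam⁻¹ := by
  obtain ⟨C, hC0, hC⟩ := sum_bound (m := fun _ : Unit => (1 : ℝ)) (fun _ => le_rfl)
    (Finset.range (2 * N + 2)) (d := fun k => k + 1) (K := 1) (fun k _ => Nat.le_add_left _ _)
    (G := fun k _ q => ((cconv N (H.Xt N) (H.Xt N) (k + 1) q,
      cconv N (H.Xt N) (Tco H.term) (k + 1) q,
      cconv N (Tco H.term) (Tco H.term) (k + 1) q) : Sym3))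
    (fun k _ => Fam.fixed (fun _ => le_rfl) (by
      have a := cconv_prof (N := N) (H.Xt_prof N) (H.Xt_prof N) (k + 1)
      have b := cconv_prof (N := N) (H.Xt_prof N) H.Tt_prof (k + 1)
      have c := cconv_prof (N := N) H.Tt_prof H.Tt_prof (k + 1)
      exact ⟨a.1.prodMk (b.1.prodMk c.1), fun z =>
        ⟨Prod.ext (a.2 z).1 (Prod.ext (b.2 z).1 (c.2 z).1),
          Prod.ext (a.2 z).2.1 (Prod.ext (b.2 z).2.1 (c.2 z).2.1),
          Prod.ext (a.2 z).2.2 (Prod.ext (b.2 z).2.2 (c.2 z).2.2)⟩⟩)) n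
  refine ⟨C, hC0, fun lam hlam p => ?_⟩
  refine le_trans (le_of_eq (congrArg (‖iteratedFDeriv ℝ n · p‖) (funext fun p => ?_)))
    ((hC () lam hlam p).trans_eq (by simp))
  simp only [H.exx_eq N (show lam ≠ 0 by linarith), H.exy_eq N (show lam ≠ 0 by linarith), H.eyy_eq N]
  ext <;> simp [Prod.fst_sum, Prod.snd_sum]

lemma approx_sub (N : ℕ) (lam : ℝ) (p : R2) :
    H.approx N lam p - H.f p =
      ∑ k ∈ Finset.range (N + 1), (lam⁻¹) ^ (k + 1) • H.U (k + 1) (p, lam * p.1) := by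
  rw [approx, Finset.sum_range_succ', show H.U 0 = lift H.f from rfl]
  simp [lift]

lemma approx_off (N : ℕ) (lam : ℝ) {p : R2} (hp : p ∉ H.K) : H.approx N lam p = H.f p := by
  rw [← sub_eq_zero, approx_sub]
  exact Finset.sum_eq_zero fun k _ => by rw [H.U_support (by omega) hp, smul_zero]

lemma contDiff_approx (N : ℕ) (lam : ℝ) : ContDiff ℝ ∞ (H.approx N lam) :=
  ContDiff.sum fun k _ =>
    (((H.U_prof k).1.comp (contDiff_id.prodMk (contDiff_const.mul contDiff_fst))).const_smul _ :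
      ContDiff ℝ ∞ fun p : R2 => (lam⁻¹) ^ k • H.U k (p, lam * p.1))

lemma smooth2_approx (N n : ℕ) : Smooth2 (H.approx N n) := by
  have h : ∀ k (p v : R2) (j : ℕ), (∀ z : R3, H.U k (z + (v, 0)) = H.U k z) →
      H.U k (p + v, (n : ℝ) * p.1 + j) = H.U k (p, (n : ℝ) * p.1) := fun k p v j hv => by
    have e := (phase_periodic (H.U_prof k) (p + v)).nat_mul j ((n : ℝ) * p.1)
    simp only [mul_one] at e
    rw [e, ← hv (p, (n : ℝ) * p.1)]
    exact congrArg _ (Prod.ext rfl (add_zero _).symm)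
  refine ⟨H.contDiff_approx N _, fun p => ?_, fun p => ?_⟩
  all_goals refine Finset.sum_congr rfl fun k _ => ?_
  · rw [show ((n : ℝ) * (p + ((1 : ℝ), (0 : ℝ))).1) = (n : ℝ) * p.1 + n by simp [mul_add],
      h k p (1, 0) n fun z => ((H.U_prof k).2 z).1]
  · rw [show ((n : ℝ) * (p + ((0 : ℝ), (1 : ℝ))).1) = (n : ℝ) * p.1 + ((0 : ℕ) : ℝ) by simp,
      h k p (0, 1) 0 fun z => ((H.U_prof k).2 z).2.1]

theorem approx_bound (N n : ℕ) :
    ∃ C, 0 ≤ C ∧ ∀ lam : ℝ, 1 ≤ lam → ∀ p,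
      ‖iteratedFDeriv ℝ n (fun p => H.approx N lam p - H.f p) p‖ ≤ C * lam ^ n * lam⁻¹ := by
  obtain ⟨C, hC0, hC⟩ := sum_bound (m := fun _ : Unit => (1 : ℝ)) (fun _ => le_rfl)
    (Finset.range (N + 1)) (d := fun k => k + 1) (K := 1) (fun k _ => Nat.le_add_left _ _)
    (G := fun k _ => H.U (k + 1)) (fun k _ => Fam.fixed (fun _ => le_rfl) (H.U_prof (k + 1))) n
  refine ⟨C, hC0, fun lam hlam p => ?_⟩
  rw [funext (H.approx_sub N lam)]
  simpa using hC () lam hlam p

end Hybrid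

end

end Vale.Agent.P205.WKB
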